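import Mathlib

/-!
P190: derivations extend along formally étale algebras, in particular from polynomials to separable
extensions of their field of fractions.
-/

open TensorProduct

namespace Vale.Agent.P190.Example

variable {R S T : Type*} [CommRing R] [CommRing S] [CommRing T] [Algebra R S] [Algebra S T]
  [Algebra R T] [IsScalarTower R S T] [Algebra.FormallyEtale S T]

/-- The extension of a derivation along a formally étale algebra. -/
noncomputable def extendDer (d : Derivation R S T) : Derivation R T T :=
  (((d.liftKaehlerDifferential.liftBaseChange T).comp
    (KaehlerDifferential.tensorKaehlerEquivOfFormallyEtale R S T).symm.toLinearMap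
      : Ω[T⁄R] →ₗ[T] T)).compDer (KaehlerDifferential.D R T)

theorem extendDer_algebraMap (d : Derivation R S T) (s : S) :
    extendDer d (algebraMap S T s) = d s := by
  show (d.liftKaehlerDifferential.liftBaseChange T)
    ((KaehlerDifferential.tensorKaehlerEquivOfFormallyEtale R S T).symm
      (KaehlerDifferential.D R T (algebraMap S T s))) = d s
  rw [KaehlerDifferential.tensorKaehlerEquivOfFormallyEtale_symm_D_algebraMap,
    LinearMap.liftBaseChange_tmul, one_smul, Derivation.liftKaehlerDifferential_comp_D]

/-- A separable extension of the field of fractions is formally étale over the domain. -/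
theorem formallyEtale_of_fractions (S F K : Type*) [CommRing S] [IsDomain S] [Field F] [Field K]
    [Algebra S F] [IsFractionRing S F] [Algebra F K] [Algebra S K] [IsScalarTower S F K]
    [Algebra.IsSeparable F K] [Algebra.EssFiniteType F K] : Algebra.FormallyEtale S K := by
  have : Algebra.FormallyEtale S F := Algebra.FormallyEtale.of_isLocalization (nonZeroDivisors S)
  have : Algebra.FormallyEtale F K := Algebra.FormallyEtale.of_isSeparable F K
  exact Algebra.FormallyEtale.comp S F K

end Vale.Agent.P190.Example
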