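import Vale.Agent.P190.Example.Local

/-!
P190: at every point of a chart of the blow-up of `u^m = x^m - y^m, v^m = y^m - 1, w^m = 1 - x^m`
in the ideal of `x v, y w, z u` two elements generate the maximal ideal.

A family of six (`x, y, z, u, v, w`) is normalised at a coordinate which does not vanish at the point.
Off the singular set two coordinates are the parameters; on it the first parameter is the quadric of
the chart and the second a ratio of two quadrics.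
-/

open MvPolynomial

namespace Vale.Agent.P190.Example

variable {k K : Type*} [Field k] [Field K] [Algebra k K]

/-- The six coordinates with `z = 1`. -/
def six (x y u v w : K) : Fin 6 → K := ![x, y, 1, u, v, w]

/-- The three quadrics `x v, y w, z u`. -/
def quad (L : Fin 6 → K) : Fin 3 → K := ![L 0 * L 4, L 1 * L 5, L 2 * L 3]

/-- The equations. -/
def Fermat (m : ℕ) (L : Fin 6 → K) : Prop :=
  L 3 ^ m = L 0 ^ m - L 1 ^ m ∧ L 4 ^ m = L 1 ^ m - L 2 ^ m ∧ L 5 ^ m = L 2 ^ m - L 0 ^ m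

/-- The cyclic symmetry. -/
def rot (L : Fin 6 → K) : Fin 6 → K := ![L 1, L 2, L 0, L 4, L 5, L 3]

theorem Fermat.rot {m : ℕ} {L : Fin 6 → K} (h : Fermat m L) : Fermat m (rot L) :=
  ⟨h.2.1, h.2.2, h.1⟩

theorem Fermat.div {m : ℕ} {L : Fin 6 → K} (h : Fermat m L) (s : K) :
    Fermat m fun l => L l / s := by
  obtain ⟨h₁, h₂, h₃⟩ := h
  refine ⟨?_, ?_, ?_⟩ <;> simp only [div_pow, h₁, h₂, h₃, sub_div]

theorem quad_div (L : Fin 6 → K) (s : K) (q : Fin 3) :
    quad (fun l => L l / s) q = quad L q / (s * s) := by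
  fin_cases q <;> simp [quad, div_mul_div_comm]

theorem quad_fermat {m : ℕ} {L : Fin 6 → K} (h : Fermat m L) :
    quad L 0 ^ m + quad L 1 ^ m + quad L 2 ^ m = 0 := by
  obtain ⟨h₁, h₂, h₃⟩ := h
  simp only [quad, Matrix.cons_val_zero, Matrix.cons_val_one, Matrix.cons_val, mul_pow, h₁, h₂, h₃]
  ring

variable {B : Subalgebra k K} {χ : B →ₐ[k] k} {m : ℕ}

theorem val_quad {L : Fin 6 → K} {α : Fin 6 → k} (h : ∀ l, Val χ (L l) (α l)) (q : Fin 3) :
    Val χ (quad L q) (quad α q) := by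
  fin_cases q
  exacts [(h 0).mul (h 4), (h 1).mul (h 5), (h 2).mul (h 3)]

theorem fermat_val {L : Fin 6 → K} {α : Fin 6 → k} (h : ∀ l, Val χ (L l) (α l))
    (hF : Fermat m L) : Fermat m α := by
  obtain ⟨h₁, h₂, h₃⟩ := hF
  exact ⟨(h₁ ▸ (h 3).pow m).unique (((h 0).pow m).sub ((h 1).pow m)),
    (h₂ ▸ (h 4).pow m).unique (((h 1).pow m).sub ((h 2).pow m)),
    (h₃ ▸ (h 5).pow m).unique (((h 2).pow m).sub ((h 0).pow m))⟩

/-- All six coordinates are congruent to their values. -/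
def AllCong (χ : B →ₐ[k] k) (u v : K) (L : Fin 6 → K) (α : Fin 6 → k) : Prop :=
  ∀ l, Cong χ u v (L l) (α l)

section

variable {u v : K} (hu : Val χ u 0) (hv : Val χ v 0) (hm : (m : k) ≠ 0)

include hu hv hm in
/-- An element whose power is the difference of two powers. -/
theorem cong_root {e a b : K} {ce ca cb : k} (he : Val χ e ce) (hce : ce ≠ 0)
    (ha : Cong χ u v a ca) (hb : Cong χ u v b cb) (h : e ^ m = a ^ m - b ^ m)
    (hc : ce ^ m = ca ^ m - cb ^ m) : Cong χ u v e ce := by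
  refine cong_of_pow hm he hce ?_
  rw [h, hc]
  simpa [sub_eq_add_neg] using
    (ha.pow hu hv m).add (((cong_algebraMap (χ := χ) (u := u) (v := v) (-1))).mul hu hv
      (hb.pow hu hv m))

theorem cong_sub_const {e : K} {c : k} : v = e - algebraMap k K c → Cong χ u v e c :=
  fun h => ⟨0, 1, val_zero.reg, val_one.reg, by rw [← h]; ring⟩

theorem cong_sub_const_left {e : K} {c : k} : u = e - algebraMap k K c → Cong χ u v e c :=
  fun h => ⟨1, 0, val_one.reg, val_zero.reg, by rw [← h]; ring⟩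

end

theorem val_sub_const {e : K} {c : k} (h : Val χ e c) : Val χ (e - algebraMap k K c) 0 := by
  simpa using h.sub (val_algebraMap c)

/-- Off the singular set, no zero among `u, v, w`. -/
theorem off_generic (hm : (m : k) ≠ 0) {L : Fin 6 → K} {α : Fin 6 → k}
    (h : ∀ l, Val χ (L l) (α l)) (hF : Fermat m L) (h2 : L 2 = 1) (h3 : α 3 ≠ 0) (h4 : α 4 ≠ 0)
    (h5 : α 5 ≠ 0) : ∃ u v : K, Val χ u 0 ∧ Val χ v 0 ∧ AllCong χ u v L α := by
  have hα : Fermat m α := fermat_val h hF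
  obtain ⟨u, hu_def⟩ : ∃ u, u = L 0 - algebraMap k K (α 0) := ⟨_, rfl⟩
  obtain ⟨v, hv_def⟩ : ∃ v, v = L 1 - algebraMap k K (α 1) := ⟨_, rfl⟩
  have hu : Val χ u 0 := hu_def ▸ val_sub_const (h 0)
  have hv : Val χ v 0 := hv_def ▸ val_sub_const (h 1)
  have c0 := cong_sub_const_left (χ := χ) (v := v) hu_def
  have c1 := cong_sub_const (χ := χ) (u := u) hv_def
  have hα2 : α 2 = 1 := (h 2).unique (by rw [h2]; exact val_one)
  have c2 : Cong χ u v (L 2) (α 2) := by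
    rw [h2, hα2]; simpa using cong_algebraMap (χ := χ) (u := u) (v := v) (1 : k)
  refine ⟨u, v, hu, hv, fun l => ?_⟩
  fin_cases l
  exacts [c0, c1, c2, cong_root hu hv hm (h 3) h3 c0 c1 hF.1 hα.1,
    cong_root hu hv hm (h 4) h4 c1 c2 hF.2.1 hα.2.1,
    cong_root hu hv hm (h 5) h5 c2 c0 hF.2.2 hα.2.2]

/-- Off the singular set, `u` vanishes. -/
theorem off_special (hm : (m : k) ≠ 0) {L : Fin 6 → K} {α : Fin 6 → k}
    (h : ∀ l, Val χ (L l) (α l)) (hF : Fermat m L) (h0 : L 0 = 1) (h1 : α 1 ≠ 0)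
    (h4 : α 4 ≠ 0) (h5 : α 5 ≠ 0) : ∃ u v : K, Val χ u 0 ∧ Val χ v 0 ∧ AllCong χ u v L α := by
  have hα : Fermat m α := fermat_val h hF
  obtain ⟨u, hu_def⟩ : ∃ u, u = L 3 - algebraMap k K (α 3) := ⟨_, rfl⟩
  obtain ⟨v, hv_def⟩ : ∃ v, v = L 2 - algebraMap k K (α 2) := ⟨_, rfl⟩
  have hu : Val χ u 0 := hu_def ▸ val_sub_const (h 3)
  have hv : Val χ v 0 := hv_def ▸ val_sub_const (h 2)
  have c3 := cong_sub_const_left (χ := χ) (v := v) hu_def
  have c2 := cong_sub_const (χ := χ) (u := u) hv_def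
  have hα0 : α 0 = 1 := (h 0).unique (by rw [h0]; exact val_one)
  have c0 : Cong χ u v (L 0) (α 0) := by
    rw [h0, hα0]; simpa using cong_algebraMap (χ := χ) (u := u) (v := v) (1 : k)
  have c1 : Cong χ u v (L 1) (α 1) :=
    cong_root hu hv hm (h 1) h1 c0 c3 (by linear_combination hF.1)
      (by linear_combination hα.1)
  refine ⟨u, v, hu, hv, fun l => ?_⟩
  fin_cases l
  exacts [c0, c1, c2, c3, cong_root hu hv hm (h 4) h4 c1 c2 hF.2.1 hα.2.1,
    cong_root hu hv hm (h 5) h5 c2 c0 hF.2.2 hα.2.2]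

theorem allCong_rot {u v : K} {L : Fin 6 → K} {α : Fin 6 → k}
    (h : AllCong χ u v (rot L) (rot α)) : AllCong χ u v L α := by
  intro l
  fin_cases l
  exacts [h 2, h 0, h 1, h 5, h 3, h 4]

/-- Off the singular set some normalisation has all six coordinates congruent to their values. -/
theorem off_cases (hm : (m : k) ≠ 0) {L : Fin 6 → K} {α : Fin 6 → k}
    (h : ∀ l, Val χ (L l) (α l)) (hF : Fermat m L) {q : Fin 3} (hq : quad α q ≠ 0) :
    ∃ p, α p ≠ 0 ∧ ∃ u v : K, Val χ u 0 ∧ Val χ v 0 ∧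
      AllCong χ u v (fun l => L l / L p) fun l => α l / α p := by
  have hm0 : m ≠ 0 := fun h0 => hm (by simp [h0])
  have hα : Fermat m α := fermat_val h hF
  have hne : ∀ p, α p ≠ 0 → L p / L p = 1 := fun p hp =>
    div_self fun h0 => hp ((h p).unique (h0 ▸ val_zero))
  have hval : ∀ p, α p ≠ 0 → ∀ l, Val χ (L l / L p) (α l / α p) := fun p hp l =>
    (h l).div (h p) hp
  have hrot : ∀ (L' : Fin 6 → K) (α' : Fin 6 → k), (∀ l, Val χ (L' l) (α' l)) →
      ∀ l, Val χ (rot L' l) (rot α' l) := fun L' α' h' l => by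
    fin_cases l
    exacts [h' 1, h' 2, h' 0, h' 4, h' 5, h' 3]
  have heq : ∀ a b : k, a ^ m = b ^ m → b = 0 → a = 0 := fun a b hab hb =>
    eq_zero_of_pow_eq_zero (n := m) (by rw [hab, hb, zero_pow hm0])
  -- two of `u, v, w` cannot both vanish
  have htwo : ∀ {a b c d e f : k}, d ^ m = a ^ m - b ^ m → e ^ m = b ^ m - c ^ m →
      f ^ m = c ^ m - a ^ m → d = 0 → e = 0 → f = 0 := fun {a b c d e f} h₁ h₂ h₃ hd he => by
    rw [hd, zero_pow hm0] at h₁
    rw [he, zero_pow hm0] at h₂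
    exact eq_zero_of_pow_eq_zero (n := m) (by linear_combination h₃ + h₁ + h₂)
  by_cases h3 : α 3 = 0
  · have h4 : α 4 ≠ 0 := fun h4 => hq (by
      have h5 := htwo hα.1 hα.2.1 hα.2.2 h3 h4
      fin_cases q <;> simp [quad, h3, h4, h5])
    have h5 : α 5 ≠ 0 := fun h5 => h4 (htwo hα.2.2 hα.1 hα.2.1 h5 h3)
    have hp : α 0 ^ m = α 1 ^ m := by
      have h' := hα.1
      rw [h3, zero_pow hm0] at h'
      linear_combination -h'
    have h0 : α 0 ≠ 0 := fun h0 => hq (by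
      have h1 := heq _ _ hp.symm h0
      fin_cases q <;> simp [quad, h0, h1, h3])
    have h1 : α 1 ≠ 0 := fun h1 => h0 (heq _ _ hp h1)
    exact ⟨0, h0, off_special hm (hval 0 h0) (hF.div _) (hne 0 h0) (div_ne_zero h1 h0)
      (div_ne_zero h4 h0) (div_ne_zero h5 h0)⟩
  by_cases h4 : α 4 = 0
  · have h5 : α 5 ≠ 0 := fun h5 => h3 (htwo hα.2.1 hα.2.2 hα.1 h4 h5)
    have hp : α 1 ^ m = α 2 ^ m := by
      have h' := hα.2.1
      rw [h4, zero_pow hm0] at h'
      linear_combination -h'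
    have h1 : α 1 ≠ 0 := fun h1 => hq (by
      have h2 := heq _ _ hp.symm h1
      fin_cases q <;> simp [quad, h1, h2, h4])
    have h2 : α 2 ≠ 0 := fun h2 => h1 (heq _ _ hp h2)
    obtain ⟨u, v, hu, hv, hall⟩ := off_special hm (hrot _ _ (hval 1 h1)) (hF.div _).rot (hne 1 h1)
      (div_ne_zero h2 h1) (div_ne_zero h5 h1) (div_ne_zero h3 h1)
    exact ⟨1, h1, u, v, hu, hv, allCong_rot hall⟩
  by_cases h5 : α 5 = 0
  · have hp : α 2 ^ m = α 0 ^ m := by
      have h' := hα.2.2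
      rw [h5, zero_pow hm0] at h'
      linear_combination -h'
    have h2 : α 2 ≠ 0 := fun h2 => hq (by
      have h0 := heq _ _ hp.symm h2
      fin_cases q <;> simp [quad, h2, h0, h5])
    have h0 : α 0 ≠ 0 := fun h0 => h2 (heq _ _ hp h0)
    obtain ⟨u, v, hu, hv, hall⟩ := off_special hm (hrot _ _ (hrot _ _ (hval 2 h2)))
      (hF.div _).rot.rot (hne 2 h2) (div_ne_zero h0 h2)
      (div_ne_zero h3 h2) (div_ne_zero h4 h2)
    exact ⟨2, h2, u, v, hu, hv, allCong_rot (allCong_rot hall)⟩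
  obtain ⟨p, hp, hp'⟩ : ∃ p, α p ≠ 0 ∧ (p = 2 ∨ p = 0 ∨ p = 1) := by
    by_cases h2 : α 2 = 0
    · by_cases h0 : α 0 = 0
      · exact absurd (heq (α 5) 0 (by rw [hα.2.2, h2, h0]; simp [zero_pow hm0]) rfl) h5
      · exact ⟨0, h0, by simp⟩
    · exact ⟨2, h2, by simp⟩
  have hd : ∀ l, α l ≠ 0 → α l / α p ≠ 0 := fun l hl => div_ne_zero hl hp
  rcases hp' with rfl | rfl | rfl
  · exact ⟨2, hp, off_generic hm (hval 2 hp) (hF.div _) (hne 2 hp) (hd 3 h3) (hd 4 h4) (hd 5 h5)⟩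
  · obtain ⟨u, v, hu, hv, hall⟩ := off_generic hm (hrot _ _ (hval 0 hp)) (hF.div _).rot (hne 0 hp)
      (hd 4 h4) (hd 5 h5) (hd 3 h3)
    exact ⟨0, hp, u, v, hu, hv, allCong_rot hall⟩
  · obtain ⟨u, v, hu, hv, hall⟩ := off_generic hm (hrot _ _ (hrot _ _ (hval 1 hp)))
      (hF.div _).rot.rot (hne 1 hp) (hd 5 h5) (hd 3 h3) (hd 4 h4)
    exact ⟨1, hp, u, v, hu, hv, allCong_rot (allCong_rot hall)⟩

end Vale.Agent.P190.Example
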