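import Mathlib

/-!
# P190 Module 6: order of a polynomial at a point
-/

namespace Vale.Agent.P190.Example

open MvPolynomial

variable {σ k : Type*} [Field k]

/-- Translation of the origin to `P`. -/
noncomputable def shift (P : σ → k) : MvPolynomial σ k →ₐ[k] MvPolynomial σ k :=
  aeval fun i => X i + C (P i)

/-- The order of vanishing at `P`. -/
noncomputable def ordAt (P : σ → k) (p : MvPolynomial σ k) : ℕ∞ :=
  (shift P p : MvPowerSeries σ k).order

variable {P : σ → k} {p q : MvPolynomial σ k}

@[simp] theorem shift_X (i : σ) : shift P (X i) = X i + C (P i) := by simp [shift]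

theorem shift_shift_neg (p : MvPolynomial σ k) : shift P (shift (-P) p) = p := by
  induction p using MvPolynomial.induction_on with
  | C a => simp [shift]
  | add p q hp hq => simp [hp, hq]
  | mul_X p i hp => simp [hp, map_mul, map_add, algHom_C]

theorem shift_neg_shift (p : MvPolynomial σ k) : shift (-P) (shift P p) = p := by
  simpa using shift_shift_neg (P := -P) p

theorem shift_injective (P : σ → k) : Function.Injective (shift P) :=
  Function.LeftInverse.injective shift_neg_shift

theorem le_ordAt {n : ℕ} :
    (n : ℕ∞) ≤ ordAt P p ↔ ∀ d : σ →₀ ℕ, d.degree < n → coeff d (shift P p) = 0 := by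
  refine ⟨fun h d hd => ?_, fun h => MvPowerSeries.nat_le_order fun d hd => ?_⟩
  · rw [← coeff_coe]
    exact MvPowerSeries.coeff_of_lt_order (lt_of_lt_of_le (Nat.cast_lt.mpr hd) h)
  · rw [coeff_coe]
    exact h d hd

@[simp] theorem ordAt_zero : ordAt P (0 : MvPolynomial σ k) = ⊤ := by simp [ordAt]

theorem ordAt_mul (p q : MvPolynomial σ k) : ordAt P (p * q) = ordAt P p + ordAt P q := by
  simp [ordAt, MvPowerSeries.order_mul]

theorem coeff_zero_shift (q : MvPolynomial σ k) : coeff 0 (shift P q) = eval P q := by
  induction q using MvPolynomial.induction_on with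
  | C a => simp [shift]
  | add p q hp hq => simp [hp, hq]
  | mul_X p i hp =>
    rw [← constantCoeff_eq] at hp ⊢
    simp [hp]

theorem ordAt_eq_zero (h : eval P p ≠ 0) : ordAt P p = 0 := by
  by_contra h0
  have := (le_ordAt (P := P) (p := p) (n := 1)).mp
    (by simpa using Order.one_le_iff_ne_zero.mpr h0) 0 (by simp)
  exact h (coeff_zero_shift (P := P) p ▸ this)

@[simp] theorem ordAt_one : ordAt P (1 : MvPolynomial σ k) = 0 :=
  ordAt_eq_zero (by simp)

theorem ordAt_pow (p : MvPolynomial σ k) (n : ℕ) : ordAt P (p ^ n) = n * ordAt P p := by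
  induction n with
  | zero => simp
  | succ n ih => rw [pow_succ, ordAt_mul, ih]; push_cast; ring

theorem ordAt_prod {ι : Type*} (s : Finset ι) (f : ι → MvPolynomial σ k) :
    ordAt P (∏ i ∈ s, f i) = ∑ i ∈ s, ordAt P (f i) := by
  classical
  induction s using Finset.induction with
  | empty => simp
  | @insert a t ha ih => rw [Finset.prod_insert ha, Finset.sum_insert ha, ordAt_mul, ih]

theorem le_ordAt_add {n : ℕ∞} (hp : n ≤ ordAt P p) (hq : n ≤ ordAt P q) :
    n ≤ ordAt P (p + q) := by
  simp only [ordAt, map_add, coe_add] at *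
  exact le_trans (le_min hp hq) MvPowerSeries.min_order_le_add

theorem le_ordAt_smul (a : k) {n : ℕ∞} (hp : n ≤ ordAt P p) : n ≤ ordAt P (a • p) := by
  simp only [ordAt, map_smul, coe_smul] at *
  exact le_trans hp MvPowerSeries.le_order_smul

theorem ordAt_ne_top (hp : p ≠ 0) : ordAt P p ≠ ⊤ := by
  rw [ordAt, ne_eq, MvPowerSeries.order_eq_top_iff]
  intro h
  exact hp (shift_injective P (by simpa [coe_eq_zero_iff] using h))

theorem shift_pderiv (i : σ) (p : MvPolynomial σ k) :
    pderiv i (shift P p) = shift P (pderiv i p) := by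
  classical
  induction p using MvPolynomial.induction_on with
  | C a => simp [shift]
  | add p q hp hq => simp [hp, hq]
  | mul_X p j hp =>
    simp only [map_mul, map_add, shift_X, Derivation.leibniz, hp, smul_eq_mul, pderiv_X,
      pderiv_C, add_zero]
    by_cases h : i = j <;> simp [h]

/-- A simple zero. -/
theorem ordAt_eq_one {i : σ} (h0 : eval P p = 0) (h1 : eval P (pderiv i p) ≠ 0) :
    ordAt P p = 1 := by
  refine le_antisymm ?_ ?_
  · refine le_trans (MvPowerSeries.order_le (d := Finsupp.single i 1) ?_) (by simp)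
    rw [coeff_coe]
    have hc := coeff_pderiv (i := i) (shift P p) 0
    rw [shift_pderiv, coeff_zero_shift, zero_add] at hc
    intro hz
    rw [hz] at hc
    simp [hc] at h1
  · rw [← Nat.cast_one, le_ordAt]
    intro d hd
    rw [Nat.lt_one_iff, Finsupp.degree_eq_zero_iff] at hd
    subst hd
    rw [coeff_zero_shift, h0]

/-- At the origin the order of a homogeneous polynomial is its degree. -/
theorem ordAt_zero_of_isHomogeneous {n : ℕ} (h : p.IsHomogeneous n) (hp : p ≠ 0) :
    ordAt (0 : σ → k) p = n := by
  have hs : shift (0 : σ → k) p = p := by simp [shift]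
  obtain ⟨d, hd⟩ := exists_coeff_ne_zero hp
  rw [ordAt, hs, MvPowerSeries.order_eq_nat]
  exact ⟨⟨d, by rwa [coeff_coe], by rw [Finsupp.degree_eq_weight_one]; exact h hd⟩,
    fun e he => by rw [coeff_coe]; exact h.coeff_eq_zero (by omega)⟩

end Vale.Agent.P190.Example
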