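import Vale.Agent.P190.Example.ChartsSigma
import Vale.Agent.P190.Example.Ord

/-!
P190: at a point of a chart every component `φ u^a v^b w^c / M₀^n` is congruent to its value modulo
two parameters.
-/

open MvPolynomial

namespace Vale.Agent.P190.Example

variable {k K : Type*} [Field k] [Field K] [Algebra k K] {B : Subalgebra k K} {χ : B →ₐ[k] k}
  {m : ℕ}

/-- A polynomial vanishing to order `n` at `P` is in the power of the ideal of `P`. -/
theorem mem_span_pow_of_le_ordAt {P : Fin 2 → k} {p : MvPolynomial (Fin 2) k} {n : ℕ}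
    (h : (n : ℕ∞) ≤ ordAt P p) : p ∈ Ideal.span {X 0 - C (P 0), X 1 - C (P 1)} ^ n := by
  classical
  set I : Ideal (MvPolynomial (Fin 2) k) := Ideal.span {X 0, X 1}
  have hq : shift P p ∈ I ^ n := by
    rw [(shift P p).as_sum]
    refine Ideal.sum_mem _ fun d hd => ?_
    have hdeg : n ≤ d 0 + d 1 := by
      by_contra hlt
      refine mem_support_iff.1 hd (le_ordAt.1 h d ?_)
      rw [Finsupp.degree_eq_sum, Fin.sum_univ_two]
      omega
    rw [monomial_eq, Finsupp.prod_fintype _ _ (fun _ => pow_zero _), Fin.prod_univ_two]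
    refine Ideal.mul_mem_left _ _ (Ideal.pow_le_pow_right hdeg ?_)
    rw [pow_add]
    exact Ideal.mul_mem_mul (Ideal.pow_mem_pow (Ideal.subset_span (by simp)) _)
      (Ideal.pow_mem_pow (Ideal.subset_span (by simp)) _)
  have h2 := Ideal.mem_map_of_mem (shift (-P)).toRingHom hq
  rw [Ideal.map_pow, Ideal.map_span] at h2
  simpa [shift_neg_shift, Set.image_pair, sub_eq_add_neg] using h2

/-- The conditions on a component of degree `n`. -/
structure CompOK (m n : ℕ) (φ : MvPolynomial (Fin 2) k) (a b c : ℕ) : Prop where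
  deg : φ.totalDegree + (a + b + c) ≤ 3 * n
  degX : degreeOf 0 φ + (a + c) ≤ 2 * n
  degY : degreeOf 1 φ + (a + b) ≤ 2 * n
  origin : ((n - a : ℕ) : ℕ∞) ≤ ordAt 0 φ
  points : ∀ ξ η : k, ξ ^ m = 1 → η ^ m = 1 →
    ∃ e : ℕ, (e : ℕ∞) ≤ ordAt ![ξ, η] φ ∧ n ≤ m * e + (a + b + c)

/-- The exponents of the six coordinates in a term. -/
def expo (n a b c : ℕ) (d : Fin 2 →₀ ℕ) : Fin 6 → ℕ :=
  ![d 0, d 1, 3 * n - (d 0 + d 1 + (a + b + c)), a, b, c]

/-- The component made homogeneous. -/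
noncomputable def homTerm (n a b c : ℕ) (φ : MvPolynomial (Fin 2) k) (L : Fin 6 → K) : K :=
  ∑ d ∈ φ.support, algebraMap k K (coeff d φ) * ∏ l, L l ^ expo n a b c d l

theorem CompOK.expo_le {n a b c : ℕ} {φ : MvPolynomial (Fin 2) k} (h : CompOK m n φ a b c)
    {d : Fin 2 →₀ ℕ} (hd : d ∈ φ.support) :
    d 0 + d 1 + (a + b + c) ≤ 3 * n ∧ d 0 + (a + c) ≤ 2 * n ∧ d 1 + (a + b) ≤ 2 * n ∧
      n ≤ d 0 + d 1 + a := by
  have h1 := le_totalDegree hd
  rw [Finsupp.sum_fintype _ _ (fun _ => rfl), Fin.sum_univ_two] at h1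
  have h2 := monomial_le_degreeOf 0 hd
  have h3 := monomial_le_degreeOf 1 hd
  have h4 : n - a ≤ d 0 + d 1 := by
    by_contra hlt
    have hs : shift (0 : Fin 2 → k) φ = φ := by simp [shift]
    refine mem_support_iff.1 hd ?_
    rw [← hs]
    refine le_ordAt.1 h.origin d ?_
    rw [Finsupp.degree_eq_sum, Fin.sum_univ_two]
    omega
  have := h.deg
  have := h.degX
  have := h.degY
  omega

theorem expo_sum {n a b c : ℕ} {φ : MvPolynomial (Fin 2) k} (h : CompOK m n φ a b c)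
    {d : Fin 2 →₀ ℕ} (hd : d ∈ φ.support) : ∑ l, expo n a b c d l = 3 * n := by
  have := (h.expo_le hd).1
  simp [expo, Fin.sum_univ_six]
  omega

theorem homTerm_six {n a b c : ℕ} (φ : MvPolynomial (Fin 2) k) (L : Fin 6 → K) (h2 : L 2 = 1) :
    homTerm n a b c φ L = aeval ![L 0, L 1] φ * (L 3 ^ a * L 4 ^ b * L 5 ^ c) := by
  rw [homTerm]
  conv_rhs => rw [φ.as_sum, map_sum, Finset.sum_mul]
  refine Finset.sum_congr rfl fun d _ => ?_
  rw [aeval_monomial, Finsupp.prod_fintype _ _ (fun _ => pow_zero _), Fin.prod_univ_two,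
    Fin.prod_univ_six]
  simp only [expo, Matrix.cons_val_zero, Matrix.cons_val_one, Matrix.cons_val, h2, one_pow]
  ring

theorem homTerm_div {n a b c : ℕ} {φ : MvPolynomial (Fin 2) k} (h : CompOK m n φ a b c)
    (L : Fin 6 → K) (s : K) :
    homTerm n a b c φ (fun l => L l / s) = homTerm n a b c φ L / s ^ (3 * n) := by
  rw [homTerm, homTerm, Finset.sum_div]
  refine Finset.sum_congr rfl fun d hd => ?_
  rw [mul_div_assoc]
  congr 1
  simp only [div_pow]
  rw [Finset.prod_div_distrib, Finset.prod_pow_eq_pow_sum, expo_sum h hd]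

section

variable {u v e : K} (hu : Val χ u 0) (hv : Val χ v 0)

theorem cong_finsum {ι : Type*} (s : Finset ι) {x : ι → K}
    (h : ∀ i ∈ s, ∃ c, Cong χ u v (x i) c) : ∃ c, Cong χ u v (∑ i ∈ s, x i) c := by
  classical
  induction s using Finset.induction_on with
  | empty => exact ⟨0, by simpa using cong_algebraMap (χ := χ) (u := u) (v := v) 0⟩
  | insert i s hi ih =>
    rw [Finset.sum_insert hi]
    obtain ⟨a, ha⟩ := h i (Finset.mem_insert_self i s)
    obtain ⟨b, hb⟩ := ih fun j hj => h j (Finset.mem_insert_of_mem hj)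
    exact ⟨_, ha.add hb⟩

include hu hv in
/-- Off the singular set. -/
theorem div_off {L : Fin 6 → K} {α : Fin 6 → k} (hall : AllCong χ u v L α) {ce : k}
    (he : Cong χ u v e ce) (hce : ce ≠ 0) (n a b c : ℕ) (φ : MvPolynomial (Fin 2) k) :
    Div χ u v e n (homTerm n a b c φ L) := by
  obtain ⟨r, hr⟩ : ∃ r, Cong χ u v (homTerm n a b c φ L) r := by
    refine cong_finsum _ fun d _ => ?_
    rw [Fin.prod_univ_six]
    exact ⟨_, (cong_algebraMap _).mul hu hv ((((((hall 0).pow hu hv _).mul hu hv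
      ((hall 1).pow hu hv _)).mul hu hv ((hall 2).pow hu hv _)).mul hu hv
      ((hall 3).pow hu hv _)).mul hu hv ((hall 4).pow hu hv _) |>.mul hu hv
      ((hall 5).pow hu hv _))⟩
  have hne : e ≠ 0 := fun h0 => hce ((he.val hu hv).unique (h0 ▸ val_zero))
  refine ⟨homTerm n a b c φ L * (e ^ n)⁻¹, _,
    hr.mul hu hv ((he.pow hu hv n).inv hu hv (pow_ne_zero _ hce)), ?_⟩
  field_simp

include hu hv in
/-- A term in which the divisible coordinates have total exponent at least `n`. -/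
theorem div_term {L : Fin 6 → K} {ce : k} (he : Cong χ u v e ce) (ε : Fin 6 → ℕ)
    (hL : ∀ l, Div χ u v e (ε l) (L l)) {n a b c : ℕ} {φ : MvPolynomial (Fin 2) k}
    (hn : ∀ d ∈ φ.support, n ≤ ∑ l, ε l * expo n a b c d l) :
    Div χ u v e n (homTerm n a b c φ L) := by
  refine Div.sum _ fun d hd => ?_
  refine Div.mono hu hv he (hn d hd) ?_
  have h0 := Div.const (χ := χ) (u := u) (v := v) (e := e) (coeff d φ)
  have hp := ((((((hL 0).pow hu hv (expo n a b c d 0)).mul hu hv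
    ((hL 1).pow hu hv (expo n a b c d 1))).mul hu hv
    ((hL 2).pow hu hv (expo n a b c d 2))).mul hu hv
    ((hL 3).pow hu hv (expo n a b c d 3))).mul hu hv
    ((hL 4).pow hu hv (expo n a b c d 4))).mul hu hv
    ((hL 5).pow hu hv (expo n a b c d 5))
  rw [Fin.prod_univ_six, Fin.sum_univ_six]
  simpa only [zero_add] using h0.mul hu hv hp

end

section Sigma

variable {e v : K} (he : Val χ e 0) (hv : Val χ v 0) (hm : (m : k) ≠ 0) {L : Fin 6 → K}
  {α : Fin 6 → k} (h : ∀ l, Val χ (L l) (α l)) (hF : Fermat m L) {Q : Fin 3 → K} {β : Fin 3 → k}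
  (hQ : ∀ i, Cong χ e v (Q i) (β i)) (hquad : ∀ i, quad L i = Q i * e)

include he hv hm h hF hQ hquad

theorem div_grid (h2 : L 2 = 1) (h0 : α 0 ≠ 0) (h1 : α 1 ≠ 0) :
    AllCong χ e v L α ∧ ∀ (n a b c : ℕ) (φ : MvPolynomial (Fin 2) k), CompOK m n φ a b c →
      Div χ e v e n (homTerm n a b c φ L) := by
  obtain ⟨hall, d3, d4, d5, p0, p1, g0, g1⟩ := sigma_grid he hv hm h hF hQ hquad h2 h0 h1
  refine ⟨hall, fun n a b c φ hφ => ?_⟩
  rw [homTerm_six φ _ h2]
  obtain ⟨l, hl, hle⟩ := hφ.points _ _ p0 p1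
  have d6 := ((d3.pow he hv a).mul he hv (d4.pow he hv b)).mul he hv (d5.pow he hv c)
  have hgen : ∀ i, ∃ r, Cong χ e v ((![L 0, L 1] : Fin 2 → K) i) r := fun i => by
    fin_cases i
    exacts [⟨_, hall 0⟩, ⟨_, hall 1⟩]
  have hmem := mem_span_pow_of_le_ordAt hl
  simp only [Matrix.cons_val_zero, Matrix.cons_val_one] at hmem
  have e0 : aeval (![L 0, L 1] : Fin 2 → K) (X 0 - C (α 0)) = L 0 - algebraMap k K (α 0) := by
    rw [map_sub, aeval_X, aeval_C, Matrix.cons_val_zero]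
  have e1 : aeval (![L 0, L 1] : Fin 2 → K) (X 1 - C (α 1)) = L 1 - algebraMap k K (α 1) := by
    rw [map_sub, aeval_X, aeval_C, Matrix.cons_val_one, Matrix.cons_val_zero]
  have key := Div.of_ideal he hv hgen (m := m) (p₀ := X 0 - C (α 0)) (p₁ := X 1 - C (α 1))
    (e0.symm ▸ g0) (e1.symm ▸ g1) l φ hmem
  refine Div.mono he hv cong_left ?_ (key.mul he hv d6)
  rw [one_mul, one_mul, one_mul]
  exact hle

theorem div_vertexZ (h2 : L 2 = 1) (h4 : α 4 ≠ 0) (h5 : α 5 ≠ 0) :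
    AllCong χ e v L α ∧ ∀ (n a b c : ℕ) (φ : MvPolynomial (Fin 2) k), CompOK m n φ a b c →
      Div χ e v e n (homTerm n a b c φ L) := by
  obtain ⟨hall, d0, d1, d3⟩ := sigma_vertex he hv hm h hF hQ hquad h2 h4 h5
  refine ⟨hall, fun n a b c φ hφ => ?_⟩
  refine div_term he hv cong_left ![1, 1, 0, 1, 0, 0] (fun l => ?_) fun d hd => ?_
  · fin_cases l
    exacts [d0, d1, Div.of_cong (hall 2), d3, Div.of_cong (hall 4), Div.of_cong (hall 5)]
  · have := hφ.expo_le hd
    simp [expo, Fin.sum_univ_six]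
    omega

theorem div_vertexX (h0 : L 0 = 1) (h5 : α 5 ≠ 0) (h3 : α 3 ≠ 0) :
    AllCong χ e v L α ∧ ∀ (n a b c : ℕ) (φ : MvPolynomial (Fin 2) k), CompOK m n φ a b c →
      Div χ e v e n (homTerm n a b c φ L) := by
  obtain ⟨hall, d1, d2, d4⟩ := sigma_vertex he hv hm (L := rot L) (α := rot α)
    (fun l => by fin_cases l; exacts [h 1, h 2, h 0, h 4, h 5, h 3]) hF.rot
    (Q := ![Q 1, Q 2, Q 0]) (β := ![β 1, β 2, β 0])
    (fun i => by fin_cases i; exacts [hQ 1, hQ 2, hQ 0])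
    (fun i => by fin_cases i; exacts [hquad 1, hquad 2, hquad 0]) h0 h5 h3
  replace hall := allCong_rot hall
  refine ⟨hall, fun n a b c φ hφ => ?_⟩
  refine div_term he hv cong_left ![0, 1, 1, 0, 1, 0] (fun l => ?_) fun d hd => ?_
  · fin_cases l
    exacts [Div.of_cong (hall 0), d1, d2, Div.of_cong (hall 3), d4, Div.of_cong (hall 5)]
  · have := hφ.expo_le hd
    simp [expo, Fin.sum_univ_six]
    omega

theorem div_vertexY (h1 : L 1 = 1) (h3 : α 3 ≠ 0) (h4 : α 4 ≠ 0) :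
    AllCong χ e v L α ∧ ∀ (n a b c : ℕ) (φ : MvPolynomial (Fin 2) k), CompOK m n φ a b c →
      Div χ e v e n (homTerm n a b c φ L) := by
  obtain ⟨hall, d2, d0, d5⟩ := sigma_vertex he hv hm (L := rot (rot L)) (α := rot (rot α))
    (fun l => by fin_cases l; exacts [h 2, h 0, h 1, h 5, h 3, h 4]) hF.rot.rot
    (Q := ![Q 2, Q 0, Q 1]) (β := ![β 2, β 0, β 1])
    (fun i => by fin_cases i; exacts [hQ 2, hQ 0, hQ 1])
    (fun i => by fin_cases i; exacts [hquad 2, hquad 0, hquad 1]) h1 h3 h4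
  replace hall := allCong_rot (allCong_rot hall)
  refine ⟨hall, fun n a b c φ hφ => ?_⟩
  refine div_term he hv cong_left ![1, 0, 1, 0, 0, 1] (fun l => ?_) fun d hd => ?_
  · fin_cases l
    exacts [d0, Div.of_cong (hall 1), d2, Div.of_cong (hall 3), Div.of_cong (hall 4), d5]
  · have := hφ.expo_le hd
    simp [expo, Fin.sum_univ_six]
    omega

end Sigma

/-- The point data of a chart: at every component the quotient by the quadric is congruent to its
value. -/
theorem exists_div (hm : (m : k) ≠ 0) {L : Fin 6 → K} {α : Fin 6 → k}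
    (h : ∀ l, Val χ (L l) (α l)) (hF : Fermat m L) {p₀ : Fin 6} (hp₀ : α p₀ ≠ 0)
    {Q : Fin 3 → K} {β : Fin 3 → k} (hQ : ∀ i, Val χ (Q i) (β i)) {q₀ : Fin 3} (hQ1 : Q q₀ = 1)
    (hqne : quad L q₀ ≠ 0) (hquad : ∀ i, quad L i = Q i * quad L q₀) :
    ∃ p, α p ≠ 0 ∧ ∃ u v : K, Val χ u 0 ∧ Val χ v 0 ∧
      (∃ c, Cong χ u v (L p₀ / L p) c) ∧
      ∀ (n a b c : ℕ) (φ : MvPolynomial (Fin 2) k), CompOK m n φ a b c →
        Div χ u v (quad L q₀ / (L p * L p)) n (homTerm n a b c φ (fun l => L l / L p)) := by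
  have hm0 : m ≠ 0 := fun h0 => hm (by simp [h0])
  have hα : Fermat m α := fermat_val h hF
  have hval : ∀ p, α p ≠ 0 → ∀ l, Val χ (L l / L p) (α l / α p) := fun p hp l =>
    (h l).div (h p) hp
  have hqv : ∀ i, quad α i = β i * quad α q₀ := fun i =>
    (val_quad h i).unique (hquad i ▸ (hQ i).mul (val_quad h q₀))
  by_cases hcase : quad α q₀ ≠ 0
  · obtain ⟨p, hp, u, v, hu, hv, hall⟩ := off_cases hm h hF hcase
    have he : Cong χ u v (quad L q₀ / (L p * L p)) (quad α q₀ / (α p * α p)) := by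
      have e1 := quad_div L (L p) q₀
      have e2 := quad_div α (α p) q₀
      rw [← e1, ← e2]
      fin_cases q₀
      exacts [(hall 0).mul hu hv (hall 4), (hall 1).mul hu hv (hall 5), (hall 2).mul hu hv (hall 3)]
    exact ⟨p, hp, u, v, hu, hv, ⟨_, hall p₀⟩, fun n a b c φ _ =>
      div_off hu hv hall he (div_ne_zero hcase (mul_ne_zero hp hp)) n a b c φ⟩
  push Not at hcase
  have hz : ∀ i, quad α i = 0 := fun i => by rw [hqv, hcase, mul_zero]
  have z0 : α 0 = 0 ∨ α 4 = 0 := mul_eq_zero.1 (by simpa [quad] using hz 0)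
  have z1 : α 1 = 0 ∨ α 5 = 0 := mul_eq_zero.1 (by simpa [quad] using hz 1)
  have z2 : α 2 = 0 ∨ α 3 = 0 := mul_eq_zero.1 (by simpa [quad] using hz 2)
  have hQF : Q 0 ^ m + Q 1 ^ m + Q 2 ^ m = 0 := by
    have h' := quad_fermat hF
    rw [hquad 0, hquad 1, hquad 2, mul_pow, mul_pow, mul_pow, ← add_mul, ← add_mul,
      mul_eq_zero] at h'
    exact h'.resolve_right (pow_ne_zero _ hqne)
  -- the data in the normalisation at `p`
  have hnorm : ∀ p, α p ≠ 0 → L p / L p = 1 ∧ Val χ (quad L q₀ / (L p * L p)) 0 ∧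
      ∀ i, quad (fun l => L l / L p) i = Q i * (quad L q₀ / (L p * L p)) := fun p hp => by
    refine ⟨div_self fun h0 => hp ((h p).unique (h0 ▸ val_zero)), ?_,
      fun i => by rw [quad_div, hquad, mul_div_assoc]⟩
    have h' := (val_quad h q₀).div ((h p).mul (h p)) (mul_ne_zero hp hp)
    rwa [hcase, zero_div] at h'
  have hpow : ∀ {a b : k}, a ^ m = b ^ m → b = 0 → a = 0 := fun {a b} hab hb =>
    eq_zero_of_pow_eq_zero (n := m) (by rw [hab, hb, zero_pow hm0])
  by_cases h4 : α 4 = 0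
  · by_cases h5 : α 5 = 0
    · -- the grid
      have q1 : α 1 ^ m = α 2 ^ m := by
        have h' := hα.2.1; rw [h4, zero_pow hm0] at h'; linear_combination -h'
      have q2 : α 2 ^ m = α 0 ^ m := by
        have h' := hα.2.2; rw [h5, zero_pow hm0] at h'; linear_combination -h'
      have hp2 : α 2 ≠ 0 := fun h2 => by
        have a0 := hpow q2.symm h2
        have a1 := hpow q1 h2
        have a3 : α 3 = 0 := hpow (b := (0 : k)) (by rw [hα.1, a0, a1]; simp [zero_pow hm0]) rfl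
        fin_cases p₀
        exacts [hp₀ a0, hp₀ a1, hp₀ h2, hp₀ a3, hp₀ h4, hp₀ h5]
      obtain ⟨hone, he, hquad'⟩ := hnorm 2 hp2
      obtain ⟨v, hv, hQc⟩ := sigma_params hm he hQ hQF hQ1
      obtain ⟨hall, hdiv⟩ := div_grid he hv hm (hval 2 hp2) (hF.div _) hQc hquad' hone
        (div_ne_zero (fun h0 => hp2 (hpow q2 h0)) hp2)
        (div_ne_zero (fun h1 => hp2 (hpow q1.symm h1)) hp2)
      exact ⟨2, hp2, _, v, he, hv, ⟨_, hall p₀⟩, hdiv⟩
    · -- the vertex on the `x`-axis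
      have a1 : α 1 = 0 := z1.resolve_right h5
      have a2 : α 2 = 0 := hpow (b := α 1) (by
        have h' := hα.2.1; rw [h4, zero_pow hm0] at h'; linear_combination h') a1
      have hp0 : α 0 ≠ 0 := fun a0 => h5 (hpow (b := (0 : k))
        (by rw [hα.2.2, a2, a0]; simp [zero_pow hm0]) rfl)
      have h3 : α 3 ≠ 0 := fun a3 => hp0 (hpow (b := α 1) (by
        have h' := hα.1; rw [a3, zero_pow hm0] at h'; linear_combination -h') a1)
      obtain ⟨hone, he, hquad'⟩ := hnorm 0 hp0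
      obtain ⟨v, hv, hQc⟩ := sigma_params hm he hQ hQF hQ1
      obtain ⟨hall, hdiv⟩ := div_vertexX he hv hm (hval 0 hp0) (hF.div _) hQc hquad' hone
        (div_ne_zero h5 hp0) (div_ne_zero h3 hp0)
      exact ⟨0, hp0, _, v, he, hv, ⟨_, hall p₀⟩, hdiv⟩
  · have a0 : α 0 = 0 := z0.resolve_right h4
    by_cases h5 : α 5 = 0
    · -- the vertex on the `y`-axis
      have a2 : α 2 = 0 := hpow (b := α 0) (by
        have h' := hα.2.2; rw [h5, zero_pow hm0] at h'; linear_combination -h') a0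
      have hp1 : α 1 ≠ 0 := fun a1 => h4 (hpow (b := (0 : k))
        (by rw [hα.2.1, a1, a2]; simp [zero_pow hm0]) rfl)
      have h3 : α 3 ≠ 0 := fun a3 => hp1 (hpow (b := α 0) (by
        have h' := hα.1; rw [a3, zero_pow hm0] at h'; linear_combination h') a0)
      obtain ⟨hone, he, hquad'⟩ := hnorm 1 hp1
      obtain ⟨v, hv, hQc⟩ := sigma_params hm he hQ hQF hQ1
      obtain ⟨hall, hdiv⟩ := div_vertexY he hv hm (hval 1 hp1) (hF.div _) hQc hquad' hone
        (div_ne_zero h3 hp1) (div_ne_zero h4 hp1)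
      exact ⟨1, hp1, _, v, he, hv, ⟨_, hall p₀⟩, hdiv⟩
    · -- the vertex on the `z`-axis
      have a1 : α 1 = 0 := z1.resolve_right h5
      have hp2 : α 2 ≠ 0 := fun a2 => h4 (hpow (b := (0 : k))
        (by rw [hα.2.1, a1, a2]; simp [zero_pow hm0]) rfl)
      obtain ⟨hone, he, hquad'⟩ := hnorm 2 hp2
      obtain ⟨v, hv, hQc⟩ := sigma_params hm he hQ hQF hQ1
      obtain ⟨hall, hdiv⟩ := div_vertexZ he hv hm (hval 2 hp2) (hF.div _) hQc hquad' hone
        (div_ne_zero h4 hp2) (div_ne_zero h5 hp2)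
      exact ⟨2, hp2, _, v, he, hv, ⟨_, hall p₀⟩, hdiv⟩

/-- At every point of a chart two parameters control all components. -/
theorem exists_params (hm : (m : k) ≠ 0) {x y u v w : K} (hF : Fermat m (six x y u v w))
    {l₀ : Fin 6} {q₀ : Fin 3} (hl : six x y u v w l₀ ≠ 0) (hq : quad (six x y u v w) q₀ ≠ 0)
    (hR : ∀ l q, Reg χ (six x y u v w l * quad (six x y u v w) q /
      (six x y u v w l₀ * quad (six x y u v w) q₀))) :
    ∃ s t : K, Val χ s 0 ∧ Val χ t 0 ∧ ∀ (n a b c : ℕ) (φ : MvPolynomial (Fin 2) k), CompOK m n φ a b c →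
      ∃ r, Cong χ s t (aeval ![x, y] φ * (u ^ a * v ^ b * w ^ c) /
        (six x y u v w l₀ * quad (six x y u v w) q₀) ^ n) r := by
  set S := six x y u v w with hS
  have hsix : S 2 = 1 ∧ S 0 = x ∧ S 1 = y ∧ S 3 = u ∧ S 4 = v ∧ S 5 = w := by
    simp [hS, six]
  set L : Fin 6 → K := fun l => S l / S l₀
  have hRL : ∀ l, Reg χ (L l) := fun l => by
    have := hR l q₀
    rwa [mul_div_mul_right _ _ hq] at this
  choose α hα using hRL
  set Q : Fin 3 → K := fun i => quad S i / quad S q₀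
  have hRQ : ∀ i, Reg χ (Q i) := fun i => by
    have := hR l₀ i
    rwa [mul_div_mul_left _ _ hl] at this
  choose β hβ using hRQ
  have hL1 : α l₀ ≠ 0 := by
    rw [(hα l₀).unique (show Val χ (L l₀) 1 by
      rw [show L l₀ = 1 from div_self hl]; exact val_one)]
    exact one_ne_zero
  have hqne : quad L q₀ ≠ 0 := by
    rw [show quad L q₀ = quad S q₀ / (S l₀ * S l₀) from quad_div _ _ _]
    exact div_ne_zero hq (mul_ne_zero hl hl)
  have hquad : ∀ i, quad L i = Q i * quad L q₀ := fun i => by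
    rw [show quad L i = quad S i / (S l₀ * S l₀) from quad_div _ _ _,
      show quad L q₀ = quad S q₀ / (S l₀ * S l₀) from quad_div _ _ _]
    show _ = quad S i / quad S q₀ * _
    field_simp
  obtain ⟨p, hp, s, t, hs, ht, ⟨cl, hcl⟩, hdiv⟩ :=
    exists_div hm hα (hF.div _) hL1 hβ (div_self hq) hqne hquad
  refine ⟨s, t, hs, ht, fun n a b c φ hφ => ?_⟩
  obtain ⟨f, r, hf, hfe⟩ := hdiv n a b c φ hφ
  have hsp : S p ≠ 0 := fun h0 => hp ((hα p).unique (by simp [L, h0, val_zero]))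
  have hclne : cl ≠ 0 := by
    rw [(hcl.val hs ht).unique ((hα l₀).div (hα p) hp)]
    exact div_ne_zero hL1 hp
  have h := hf.mul hs ht ((hcl.pow hs ht n).inv hs ht (pow_ne_zero _ hclne))
  refine ⟨r * (cl ^ n)⁻¹, ?_⟩
  convert h using 1
  have e1 : (fun l => L l / L p) = fun l => S l / S p := funext fun l => by
    simp only [L]; field_simp
  rw [e1, homTerm_div hφ, homTerm_six φ S hsix.1] at hfe
  rw [show quad L q₀ = quad S q₀ / (S l₀ * S l₀) from quad_div _ _ _] at hfe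
  simp only [hsix.2.1, hsix.2.2.1, hsix.2.2.2.1, hsix.2.2.2.2.1, hsix.2.2.2.2.2] at hfe
  rw [div_eq_iff (pow_ne_zero _ hsp)] at hfe
  rw [hfe]
  simp only [L]
  rw [pow_mul' (S p) 3 n]
  simp only [div_pow, mul_pow]
  field_simp

end Vale.Agent.P190.Example
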