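import Vale.Agent.P190.Example.Charts

/-!
P190: the chart points over the singular set, and the components of the ring at a point of a chart.
-/

open MvPolynomial

namespace Vale.Agent.P190.Example

variable {k K : Type*} [Field k] [Field K] [Algebra k K] {B : Subalgebra k K} {χ : B →ₐ[k] k}
  {m : ℕ}

/-- A multiple of `e ^ n` whose quotient is congruent to its value. -/
def Div (χ : B →ₐ[k] k) (u v e : K) (n : ℕ) (x : K) : Prop :=
  ∃ f c, Cong χ u v f c ∧ x = f * e ^ n

section Div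

variable {u v e : K}

theorem Div.of_cong {x : K} {c : k} (h : Cong χ u v x c) : Div χ u v e 0 x :=
  ⟨x, c, h, by rw [pow_zero, mul_one]⟩

theorem Div.const (c : k) : Div χ u v e 0 (algebraMap k K c) := Div.of_cong (cong_algebraMap c)

theorem Div.zero (n : ℕ) : Div χ u v e n 0 :=
  ⟨0, 0, by simpa using cong_algebraMap (χ := χ) (u := u) (v := v) 0, by simp⟩

theorem Div.add {n : ℕ} {x y : K} :
    Div χ u v e n x → Div χ u v e n y → Div χ u v e n (x + y) :=
  fun ⟨f, _, hf, hx⟩ ⟨g, _, hg, hy⟩ => ⟨f + g, _, hf.add hg, by rw [hx, hy]; ring⟩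

theorem Div.sum {n : ℕ} {ι : Type*} (s : Finset ι) {x : ι → K}
    (h : ∀ i ∈ s, Div χ u v e n (x i)) : Div χ u v e n (∑ i ∈ s, x i) := by
  classical
  induction s using Finset.induction_on with
  | empty => simpa using Div.zero n
  | insert a s ha ih =>
    rw [Finset.sum_insert ha]
    exact (h a (Finset.mem_insert_self a s)).add
      (ih fun i hi => h i (Finset.mem_insert_of_mem hi))

variable (hu : Val χ u 0) (hv : Val χ v 0)

include hu hv

theorem Div.mul {n l : ℕ} {x y : K} :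
    Div χ u v e n x → Div χ u v e l y → Div χ u v e (n + l) (x * y) :=
  fun ⟨f, _, hf, hx⟩ ⟨g, _, hg, hy⟩ => ⟨f * g, _, hf.mul hu hv hg, by rw [hx, hy]; ring⟩

theorem Div.pow {n : ℕ} {x : K} (h : Div χ u v e n x) : ∀ l : ℕ, Div χ u v e (n * l) (x ^ l)
  | 0 => by simpa using Div.const (χ := χ) (u := u) (v := v) (e := e) 1
  | l + 1 => by simpa [pow_succ, Nat.mul_succ] using (h.pow l).mul hu hv h

theorem Div.mono {n l : ℕ} {x : K} {ce : k} (he : Cong χ u v e ce) (hl : l ≤ n)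
    (h : Div χ u v e n x) : Div χ u v e l x := by
  obtain ⟨f, c, hf, hx⟩ := h
  obtain ⟨j, rfl⟩ := Nat.exists_eq_add_of_le hl
  exact ⟨f * e ^ j, _, hf.mul hu hv (he.pow hu hv j), by rw [hx]; ring⟩

/-- Two generators in `(e ^ m)` put the powers of their ideal into the powers of `(e ^ m)`. -/
theorem Div.of_ideal {g : Fin 2 → K} (hg : ∀ i, ∃ c, Cong χ u v (g i) c) {p₀ p₁ : MvPolynomial (Fin 2) k}
    (h₀ : Div χ u v e m (aeval g p₀)) (h₁ : Div χ u v e m (aeval g p₁)) :
    ∀ (l : ℕ), ∀ φ ∈ Ideal.span {p₀, p₁} ^ l, Div χ u v e (m * l) (aeval g φ) := by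
  have hpoly : ∀ φ : MvPolynomial (Fin 2) k, Div χ u v e 0 (aeval g φ) := fun φ => by
    induction φ using MvPolynomial.induction_on with
    | C c => simpa using Div.const (χ := χ) (u := u) (v := v) (e := e) c
    | add p q hp hq => rw [map_add]; exact hp.add hq
    | mul_X p i hp =>
      obtain ⟨c, hc⟩ := hg i
      rw [map_mul, aeval_X]
      exact hp.mul hu hv (Div.of_cong hc)
  intro l
  induction l with
  | zero => exact fun φ _ => hpoly φ
  | succ l ih =>
    intro φ hφ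
    rw [pow_succ] at hφ
    induction hφ using Submodule.mul_induction_on' with
    | mem_mul_mem a ha b hb =>
      obtain ⟨a₀, a₁, rfl⟩ := Ideal.mem_span_pair.1 hb
      rw [map_mul, map_add, map_mul, map_mul, Nat.mul_succ]
      refine (ih a ha).mul hu hv ?_
      have t₀ := (hpoly a₀).mul hu hv h₀
      have t₁ := (hpoly a₁).mul hu hv h₁
      rw [zero_add] at t₀ t₁
      exact t₀.add t₁
    | add a _ b _ ha hb => rw [map_add]; exact ha.add hb

end Div

/-- Two ratios of the three quadrics at a point of the exceptional curve. -/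
theorem sigma_params (hm : (m : k) ≠ 0) {e : K} (he : Val χ e 0) {Q : Fin 3 → K} {β : Fin 3 → k}
    (hQ : ∀ i, Val χ (Q i) (β i)) (hF : Q 0 ^ m + Q 1 ^ m + Q 2 ^ m = 0) {q₀ : Fin 3}
    (h1 : Q q₀ = 1) : ∃ v : K, Val χ v 0 ∧ ∀ i, Cong χ e v (Q i) (β i) := by
  have hm0 : m ≠ 0 := fun h0 => hm (by simp [h0])
  have hβ1 : β q₀ = 1 := (hQ q₀).unique (by rw [h1]; exact val_one)
  have hβ : β 0 ^ m + β 1 ^ m + β 2 ^ m = 0 :=
    ((((hQ 0).pow m).add ((hQ 1).pow m)).add ((hQ 2).pow m)).unique (hF ▸ val_zero)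
  have step : ∀ j l : Fin 3, j ≠ q₀ → l ≠ q₀ → j ≠ l → β j ≠ 0 →
      ∃ v : K, Val χ v 0 ∧ ∀ i, Cong χ e v (Q i) (β i) := by
    intro j l hj hl hjl hβj
    obtain ⟨v, hv_def⟩ : ∃ v, v = Q l - algebraMap k K (β l) := ⟨_, rfl⟩
    have hv : Val χ v 0 := hv_def ▸ val_sub_const (hQ l)
    have cl := cong_sub_const (χ := χ) (u := e) hv_def
    have c0 : Cong χ e v (Q q₀) (β q₀) := by
      rw [h1, hβ1]; simpa using cong_algebraMap (χ := χ) (u := e) (v := v) (1 : k)
    have cj : Cong χ e v (Q j) (β j) := by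
      refine cong_of_pow hm (hQ j) hβj ?_
      have hsum : ∀ f : Fin 3 → K, f 0 + f 1 + f 2 = f j + (f q₀ + f l) := fun f => by
        fin_cases q₀ <;> fin_cases j <;> fin_cases l <;> simp_all <;> abel
      have hsum' : ∀ f : Fin 3 → k, f 0 + f 1 + f 2 = f j + (f q₀ + f l) := fun f => by
        fin_cases q₀ <;> fin_cases j <;> fin_cases l <;> simp_all <;> abel
      have e1 : Q j ^ m = algebraMap k K (-1) * (Q q₀ ^ m + Q l ^ m) := by
        rw [map_neg, map_one]
        linear_combination (hsum fun i => Q i ^ m).symm.trans hF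
      have e2 : β j ^ m = (-1 : k) * (β q₀ ^ m + β l ^ m) := by
        linear_combination (hsum' fun i => β i ^ m).symm.trans hβ
      rw [e1, e2]
      exact (cong_algebraMap _).mul he hv ((c0.pow he hv m).add (cl.pow he hv m))
    refine ⟨v, hv, fun i => ?_⟩
    obtain rfl | rfl | rfl : i = q₀ ∨ i = j ∨ i = l := by omega
    exacts [c0, cj, cl]
  obtain ⟨j, l, hj, hl, hjl⟩ : ∃ j l : Fin 3, j ≠ q₀ ∧ l ≠ q₀ ∧ j ≠ l := by
    fin_cases q₀
    exacts [⟨1, 2, by decide⟩, ⟨0, 2, by decide⟩, ⟨0, 1, by decide⟩]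
  by_cases hβj : β j = 0
  · refine step l j hl hj hjl.symm fun hβl => one_ne_zero (α := k) ?_
    have : β 0 ^ m + β 1 ^ m + β 2 ^ m = 1 := by
      fin_cases q₀ <;> fin_cases j <;> fin_cases l <;> simp_all
    exact this.symm.trans hβ
  · exact step j l hj hl hjl hβj

section Sigma

variable {e v : K} (he : Val χ e 0) (hv : Val χ v 0) (hm : (m : k) ≠ 0) {L : Fin 6 → K}
  {α : Fin 6 → k} (h : ∀ l, Val χ (L l) (α l)) (hF : Fermat m L) {Q : Fin 3 → K} {β : Fin 3 → k}
  (hQ : ∀ i, Cong χ e v (Q i) (β i)) (hquad : ∀ i, quad L i = Q i * e) (h2 : L 2 = 1)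

include he hv in
/-- A coordinate paired with a nonvanishing one is divisible by `e` up to it. -/
theorem killed_cong {x y : K} {cx cy cq : k} {q : K} (hq : Cong χ e v q cq) (hy : Val χ y cy)
    (hy0 : cy ≠ 0) (hx : Val χ x cx) (hxy : x * y = q * e) :
    cx = 0 ∧ Cong χ e v x 0 ∧ x = q * y⁻¹ * e := by
  have hyK : y ≠ 0 := fun h0 => hy0 (hy.unique (h0 ▸ val_zero))
  have hx' : x = q * y⁻¹ * e := by field_simp; exact hxy
  have hc : Cong χ e v x 0 := by
    rw [hx']
    exact cong_left.reg_mul ((hq.val he hv).reg.mul (hy.inv hy0).reg)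
  exact ⟨hx.unique (hc.val he hv), hc, hx'⟩

include he hv hm h hF hQ hquad h2 in
/-- Over the vertex on the affine `z`-axis. -/
theorem sigma_vertex (h4 : α 4 ≠ 0) (h5 : α 5 ≠ 0) :
    AllCong χ e v L α ∧ Div χ e v e 1 (L 0) ∧ Div χ e v e 1 (L 1) ∧ Div χ e v e 1 (L 3) := by
  have hα : Fermat m α := fermat_val h hF
  have hα2 : α 2 = 1 := (h 2).unique (by rw [h2]; exact val_one)
  have c2 : Cong χ e v (L 2) (α 2) := by
    rw [h2, hα2]; simpa using cong_algebraMap (χ := χ) (u := e) (v := v) (1 : k)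
  obtain ⟨a0, c0, d0⟩ := killed_cong he hv (hQ 0) (h 4) h4 (h 0) (by simpa [quad] using hquad 0)
  obtain ⟨a1, c1, d1⟩ := killed_cong he hv (hQ 1) (h 5) h5 (h 1) (by simpa [quad] using hquad 1)
  have hq2 : L 3 = Q 2 * e := by simpa [quad, h2] using hquad 2
  have c3 : Cong χ e v (L 3) 0 := hq2 ▸ cong_left.reg_mul ((hQ 2).val he hv).reg
  have a3 : α 3 = 0 := (h 3).unique (c3.val he hv)
  rw [← a0] at c0
  rw [← a1] at c1
  rw [← a3] at c3
  have c4 := cong_root he hv hm (h 4) h4 c1 c2 hF.2.1 hα.2.1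
  have c5 := cong_root he hv hm (h 5) h5 c2 c0 hF.2.2 hα.2.2
  refine ⟨fun l => ?_, ⟨_, _, (hQ 0).mul he hv (c4.inv he hv h4), by rw [pow_one]; exact d0⟩,
    ⟨_, _, (hQ 1).mul he hv (c5.inv he hv h5), by rw [pow_one]; exact d1⟩,
    ⟨_, _, hQ 2, by rw [pow_one]; exact hq2⟩⟩
  fin_cases l
  exacts [c0, c1, c2, c3, c4, c5]

include he hv hm h hF hQ hquad h2 in
/-- Over a grid point. -/
theorem sigma_grid (h0 : α 0 ≠ 0) (h1 : α 1 ≠ 0) :
    AllCong χ e v L α ∧ Div χ e v e 1 (L 3) ∧ Div χ e v e 1 (L 4) ∧ Div χ e v e 1 (L 5) ∧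
      α 0 ^ m = 1 ∧ α 1 ^ m = 1 ∧ Div χ e v e m (L 0 - algebraMap k K (α 0)) ∧
      Div χ e v e m (L 1 - algebraMap k K (α 1)) := by
  have hα : Fermat m α := fermat_val h hF
  have hm0 : m ≠ 0 := fun h0 => hm (by simp [h0])
  have hα2 : α 2 = 1 := (h 2).unique (by rw [h2]; exact val_one)
  have c2 : Cong χ e v (L 2) (α 2) := by
    rw [h2, hα2]; simpa using cong_algebraMap (χ := χ) (u := e) (v := v) (1 : k)
  obtain ⟨a4, c4, d4⟩ := killed_cong he hv (hQ 0) (h 0) h0 (h 4)
    (by simpa [quad, mul_comm] using hquad 0)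
  obtain ⟨a5, c5, d5⟩ := killed_cong he hv (hQ 1) (h 1) h1 (h 5)
    (by simpa [quad, mul_comm] using hquad 1)
  have hq2 : L 3 = Q 2 * e := by simpa [quad, h2] using hquad 2
  have c3 : Cong χ e v (L 3) 0 := hq2 ▸ cong_left.reg_mul ((hQ 2).val he hv).reg
  have a3 : α 3 = 0 := (h 3).unique (c3.val he hv)
  rw [← a4] at c4
  rw [← a5] at c5
  rw [← a3] at c3
  have c0 := cong_root he hv hm (h 0) h0 c2 c5 (by linear_combination hF.2.2)
    (by linear_combination hα.2.2)
  have c1 := cong_root he hv hm (h 1) h1 c0 c3 (by linear_combination hF.1)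
    (by linear_combination hα.1)
  have k4 : Div χ e v e 1 (L 4) := ⟨_, _, (hQ 0).mul he hv (c0.inv he hv h0), by rw [pow_one]; exact d4⟩
  have k5 : Div χ e v e 1 (L 5) := ⟨_, _, (hQ 1).mul he hv (c1.inv he hv h1), by rw [pow_one]; exact d5⟩
  have p0 : α 0 ^ m = 1 := by
    have h' := hα.2.2
    rw [a5, hα2, zero_pow hm0, one_pow] at h'
    linear_combination h'
  have p1 : α 1 ^ m = 1 := by
    have h' := hα.2.1
    rw [a4, hα2, zero_pow hm0, one_pow] at h'
    linear_combination -h'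
  have factor : ∀ {x y : K} {c : k}, Cong χ e v x c → c ≠ 0 → c ^ m = 1 → Div χ e v e 1 y →
      ∀ ε : k, x ^ m = 1 + algebraMap k K ε * y ^ m → Div χ e v e m (x - algebraMap k K c) := by
    intro x y c hx hc hc1 hy ε hxy
    have hy' : Div χ e v e m (x ^ m - algebraMap k K c ^ m) := by
      have h' := (Div.const (χ := χ) (u := e) (v := v) (e := e) ε).mul he hv (hy.pow he hv m)
      rw [zero_add, one_mul] at h'
      rwa [hxy, ← map_pow, hc1, map_one, add_sub_cancel_left]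
    obtain ⟨S, hS_def⟩ : ∃ S, S = ∑ i ∈ Finset.range m, x ^ i * algebraMap k K c ^ (m - 1 - i) :=
      ⟨_, rfl⟩
    have hS : Val χ S ((m : k) * c ^ (m - 1)) := by
      have h1 := Val.sum (χ := χ) (Finset.range m) fun i _ =>
        ((hx.val he hv).pow i).mul ((val_algebraMap c).pow (m - 1 - i))
      rw [Finset.sum_congr rfl fun i hi => show c ^ i * c ^ (m - 1 - i) = c ^ (m - 1) by
          rw [← pow_add, Nat.add_sub_cancel' (by have := Finset.mem_range.1 hi; omega)],
        Finset.sum_const, Finset.card_range, nsmul_eq_mul] at h1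
      rwa [hS_def]
    obtain ⟨cS, hcS⟩ : ∃ c', Cong χ e v S c' := by
      rw [hS_def]
      have : ∀ s : Finset ℕ, ∃ c', Cong χ e v
          (∑ i ∈ s, x ^ i * algebraMap k K c ^ (m - 1 - i)) c' := fun s => by
        induction s using Finset.induction_on with
        | empty => exact ⟨0, by simpa using cong_algebraMap (χ := χ) (u := e) (v := v) 0⟩
        | insert a s ha ih =>
          obtain ⟨c', hc'⟩ := ih
          rw [Finset.sum_insert ha]
          exact ⟨_, ((hx.pow he hv a).mul he hv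
            ((cong_algebraMap c).pow he hv (m - 1 - a))).add hc'⟩
      exact this _
    have hne : (m : k) * c ^ (m - 1) ≠ 0 := mul_ne_zero hm (pow_ne_zero _ hc)
    have hcS0 : cS ≠ 0 := (hcS.val he hv).unique hS ▸ hne
    obtain ⟨f, cf, hf, hxf⟩ := hy'
    have hSK : S ≠ 0 := fun h' => hne (hS.unique (h' ▸ val_zero))
    refine ⟨f * S⁻¹, _, hf.mul he hv (hcS.inv he hv hcS0), ?_⟩
    field_simp
    rw [hS_def, mul_comm, geom_sum₂_mul, hxf, mul_comm]
  refine ⟨fun l => ?_, ⟨_, _, hQ 2, by rw [pow_one]; exact hq2⟩, k4, k5, p0, p1,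
    factor c0 h0 p0 k5 (-1) ?_, factor c1 h1 p1 k4 1 ?_⟩
  · fin_cases l
    exacts [c0, c1, c2, c3, c4, c5]
  · simp only [map_neg, map_one, hF.2.2, h2, one_pow]; ring
  · simp only [map_one, hF.2.1, h2, one_pow]; ring

end Sigma

end Vale.Agent.P190.Example
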