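import Vale.Agent.P190.Example.Finite
import Vale.Agent.P190.Hilb.Gen

/-!
# P190 Module 6: the cone, with degrees independent of the characteristic
-/

namespace Vale.Agent.P190.Example

open MvPolynomial

set_option linter.unusedSectionVars false

variable {k : Type} [Field k] [Infinite k] (D : Par k) {s : k}

namespace Par

theorem deg_pos : 0 < D.deg := by
  have := D.m_pos
  rw [deg]; positivity

/-- A degree from which on the pieces are generated by the three parameters and span the field. -/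
def gdeg : ℕ := max (D.n0 + 2) (D.deg * D.n0)

theorem sep (hs : D.Good s) (p : ℕ) [CharP k p] (hp : D.deg < p) :
    Algebra.IsSeparable (ratField k (D.eta s) (D.zeta s)) D.K := by
  haveI := (D.finite_span hs).1
  haveI : CharP (ratField k (D.eta s) (D.zeta s)) p :=
    charP_of_injective_algebraMap (algebraMap k (ratField k (D.eta s) (D.zeta s))).injective p
  exact separable_of_finrank_lt p ((D.finrank_le_deg hs).trans_lt hp)

theorem finrank_K_eq (hs : D.Good s)
    [Algebra.IsSeparable (ratField k (D.eta s) (D.zeta s)) D.K] :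
    Module.finrank (ratField k (D.eta s) (D.zeta s)) D.K = D.deg := by
  haveI := (D.finite_span hs).1
  exact_mod_cast finrank_eq_of_hasPoly (D.indep hs) (D.fam_R hs) (D.hasPoly_R s)

theorem dual_eq_bot (hs : D.Good s) [Algebra.IsSeparable (ratField k (D.eta s) (D.zeta s)) D.K]
    {n : ℤ} (hn : n + (D.deg * D.n0 : ℕ) < 3) :
    dualFam (D.eta s) (D.zeta s) (one1 (D.R s)) n = ⊥ := by
  haveI := (D.finite_span hs).1
  rw [eq_bot_iff]
  intro u hu
  rw [Submodule.mem_bot]
  set N := D.deg * D.n0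
  have hall : ∀ x : D.K,
      Algebra.trace (ratField k (D.eta s) (D.zeta s)) D.K (u 0 * x) = 0 := by
    intro x
    have hx : x ∈ Submodule.span (ratField k (D.eta s) (D.zeta s)) (D.R s (N : ℤ) : Set D.K) :=
      D.span_top hs le_rfl ▸ Submodule.mem_top
    induction hx using Submodule.span_induction with
    | zero => simp
    | add p q _ _ hp hq => rw [mul_add, map_add, hp, hq, add_zero]
    | smul e p _ hp => rw [mul_smul_comm, map_smul, hp, smul_zero]
    | mem p hp =>
      have h := hu (N : ℤ) (fun _ => p) (by simpa [one1] using hp)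
      rw [Hilb.polySpace_neg (by omega), Submodule.mem_bot, Fin.sum_univ_one] at h
      exact Subtype.ext h
  funext i
  rw [Fin.eq_zero i, Pi.zero_apply]
  refine (traceForm_nondegenerate (ratField k (D.eta s) (D.zeta s)) D.K).1 _ fun x => ?_
  rw [Algebra.traceForm_apply]
  exact hall x

theorem gen_R (hs : D.Good s) [Algebra.IsSeparable (ratField k (D.eta s) (D.zeta s)) D.K]
    (n : ℤ) (hn : (D.gdeg : ℤ) ≤ n) :
    D.R s (n + 1) = D.R s n ⊔ (D.R s n).map (LinearMap.mulLeft k (D.eta s))
      ⊔ (D.R s n).map (LinearMap.mulLeft k (D.zeta s)) := by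
  haveI := (D.finite_span hs).1
  have hP : ∀ n ≥ (D.n0 : ℤ), (Module.finrank k (one1 (D.R s) n) : ℚ) = (D.deg : ℚ) *
      (((n : ℚ) + 2) * ((n : ℚ) + 1) / 2) + D.eCoef * ((n : ℚ) + 1) + D.cCoef := by
    intro n hn
    obtain ⟨n', rfl⟩ : ∃ n' : ℕ, n = n' := ⟨n.toNat, by omega⟩
    rw [finrank_one1, D.finrank_R, (D.finrank_Sec (j := n') (by simp [n0] at hn; omega)).1]
    simp only [hilb, cCoef, eCoef, deg]
    push_cast
    ring
  have hg : max ((D.n0 : ℤ) + 2) (3 - (3 - (D.deg * D.n0 : ℕ))) ≤ n := by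
    rw [gdeg] at hn; push_cast at hn ⊢; omega
  have h := Hilb.gen_bound (D.indep hs) (D.fam_R hs) hP
    (n₂ := 3 - (D.deg * D.n0 : ℕ)) (fun n hn => D.dual_eq_bot hs (by omega)) n hg
  refine le_antisymm (fun q hq => ?_) ?_
  · have h1 : (fun _ : Fin 1 => q) ∈ one1 (D.R s) (n + 1) := hq
    rw [h] at h1
    obtain ⟨ab, hab, c, ⟨c', hc', rfl⟩, hsum⟩ := Submodule.mem_sup.mp h1
    obtain ⟨a, ha, b, ⟨b', hb', rfl⟩, rfl⟩ := Submodule.mem_sup.mp hab
    have e := congrFun hsum 0
    rw [← e]
    exact Submodule.add_mem_sup (Submodule.add_mem_sup ha ⟨b' 0, hb', rfl⟩) ⟨c' 0, hc', rfl⟩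
  · refine sup_le (sup_le (D.R_mono s n) ?_) ?_
    all_goals
      rintro _ ⟨q, hq, rfl⟩
      rw [add_comm]
    exacts [D.mul_mem_R s 1 n _ (D.eta_mem s) _ hq, D.mul_mem_R s 1 n _ (D.zeta_mem s) _ hq]

/-- The cone. -/
noncomputable def cone (hs : D.Good s) (p : ℕ) [CharP k p] (hp : D.deg < p) : Cone k D.K where
  η := D.eta s
  ζ := D.zeta s
  R := D.R s
  g := D.gdeg
  R_zero := D.R_zero s
  R_neg n hn := D.R_neg s hn
  one_mem := D.one_mem_R_one s
  η_mem := D.eta_mem s
  ζ_mem := D.zeta_mem s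
  mul_mem := D.mul_mem_R s
  fd n := D.finiteDimensional_R s n
  gen n hn := haveI := D.sep hs p hp; D.gen_R hs n hn
  indep := D.indep hs
  d := D.deg
  d_pos := D.deg_pos
  finrank_K := haveI := D.sep hs p hp; D.finrank_K_eq hs
  sep := D.sep hs p hp
  span_top := D.span_top hs (le_max_right _ _)

end Par

end Vale.Agent.P190.Example
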