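import Vale.Agent.P190.Example.Triple

/-!
# P190 Module 6: every valuation is bounded on degree `n` through the three parameters
-/

namespace Vale.Agent.P190.Example

open MvPolynomial

set_option linter.unusedSectionVars false

variable {k : Type} [Field k] [Infinite k] {D : Par k}
variable {Γ : Type} [LinearOrderedCommGroupWithZero Γ] (w : Valuation (P2 k) Γ)
  (hk : ∀ a : k, w (C a) ≤ 1) {s : k} {μ : Γ}

namespace Val

include hk

theorem w_C {a : k} (ha : a ≠ 0) : w (C a) = 1 := by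
  refine le_antisymm (hk a) ?_
  have h : w (C a) * w (C a⁻¹) = 1 := by rw [← map_mul, ← C_mul, mul_inv_cancel₀ ha, C_1, map_one]
  calc (1 : Γ) = w (C a) * w (C a⁻¹) := h.symm
    _ ≤ w (C a) * 1 := mul_le_mul' le_rfl (hk _)
    _ = w (C a) := mul_one _

theorem poly_le (p : P2 k) {g : Γ}
    (h : ∀ d ∈ p.support, w (X 0) ^ d 0 * w (X 1) ^ d 1 ≤ g) : w p ≤ g := by
  rw [p.as_sum]
  refine Valuation.map_sum_le _ fun d hd => ?_
  have hmono : (monomial d (coeff d p) : P2 k) = C (coeff d p) * (X 0 ^ d 0 * X 1 ^ d 1) := by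
    rw [monomial_eq, Finsupp.prod_fintype _ _ (fun _ => pow_zero _), Fin.prod_univ_two]
  rw [hmono, map_mul, map_mul, map_pow, map_pow]
  exact (mul_le_mul' (hk _) (h d hd)).trans_eq (one_mul _)

theorem adm_mono {n : ℕ} {p : P2 k} (hp : D.AdmPoly n p) {g : Γ}
    (h : ∀ i i' : ℕ, i ≤ 2 * D.m * n → i' ≤ 2 * D.m * n → i + i' ≤ 3 * D.m * n →
      D.m * n ≤ i + i' → w (X 0) ^ i * w (X 1) ^ i' ≤ g) : w p ≤ g :=
  poly_le w hk p fun d hd => h _ _ ((monomial_le_degreeOf 0 hd).trans hp.degX)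
    ((monomial_le_degreeOf 1 hd).trans hp.degY)
    (by
      refine le_trans ?_ hp.deg
      have := le_totalDegree hd
      rwa [Finsupp.sum_fintype _ _ (fun _ => rfl), Fin.sum_univ_two] at this)
    (by
      have hO := le_ordAt.mp hp.origin d
      have hsh : shift (0 : Fin 2 → k) p = p := by simp [shift]
      rw [hsh] at hO
      by_contra hlt
      refine mem_support_iff.mp hd (hO ?_)
      rw [Finsupp.degree_eq_sum, Fin.sum_univ_two]
      omega)

variable (hs : D.Good s)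
  (hμ : ∀ i : Fin 3, w (D.cpol i) * w (Par.conic s i) ^ D.m ≤ μ)

include hs hμ

theorem w_sX : w (C s * X 0) = w (X 0) := by rw [map_mul, w_C w hk hs.ne, one_mul]

theorem w_XY : w (C (s ^ 2) * (X 0 * X 1)) = w (X 0) * w (X 1) := by
  rw [map_mul, w_C w hk (pow_ne_zero _ hs.ne), one_mul, map_mul]

theorem h0 : w (X 0 ^ D.m - X 1 ^ D.m) * w (1 - C (s ^ 2) * (X 0 * X 1)) ^ D.m ≤ μ := hμ 0

theorem h1 : w (X 1 ^ D.m - 1) * w (X 0 ^ 2 - X 1) ^ D.m ≤ μ := hμ 1

theorem h2 : w (1 - X 0 ^ D.m) * w (X 1 ^ 2 - C s * X 0) ^ D.m ≤ μ := hμ 2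

/-- Both coordinates small. -/
theorem origin (hx : w (X 0) < 1) (hy : w (X 1) < 1) :
    max (w (X 0)) (w (X 1)) ^ D.m ≤ μ := by
  have hm0 : D.m ≠ 0 := D.m_pos.ne'
  have e1 : w (X 1 ^ D.m - 1) = 1 := by
    rw [Valuation.map_sub_eq_of_lt_right _ (by rw [map_pow, map_one]; exact pow_lt_one₀ zero_le hy hm0),
      map_one]
  have e2 : w (1 - X 0 ^ D.m) = 1 := by
    rw [Valuation.map_sub_eq_of_lt_left _ (by rw [map_pow, map_one]; exact pow_lt_one₀ zero_le hx hm0),
      map_one]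
  rcases lt_or_ge (w (X 0)) (w (X 1)) with hlt | hge
  · have h := h1 w hk hs hμ
    rw [e1, one_mul, Valuation.map_sub_eq_of_lt_right _ (by
      rw [map_pow]; exact lt_of_le_of_lt (pow_le_of_le_one zero_le hx.le two_ne_zero) hlt)] at h
    rwa [max_eq_right hlt.le]
  · rw [max_eq_left hge]
    rcases eq_or_ne (w (X 0)) 0 with h0 | h0
    · rw [h0, zero_pow hm0]; exact zero_le
    have h := h2 w hk hs hμ
    rw [e2, one_mul, Valuation.map_sub_eq_of_lt_right _ (by
      rw [map_pow, w_sX w hk hs hμ, sq]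
      calc w (X 1) * w (X 1) ≤ w (X 0) * w (X 0) := mul_le_mul' hge hge
        _ < w (X 0) * 1 := mul_lt_mul_of_pos_left hx (zero_lt_iff.mpr h0)
        _ = w (X 0) := mul_one _), w_sX w hk hs hμ] at h
    exact h

/-- One coordinate small, the other a unit. -/
theorem edge (h : w (X 0) < 1 ∧ w (X 1) = 1 ∨ w (X 0) = 1 ∧ w (X 1) < 1) : 1 ≤ μ := by
  have hm0 : D.m ≠ 0 := D.m_pos.ne'
  have h' := h0 w hk hs hμ
  rcases h with ⟨hx, hy⟩ | ⟨hx, hy⟩
  · rw [Valuation.map_sub_eq_of_lt_right _ (by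
        rw [map_pow, map_pow, hy, one_pow]; exact pow_lt_one₀ zero_le hx hm0), map_pow, hy, one_pow,
      Valuation.map_sub_eq_of_lt_left _ (by
        rw [map_one, w_XY w hk hs hμ, hy, mul_one]; exact hx), map_one, one_pow, one_mul] at h'
    exact h'
  · rw [Valuation.map_sub_eq_of_lt_left _ (by
        rw [map_pow, map_pow, hx, one_pow]; exact pow_lt_one₀ zero_le hy hm0), map_pow, hx, one_pow,
      Valuation.map_sub_eq_of_lt_left _ (by
        rw [map_one, w_XY w hk hs hμ, hx, one_mul]; exact hy), map_one, one_pow, one_mul] at h'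
    exact h'

/-- `X` small or a unit, `Y` large. -/
theorem infY (hx : w (X 0) ≤ 1) (hy : 1 < w (X 1)) : w (X 1) ^ D.m * w (X 1) ^ D.m ≤ μ := by
  have hm0 : D.m ≠ 0 := D.m_pos.ne'
  have h := h1 w hk hs hμ
  rw [Valuation.map_sub_eq_of_lt_left _ (by rw [map_pow, map_one]; exact one_lt_pow₀ hy hm0),
    map_pow, Valuation.map_sub_eq_of_lt_right _ (by
      rw [map_pow]; exact lt_of_le_of_lt (pow_le_one' hx 2) hy)] at h
  exact h

/-- `Y` small or a unit, `X` large. -/
theorem infX (hy : w (X 1) ≤ 1) (hx : 1 < w (X 0)) : w (X 0) ^ D.m * w (X 0) ^ D.m ≤ μ := by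
  have hm0 : D.m ≠ 0 := D.m_pos.ne'
  have h := h2 w hk hs hμ
  rw [Valuation.map_sub_eq_of_lt_right _ (by rw [map_pow, map_one]; exact one_lt_pow₀ hx hm0),
    map_pow, Valuation.map_sub_eq_of_lt_right _ (by
      rw [map_pow, w_sX w hk hs hμ]; exact lt_of_le_of_lt (pow_le_one' hy 2) hx),
    w_sX w hk hs hμ] at h
  exact h

/-- Both large, `X` at least `Y`. -/
theorem infXY (hy : 1 < w (X 1)) (hxy : w (X 1) ≤ w (X 0)) :
    (w (X 0) ^ 2 * w (X 1)) ^ D.m ≤ μ := by
  have hm0 : D.m ≠ 0 := D.m_pos.ne'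
  have hx : 1 < w (X 0) := lt_of_lt_of_le hy hxy
  have h := h1 w hk hs hμ
  rw [Valuation.map_sub_eq_of_lt_left _ (by rw [map_pow, map_one]; exact one_lt_pow₀ hy hm0),
    map_pow, Valuation.map_sub_eq_of_lt_left _ (by
      rw [map_pow, sq]
      refine lt_of_le_of_lt hxy ?_
      calc w (X 0) = w (X 0) * 1 := (mul_one _).symm
        _ < w (X 0) * w (X 0) := mul_lt_mul_of_pos_left hx (lt_trans zero_lt_one hx)), map_pow] at h
  rwa [mul_pow, mul_comm]

/-- Both large, `Y` above `X`. -/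
theorem infYX (hx : 1 < w (X 0)) (hxy : w (X 0) < w (X 1)) :
    (w (X 1) ^ 2 * w (X 0)) ^ D.m ≤ μ := by
  have hm0 : D.m ≠ 0 := D.m_pos.ne'
  have hy : 1 < w (X 1) := lt_trans hx hxy
  have h := h2 w hk hs hμ
  rw [Valuation.map_sub_eq_of_lt_right _ (by rw [map_pow, map_one]; exact one_lt_pow₀ hx hm0),
    map_pow, Valuation.map_sub_eq_of_lt_left _ (by
      rw [map_pow, w_sX w hk hs hμ]; exact lt_of_lt_of_le hxy (le_self_pow hy.le two_ne_zero)),
    map_pow] at h
  rwa [mul_pow, mul_comm]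

/-- Both units: either `μ ≥ 1` or the valuation is centred at a grid point. -/
theorem units (hx : w (X 0) = 1) (hy : w (X 1) = 1) :
    1 ≤ μ ∨ ∃ g : Fin D.m × Fin D.m, ∀ l : Fin 2, w (X l - C (D.grid g l)) ≤ μ := by
  have hle : ∀ q, w q ≤ 1 := fun q =>
    poly_le w hk q fun d _ => by rw [hx, hy, one_pow, one_pow, one_mul]
  let J : Ideal (P2 k) :=
    { carrier := {q | w q < 1}
      add_mem' := fun {a b} ha hb => lt_of_le_of_lt (w.map_add a b) (max_lt ha hb)
      zero_mem' := by simp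
      smul_mem' := fun a b hb => by
        show w (a * b) < 1
        rw [map_mul]
        exact lt_of_le_of_lt ((mul_le_mul' (hle a) le_rfl).trans_eq (one_mul _)) hb }
  haveI hJ : J.IsPrime := by
    refine ⟨fun h => ?_, fun {a b} hab => ?_⟩
    · have : w 1 < 1 := (J.eq_top_iff_one.mp h)
      simp at this
    · by_contra hn
      push Not at hn
      have ha : w a = 1 := le_antisymm (hle a) (not_lt.mp hn.1)
      have hb : w b = 1 := le_antisymm (hle b) (not_lt.mp hn.2)
      have : w (a * b) < 1 := hab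
      rw [map_mul, ha, hb, one_mul] at this
      exact lt_irrefl _ this
  let ψ := Ideal.Quotient.mk J
  have hzero : ∀ q : P2 k, ψ q = 0 ↔ w q < 1 := fun q => Ideal.Quotient.eq_zero_iff_mem
  have hone : ∀ q : P2 k, ψ q ≠ 0 → w q = 1 := fun q h =>
    le_antisymm (hle q) (not_lt.mp fun hh => h ((hzero q).mpr hh))
  by_cases hbig : ∃ i, ψ (D.cpol i) ≠ 0 ∧ ψ (Par.conic s i) ≠ 0
  · obtain ⟨i, hc, hP⟩ := hbig
    have h := hμ i
    rw [hone _ hc, hone _ hP, one_pow, one_mul] at h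
    exact Or.inl h
  right
  push Not at hbig
  set a := ψ (X 0) with ha'
  set b := ψ (X 1) with hb'
  have ha : a ≠ 0 := fun h => absurd ((hzero _).mp h) (by rw [hx]; exact lt_irrefl _)
  have hb : b ≠ 0 := fun h => absurd ((hzero _).mp h) (by rw [hy]; exact lt_irrefl _)
  set σ := ψ.comp (C : k →+* P2 k) with hσ
  have hCinj : Function.Injective σ := RingHom.injective _
  have hσ3 : σ s ^ 3 ≠ 1 := fun h => hs.cube (hCinj (by rw [map_pow, h, map_one]))
  have hσm : σ s ^ (2 * D.m) ≠ 1 := fun h => hs.pow (hCinj (by rw [map_pow, h, map_one]))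
  have hσm1 : σ s ^ D.m ≠ 1 := fun h => hσm (by rw [mul_comm, pow_mul, h, one_pow])
  have e0 : ψ (D.cpol 0) = a ^ D.m - b ^ D.m := by simp [Par.cpol, ha', hb']
  have e1 : ψ (D.cpol 1) = b ^ D.m - 1 := by simp [Par.cpol, hb']
  have e2 : ψ (D.cpol 2) = 1 - a ^ D.m := by simp [Par.cpol, ha']
  have f0 : ψ (Par.conic s 0) = 1 - σ s ^ 2 * (a * b) := by simp [Par.conic, ha', hb', hσ]
  have f1 : ψ (Par.conic s 1) = a ^ 2 - b := by simp [Par.conic, ha', hb']
  have f2 : ψ (Par.conic s 2) = b ^ 2 - σ s * a := by simp [Par.conic, ha', hb', hσ]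
  have hsum : ψ (D.cpol 0) + ψ (D.cpol 1) + ψ (D.cpol 2) = 0 := by
    rw [← map_add, ← map_add, D.cpol_sum, map_zero]
  have hgrid : a ^ D.m = 1 ∧ b ^ D.m = 1 := by
    suffices h : ψ (D.cpol 1) = 0 ∧ ψ (D.cpol 2) = 0 by
      rw [e1, e2, sub_eq_zero, sub_eq_zero] at h; exact ⟨h.2.symm, h.1⟩
    by_cases z1 : ψ (D.cpol 1) = 0
    · by_cases z2 : ψ (D.cpol 2) = 0
      · exact ⟨z1, z2⟩
      exfalso
      have z0 : ψ (D.cpol 0) ≠ 0 := fun z => z2 (by linear_combination hsum - z - z1)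
      have p0 := hbig 0 z0
      have p2 := hbig 2 z2
      rw [f0] at p0; rw [f2] at p2
      rw [e1] at z1
      have hsb : σ s * b ^ 3 = 1 := by linear_combination σ s * b * p2 - p0
      exact hσm1 (by
        calc σ s ^ D.m = σ s ^ D.m * (b ^ D.m) ^ 3 := by
              rw [sub_eq_zero.mp z1, one_pow, mul_one]
          _ = (σ s * b ^ 3) ^ D.m := by rw [mul_pow]; ring
          _ = 1 := by rw [hsb, one_pow])
    · exfalso
      have p1 := hbig 1 z1
      rw [f1] at p1
      have hba : b = a ^ 2 := by linear_combination -p1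
      by_cases z2 : ψ (D.cpol 2) = 0
      · have z0 : ψ (D.cpol 0) ≠ 0 := fun z => z1 (by linear_combination hsum - z - z2)
        have p0 := hbig 0 z0
        rw [f0, hba] at p0
        rw [e2] at z2
        have h3 : σ s ^ 2 * a ^ 3 = 1 := by linear_combination -p0
        exact hσm (by
          calc σ s ^ (2 * D.m) = (σ s ^ 2) ^ D.m * (a ^ D.m) ^ 3 := by
                rw [← sub_eq_zero.mp z2, one_pow, mul_one, pow_mul]
            _ = (σ s ^ 2 * a ^ 3) ^ D.m := by rw [mul_pow]; ring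
            _ = 1 := by rw [h3, one_pow])
      · have p2 := hbig 2 z2
        rw [f2, hba] at p2
        have h3 : a ^ 3 = σ s := mul_right_cancel₀ ha (by linear_combination p2)
        by_cases z0 : ψ (D.cpol 0) = 0
        · rw [e0, hba, sub_eq_zero] at z0
          have ham : a ^ D.m = 1 := by
            have h : a ^ D.m * 1 = a ^ D.m * a ^ D.m := by
              rw [mul_one]; nth_rw 1 [z0]; rw [← pow_mul, two_mul, pow_add]
            exact (mul_left_cancel₀ (pow_ne_zero _ ha) h).symm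
          exact hσm1 (by rw [← h3, ← pow_mul, mul_comm, pow_mul, ham, one_pow])
        · have p0 := hbig 0 z0
          rw [f0, hba] at p0
          exact hσ3 (by
            calc σ s ^ 3 = σ s ^ 2 * (a * a ^ 2) := by rw [pow_succ, ← h3]; ring
              _ = 1 := by linear_combination -p0)
  obtain ⟨am, bm⟩ := hgrid
  haveI : NeZero D.m := ⟨D.m_pos.ne'⟩
  obtain ⟨i, hi, hia⟩ := (D.hμ.map_of_injective hCinj).eq_pow_of_pow_eq_one am
  obtain ⟨i', hi', hib⟩ := (D.hμ.map_of_injective hCinj).eq_pow_of_pow_eq_one bm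
  have hP0 : w (1 - C (s ^ 2) * (X 0 * X 1)) = 1 := hone (Par.conic s 0) fun h => by
    rw [f0, sub_eq_zero] at h
    exact hσm (by
      calc σ s ^ (2 * D.m) = (σ s ^ 2) ^ D.m * (a ^ D.m * b ^ D.m) := by
            rw [am, bm, one_mul, mul_one, pow_mul]
        _ = (σ s ^ 2 * (a * b)) ^ D.m := by rw [mul_pow, mul_pow]
        _ = 1 := by rw [← h, one_pow])
  have hP2 : w (X 1 ^ 2 - C s * X 0) = 1 := hone (Par.conic s 2) fun h => by
    rw [f2, sub_eq_zero] at h
    exact hσm1 (by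
      calc σ s ^ D.m = σ s ^ D.m * a ^ D.m := by rw [am, mul_one]
        _ = (b ^ 2) ^ D.m := by rw [← mul_pow, h]
        _ = 1 := by rw [← pow_mul, mul_comm, pow_mul, bm, one_pow])
  have k0 := h0 w hk hs hμ
  have k2 := h2 w hk hs hμ
  rw [hP0, one_pow, mul_one] at k0
  rw [hP2, one_pow, mul_one] at k2
  have hY : w (X 1 ^ D.m - 1) ≤ μ := by
    rw [show (X 1 ^ D.m - 1 : P2 k) = -((X 0 ^ D.m - X 1 ^ D.m) + (1 - X 0 ^ D.m)) by ring,
      Valuation.map_neg]
    exact Valuation.map_add_le _ k0 k2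
  have hX : w (X 0 ^ D.m - 1) ≤ μ := by rwa [← neg_sub, Valuation.map_neg]
  have hlin : ∀ (l : Fin 2) (r : ℕ), r < D.m → σ D.μ ^ r = ψ (X l) →
      w (X l ^ D.m - 1) ≤ μ → w (X l - C (D.μ ^ r)) ≤ μ := by
    intro l r hr hψ hle'
    classical
    have hprod : (X l ^ D.m - 1 : P2 k) = ∏ t ∈ Finset.range D.m, (X l - C (D.μ ^ t)) := by
      have h := Polynomial.X_pow_sub_one_eq_prod (R := k) D.m_pos D.hμ
      have h' := congrArg (Polynomial.aeval (X l : P2 k)) h
      rw [map_sub, map_pow, Polynomial.aeval_X, map_one, map_prod] at h'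
      rw [h']
      symm
      refine Finset.prod_bij (fun t _ => D.μ ^ t) (fun t _ => ?_) (fun a ha b hb hab =>
        D.hμ.pow_inj (Finset.mem_range.mp ha) (Finset.mem_range.mp hb) hab) (fun z hz => ?_)
        (fun t _ => by simp [MvPolynomial.algebraMap_eq])
      · rw [Polynomial.mem_nthRootsFinset D.m_pos, D.pow_grid]
      · rw [Polynomial.mem_nthRootsFinset D.m_pos] at hz
        obtain ⟨t, ht, rfl⟩ := D.hμ.eq_pow_of_pow_eq_one hz
        exact ⟨t, Finset.mem_range.mpr ht, rfl⟩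
    rw [hprod, map_prod, Finset.prod_eq_single r] at hle'
    · exact hle'
    · intro t ht htr
      refine hone _ fun h => htr ?_
      rw [map_sub, sub_eq_zero, ← hψ] at h
      exact D.hμ.pow_inj (Finset.mem_range.mp ht) hr (hCinj (by rw [map_pow σ _ r]; exact h.symm))
    · intro h; exact absurd (Finset.mem_range.mpr hr) h
  refine ⟨(⟨i, hi⟩, ⟨i', hi'⟩), fun l => ?_⟩
  fin_cases l
  · exact hlin 0 i hi hia hX
  · exact hlin 1 i' hi' hib hY

/-- **The valuative criterion.** -/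
theorem adm_le {n : ℕ} {p : P2 k} (hp : D.AdmPoly n p) : w p ≤ μ ^ n := by
  obtain ⟨x, hx⟩ : ∃ x, x = w (X 0) := ⟨_, rfl⟩
  obtain ⟨y, hy⟩ : ∃ y, y = w (X 1) := ⟨_, rfl⟩
  have both : ∀ {a b : Γ} {i i' : ℕ}, 1 ≤ b → b ≤ a → i ≤ 2 * D.m * n → i + i' ≤ 3 * D.m * n →
      (a ^ 2 * b) ^ D.m ≤ μ → a ^ i * b ^ i' ≤ μ ^ n := by
    intro a b i i' hb hba hi hsum hle
    obtain ⟨t, ht⟩ := Nat.exists_eq_add_of_le hi
    calc a ^ i * b ^ i' ≤ a ^ i * b ^ (t + D.m * n) :=
          mul_le_mul' le_rfl (pow_le_pow_right' hb (by linarith))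
      _ ≤ a ^ i * (a ^ t * b ^ (D.m * n)) := by
          rw [pow_add]; exact mul_le_mul' le_rfl (mul_le_mul' (pow_le_pow_left' hba t) le_rfl)
      _ = ((a ^ 2 * b) ^ D.m) ^ n := by
          rw [← mul_assoc, ← pow_add, ← ht, mul_pow, mul_pow, ← pow_mul, ← pow_mul, ← pow_mul,
            ← mul_assoc]
      _ ≤ μ ^ n := pow_le_pow_left' hle n
  rcases lt_trichotomy (w (X 0)) 1 with hx1 | hx1 | hx1
  · rcases lt_trichotomy (w (X 1)) 1 with hy1 | hy1 | hy1
    · refine adm_mono w hk hp fun i i' _ _ _ hlow => ?_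
      have hB := origin w hk hs hμ hx1 hy1
      set B := max (w (X 0)) (w (X 1))
      calc w (X 0) ^ i * w (X 1) ^ i' ≤ B ^ i * B ^ i' :=
            mul_le_mul' (pow_le_pow_left' (le_max_left _ _) _) (pow_le_pow_left' (le_max_right _ _) _)
        _ = B ^ (i + i') := (pow_add _ _ _).symm
        _ ≤ B ^ (D.m * n) := pow_le_pow_of_le_one zero_le (max_le hx1.le hy1.le) hlow
        _ = (B ^ D.m) ^ n := pow_mul _ _ _
        _ ≤ μ ^ n := pow_le_pow_left' hB n
    · refine adm_mono w hk hp fun i i' _ _ _ _ => ?_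
      rw [hy1, one_pow, mul_one]
      exact (pow_le_one' hx1.le i).trans
        (one_le_pow_of_one_le' (edge w hk hs hμ (Or.inl ⟨hx1, hy1⟩)) n)
    · refine adm_mono w hk hp fun i i' _ hi' _ _ => ?_
      calc w (X 0) ^ i * w (X 1) ^ i' ≤ 1 * w (X 1) ^ (2 * D.m * n) :=
            mul_le_mul' (pow_le_one' hx1.le i) (pow_le_pow_right' hy1.le hi')
        _ = (w (X 1) ^ D.m * w (X 1) ^ D.m) ^ n := by rw [one_mul, ← pow_add, ← pow_mul, two_mul]
        _ ≤ μ ^ n := pow_le_pow_left' (infY w hk hs hμ hx1.le hy1) n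
  · rcases lt_trichotomy (w (X 1)) 1 with hy1 | hy1 | hy1
    · refine adm_mono w hk hp fun i i' _ _ _ _ => ?_
      rw [hx1, one_pow, one_mul]
      exact (pow_le_one' hy1.le i').trans
        (one_le_pow_of_one_le' (edge w hk hs hμ (Or.inr ⟨hx1, hy1⟩)) n)
    · rcases units w hk hs hμ hx1 hy1 with hμ1 | ⟨g, hg⟩
      · exact (adm_mono w hk hp fun i i' _ _ _ _ => by
          rw [hx1, hy1, one_pow, one_pow, one_mul]).trans (one_le_pow_of_one_le' hμ1 n)
      rcases le_or_gt μ 1 with hle | hgt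
      · rw [show p = shift (-D.grid g) (shift (D.grid g) p) from (shift_neg_shift p).symm,
          (shift (D.grid g) p).as_sum, map_sum]
        refine Valuation.map_sum_le _ fun d hd => ?_
        have hdeg : n ≤ d 0 + d 1 := by
          by_contra hlt
          refine mem_support_iff.mp hd (le_ordAt.mp (hp.points g) d ?_)
          rw [Finsupp.degree_eq_sum, Fin.sum_univ_two]; omega
        have hmono : shift (-D.grid g) (monomial d (coeff d (shift (D.grid g) p))) =
            C (coeff d (shift (D.grid g) p)) *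
              ((X 0 - C (D.grid g 0)) ^ d 0 * (X 1 - C (D.grid g 1)) ^ d 1) := by
          rw [shift, aeval_monomial, Finsupp.prod_fintype _ _ (fun _ => pow_zero _),
            Fin.prod_univ_two, MvPolynomial.algebraMap_eq]
          simp [sub_eq_add_neg]
        rw [hmono, map_mul, map_mul, map_pow, map_pow]
        refine (mul_le_mul' (hk _) le_rfl).trans ?_
        rw [one_mul]
        exact (mul_le_mul' (pow_le_pow_left' (hg 0) _) (pow_le_pow_left' (hg 1) _)).trans
          ((pow_add _ _ _).symm.trans_le (pow_le_pow_of_le_one zero_le hle hdeg))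
      · exact (adm_mono w hk hp fun i i' _ _ _ _ => by
          rw [hx1, hy1, one_pow, one_pow, one_mul]).trans (one_le_pow_of_one_le' hgt.le n)
    · refine adm_mono w hk hp fun i i' _ hi' _ _ => ?_
      calc w (X 0) ^ i * w (X 1) ^ i' ≤ 1 * w (X 1) ^ (2 * D.m * n) :=
            mul_le_mul' (by rw [hx1, one_pow]) (pow_le_pow_right' hy1.le hi')
        _ = (w (X 1) ^ D.m * w (X 1) ^ D.m) ^ n := by rw [one_mul, ← pow_add, ← pow_mul, two_mul]
        _ ≤ μ ^ n := pow_le_pow_left' (infY w hk hs hμ hx1.le hy1) n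
  · rcases le_or_gt (w (X 1)) 1 with hy1 | hy1
    · refine adm_mono w hk hp fun i i' hi _ _ _ => ?_
      calc w (X 0) ^ i * w (X 1) ^ i' ≤ w (X 0) ^ (2 * D.m * n) * 1 :=
            mul_le_mul' (pow_le_pow_right' hx1.le hi) (pow_le_one' hy1 i')
        _ = (w (X 0) ^ D.m * w (X 0) ^ D.m) ^ n := by rw [mul_one, ← pow_add, ← pow_mul, two_mul]
        _ ≤ μ ^ n := pow_le_pow_left' (infX w hk hs hμ hy1 hx1) n
    · rcases le_or_gt (w (X 1)) (w (X 0)) with hle | hgt
      · exact adm_mono w hk hp fun i i' hi _ hsum _ =>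
          both hy1.le hle hi hsum (infXY w hk hs hμ hy1 hle)
      · refine adm_mono w hk hp fun i i' _ hi' hsum _ => ?_
        rw [mul_comm]
        exact both hx1.le hgt.le hi' (by omega) (infYX w hk hs hμ hx1 hgt)

end Val

end Vale.Agent.P190.Example
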