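import Vale.Agent.P190.Example.Graded
import Vale.Agent.P190.Example.Ord

/-!
# P190 Module 6: the Fermat example

In the chart `z = 1`: `u^m = X^m - Y^m`, `v^m = Y^m - 1`, `w^m = 1 - X^m`; the degree `j` piece
consists of the forms of degree `3j` of order `≥ j` at the three vertices and the `m²` grid points.
-/

namespace Vale.Agent.P190.Example

open MvPolynomial

set_option linter.unusedSectionVars false

/-- The affine coordinate ring of the plane. -/
abbrev P2 (k : Type) [Field k] : Type := MvPolynomial (Fin 2) k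

/-- The function field of the plane. -/
abbrev L2 (k : Type) [Field k] : Type := FractionRing (P2 k)

/-- A separable closure of the function field. -/
abbrev M2 (k : Type) [Field k] : Type := SeparableClosure (L2 k)

/-- Parameters: the exponent and a primitive root of unity. -/
structure Par (k : Type) [Field k] where
  m : ℕ
  hm : 4 ≤ m
  hmk : (m : k) ≠ 0
  μ : k
  hμ : IsPrimitiveRoot μ m

variable {k : Type} [Field k] [Infinite k] (D : Par k)

instance instIsSepClosedM2 : IsSepClosed (M2 k) := IsSepClosure.sep_closed (L2 k)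

namespace Par

theorem m_pos : 0 < D.m := lt_of_lt_of_le (by norm_num) D.hm

/-- The three branch forms. -/
noncomputable def cpol : Fin 3 → P2 k :=
  ![X 0 ^ D.m - X 1 ^ D.m, X 1 ^ D.m - 1, 1 - X 0 ^ D.m]

theorem cpol_sum : D.cpol 0 + D.cpol 1 + D.cpol 2 = 0 := by
  simp [cpol]

theorem eval_cpol (P : Fin 2 → k) :
    (fun i => eval P (D.cpol i)) = ![P 0 ^ D.m - P 1 ^ D.m, P 1 ^ D.m - 1, 1 - P 0 ^ D.m] := by
  funext i
  fin_cases i <;> simp [cpol]

theorem cpol_ne (i : Fin 3) : D.cpol i ≠ 0 := by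
  have hm := D.m_pos
  intro h
  obtain ⟨a, ha⟩ : ∃ a : k, a ^ D.m ≠ 1 ∧ a ^ D.m ≠ 0 := by
    classical
    obtain ⟨a, ha⟩ := Infinite.exists_notMem_finset
      (insert 0 (Polynomial.X ^ D.m - Polynomial.C (1 : k)).roots.toFinset)
    simp only [Finset.mem_insert, Multiset.mem_toFinset, not_or] at ha
    refine ⟨a, fun h1 => ha.2 ?_, pow_ne_zero _ ha.1⟩
    rw [Polynomial.mem_roots (Polynomial.X_pow_sub_C_ne_zero hm _)]
    simp [h1]
  have h1 := congrArg (eval ![a, 1]) h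
  have h2 := congrArg (eval ![(0 : k), a]) h
  fin_cases i <;> simp [cpol, zero_pow hm.ne', sub_eq_zero] at h1 h2
  · exact ha.2 (by simpa [zero_pow hm.ne'] using h2)
  · exact ha.1 h2

/-- The grid points. -/
def grid (q : Fin D.m × Fin D.m) : Fin 2 → k := ![D.μ ^ (q.1 : ℕ), D.μ ^ (q.2 : ℕ)]

theorem pow_grid (i : ℕ) : (D.μ ^ i) ^ D.m = 1 := by
  rw [← pow_mul, mul_comm, pow_mul, D.hμ.pow_eq_one, one_pow]

theorem μ_ne (i : ℕ) : D.μ ^ i ≠ 0 := pow_ne_zero _ (D.hμ.ne_zero D.m_pos.ne')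

theorem eval_cpol_grid (q : Fin D.m × Fin D.m) (i : Fin 3) : eval (D.grid q) (D.cpol i) = 0 := by
  fin_cases i <;> simp [cpol, grid, pow_grid]

theorem ordAt_cpol_grid (q : Fin D.m × Fin D.m) (i : Fin 3) :
    ordAt (D.grid q) (D.cpol i) = 1 := by
  have key : ∀ j : ℕ, (D.m : k) * (D.μ ^ j) ^ (D.m - 1) ≠ 0 :=
    fun j => mul_ne_zero D.hmk (pow_ne_zero _ (D.μ_ne j))
  have h0 := D.eval_cpol_grid q i
  fin_cases i
  · exact ordAt_eq_one (i := 0) h0 (by simpa [cpol, grid, pderiv_pow] using key q.1)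
  · exact ordAt_eq_one (i := 1) h0 (by simpa [cpol, grid, pderiv_pow] using key q.2)
  · exact ordAt_eq_one (i := 0) h0 (by simpa [cpol, grid, pderiv_pow] using key q.1)

theorem ordAt_cpol_origin (i : Fin 3) :
    ordAt (0 : Fin 2 → k) (D.cpol i) = if i = 0 then (D.m : ℕ∞) else 0 := by
  fin_cases i
  · exact (ordAt_zero_of_isHomogeneous ((isHomogeneous_X_pow 0 _).sub (isHomogeneous_X_pow 1 _))
      (D.cpol_ne 0)).trans (by simp)
  · simpa using ordAt_eq_zero (p := D.cpol 1) (P := (0 : Fin 2 → k))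
      (by simp [cpol, zero_pow D.m_pos.ne'])
  · simpa using ordAt_eq_zero (p := D.cpol 2) (P := (0 : Fin 2 → k))
      (by simp [cpol, zero_pow D.m_pos.ne'])

/-- Degree and order conditions on the `m`-th power of a monomial of degree `j`. -/
structure AdmPoly (j : ℕ) (p : P2 k) : Prop where
  degX : degreeOf 0 p ≤ 2 * D.m * j
  degY : degreeOf 1 p ≤ 2 * D.m * j
  deg : p.totalDegree ≤ 3 * D.m * j
  origin : ((D.m * j : ℕ) : ℕ∞) ≤ ordAt 0 p
  points : ∀ q, (j : ℕ∞) ≤ ordAt (D.grid q) p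

theorem admPoly_zero (j : ℕ) : D.AdmPoly j 0 := by
  constructor <;> simp

theorem admPoly_one : D.AdmPoly 0 1 := by
  constructor <;> simp

variable {D}

theorem AdmPoly.mul {i j : ℕ} {p q : P2 k} (hp : D.AdmPoly i p) (hq : D.AdmPoly j q) :
    D.AdmPoly (i + j) (p * q) where
  degX := (degreeOf_mul_le _ _ _).trans (by rw [mul_add]; exact add_le_add hp.degX hq.degX)
  degY := (degreeOf_mul_le _ _ _).trans (by rw [mul_add]; exact add_le_add hp.degY hq.degY)
  deg := (totalDegree_mul _ _).trans (by rw [mul_add]; exact add_le_add hp.deg hq.deg)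
  origin := by rw [ordAt_mul, mul_add, Nat.cast_add]; exact add_le_add hp.origin hq.origin
  points r := by rw [ordAt_mul, Nat.cast_add]; exact add_le_add (hp.points r) (hq.points r)

theorem AdmPoly.add {j : ℕ} {p q : P2 k} (hp : D.AdmPoly j p) (hq : D.AdmPoly j q) :
    D.AdmPoly j (p + q) where
  degX := (degreeOf_add_le _ _ _).trans (max_le hp.degX hq.degX)
  degY := (degreeOf_add_le _ _ _).trans (max_le hp.degY hq.degY)
  deg := (totalDegree_add _ _).trans (max_le hp.deg hq.deg)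
  origin := le_ordAt_add hp.origin hq.origin
  points r := le_ordAt_add (hp.points r) (hq.points r)

theorem AdmPoly.smul {j : ℕ} {p : P2 k} (hp : D.AdmPoly j p) (a : k) :
    D.AdmPoly j (a • p) where
  degX := by rw [smul_eq_C_mul]; exact (degreeOf_C_mul_le _ _ _).trans hp.degX
  degY := by rw [smul_eq_C_mul]; exact (degreeOf_C_mul_le _ _ _).trans hp.degY
  deg := (totalDegree_smul_le _ _).trans hp.deg
  origin := le_ordAt_smul a hp.origin
  points r := le_ordAt_smul a (hp.points r)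

variable (D)

/-- A prime dividing two of the branch forms is absurd; each is reduced. -/
theorem cpol_separated {π : P2 k} (hπ : Prime π) {i j : Fin 3} (hij : i ≠ j) (hi : π ∣ D.cpol i) :
    ¬ π ∣ D.cpol j := by
  intro hj
  have hs := D.cpol_sum
  have h12 : π ∣ D.cpol 1 ∧ π ∣ D.cpol 2 := by
    have h0' : D.cpol 0 = -D.cpol 1 - D.cpol 2 := by linear_combination hs
    have h1' : D.cpol 1 = -D.cpol 0 - D.cpol 2 := by linear_combination hs
    have h2' : D.cpol 2 = -D.cpol 0 - D.cpol 1 := by linear_combination hs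
    fin_cases i <;> fin_cases j <;> first
      | exact absurd rfl hij
      | exact ⟨by first | assumption | (rw [h1']; exact dvd_sub (dvd_neg.mpr (by assumption)) (by assumption)),
          by first | assumption | (rw [h2']; exact dvd_sub (dvd_neg.mpr (by assumption)) (by assumption))⟩
  have hd : ∀ (l : Fin 2) (p : P2 k), π ∣ p → p ≠ 0 → degreeOf l p = 0 → degreeOf l π = 0 := by
    rintro l p ⟨r, rfl⟩ hp h0
    rw [degreeOf_mul_eq (left_ne_zero_of_mul hp) (right_ne_zero_of_mul hp)] at h0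
    omega
  have hX : degreeOf 0 π = 0 := hd 0 _ h12.1 (D.cpol_ne 1) <| by
    refine Nat.le_zero.mp ((degreeOf_sub_le _ _ _).trans ?_)
    simp [degreeOf_X_pow_of_ne, show (0 : Fin 2) ≠ 1 by decide]
  have hY : degreeOf 1 π = 0 := hd 1 _ h12.2 (D.cpol_ne 2) <| by
    refine Nat.le_zero.mp ((degreeOf_sub_le _ _ _).trans ?_)
    simp [degreeOf_X_pow_of_ne, show (1 : Fin 2) ≠ 0 by decide]
  have hC : π.totalDegree = 0 := by
    rw [totalDegree_eq_zero_iff_eq_C]
    ext d
    by_cases h : d = 0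
    · simp [h]
    · rw [coeff_C, if_neg (Ne.symm h)]
      by_contra hd0
      refine h (Finsupp.ext fun l => ?_)
      have hle := monomial_le_degreeOf l (mem_support_iff.mpr hd0)
      fin_cases l <;> simp_all
  rw [totalDegree_eq_zero_iff_eq_C] at hC
  exact hπ.not_isUnit (hC ▸ (isUnit_iff_ne_zero.mpr fun h0 => hπ.ne_zero (by
    rw [hC, h0, map_zero])).map C)

theorem cpol_squarefree {π : P2 k} (hπ : Prime π) (i : Fin 3) : ¬ π * π ∣ D.cpol i := by
  rintro ⟨r, hr⟩
  have hd : ∀ l : Fin 2, π ∣ pderiv l (D.cpol i) := fun l => by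
    rw [hr, pderiv_mul, pderiv_mul]
    exact ⟨pderiv l π * r + pderiv l π * r + π * pderiv l r, by ring⟩
  have hu : IsUnit (C (D.m : k) : P2 k) := (isUnit_iff_ne_zero.mpr D.hmk).map C
  have hm1 : D.m - 1 ≠ 0 := by have := D.hm; omega
  have hXY : ∀ l : Fin 2, π ∣ (D.m : P2 k) * X l ^ (D.m - 1) → π ∣ X l := fun l h =>
    hπ.dvd_of_dvd_pow ((hu.dvd_mul_left).mp (by simpa using h))
  have hX : ∀ l : Fin 2, π ∣ X l → π ∣ X l ^ D.m := fun l h => dvd_pow h D.m_pos.ne'
  have hc : π ∣ D.cpol i := ⟨π * r, by rw [hr, mul_assoc]⟩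
  fin_cases i
  · have a := hXY 0 (by simpa [cpol, pderiv_pow] using hd 0)
    have b := hXY 1 (by simpa [cpol, pderiv_pow] using hd 1)
    have := (X_prime (R := k) (i := (0 : Fin 2))).irreducible.dvd_iff.mp a
    obtain hu' | ha := this
    · exact hπ.not_isUnit hu'
    obtain hu' | hb := (X_prime (R := k) (i := (1 : Fin 2))).irreducible.dvd_iff.mp b
    · exact hπ.not_isUnit hu'
    have := congrArg (eval ![(0 : k), 1]) ((ha.trans hb.symm).choose_spec)
    obtain ⟨w, hw⟩ := ha.trans hb.symm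
    simpa using congrArg (eval ![(0 : k), 1]) hw
  · have a := hXY 1 (by simpa [cpol, pderiv_pow] using hd 1)
    have h := dvd_sub (hX 1 a) hc
    simp [cpol] at h
    exact hπ.not_dvd_one h
  · have a := hXY 0 (by simpa [cpol, pderiv_pow] using hd 0)
    have h := dvd_add (hX 0 a) hc
    simp [cpol] at h
    exact hπ.not_dvd_one h

/-- The exponent vectors. -/
abbrev Ix : Type := Fin 3 → Fin D.m

/-- `c^χ` in the polynomial ring. -/
noncomputable def cχ (χ : D.Ix) : P2 k := ∏ i, D.cpol i ^ (χ i : ℕ)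

theorem cχ_ne (χ : D.Ix) : D.cχ χ ≠ 0 :=
  Finset.prod_ne_zero_iff.mpr fun i _ => pow_ne_zero _ (D.cpol_ne i)

/-- No prime to the power `m` divides `c^χ`. -/
theorem not_pow_dvd_cχ {π : P2 k} (hπ : Prime π) (χ : D.Ix) : ¬ π ^ D.m ∣ D.cχ χ := fun h1 => by
  have h2 : π ∣ D.cχ χ := (dvd_pow_self π D.m_pos.ne').trans h1
  obtain ⟨i, -, hi⟩ := hπ.dvd_finsetProd_iff _ |>.mp h2
  have hic := hπ.dvd_of_dvd_pow hi
  rw [cχ, ← Finset.mul_prod_erase Finset.univ _ (Finset.mem_univ i)] at h1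
  have h3 := hπ.pow_dvd_of_dvd_mul_right _ (fun hd => by
    obtain ⟨j, hj, hjd⟩ := hπ.dvd_finsetProd_iff _ |>.mp hd
    exact D.cpol_separated hπ (Ne.symm (Finset.ne_of_mem_erase hj)) hic (hπ.dvd_of_dvd_pow hjd)) h1
  obtain ⟨r, hr⟩ := hic
  rw [hr, mul_pow] at h3
  have hlt : (χ i : ℕ) < D.m := (χ i).isLt
  obtain ⟨d, hd⟩ := Nat.exists_eq_add_of_lt hlt
  have h3' : π ^ (χ i : ℕ) * π ^ (d + 1) ∣ π ^ (χ i : ℕ) * r ^ (χ i : ℕ) := by
    rw [← pow_add]
    rwa [← add_assoc, ← hd]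
  have h4 : π ∣ r :=
    hπ.dvd_of_dvd_pow ((dvd_pow_self π (Nat.succ_ne_zero d)).trans
      ((mul_dvd_mul_iff_left (pow_ne_zero _ hπ.ne_zero)).mp h3'))
  exact D.cpol_squarefree hπ i (hr ▸ mul_dvd_mul_left π h4)

/-- If `φ^m c^χ` is a polynomial then so is `φ`. -/
theorem exists_poly {χ : D.Ix} {φ : L2 k} {z : P2 k}
    (h : algebraMap (P2 k) (L2 k) z = φ ^ D.m * algebraMap (P2 k) (L2 k) (D.cχ χ)) :
    ∃ p : P2 k, algebraMap (P2 k) (L2 k) p = φ := by
  obtain ⟨a, b, hcop, rfl⟩ := IsFractionRing.exists_reduced_fraction (A := P2 k) φ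
  suffices hb : IsUnit (b : P2 k) by
    obtain ⟨u, hu⟩ := hb
    exact ⟨a * u⁻¹.1, by rw [IsLocalization.eq_mk'_iff_mul_eq, ← map_mul, ← hu]; simp⟩
  have he : a ^ D.m * D.cχ χ = z * (b : P2 k) ^ D.m := by
    apply IsFractionRing.injective (P2 k) (L2 k)
    rw [map_mul, map_pow, map_mul, map_pow, h, mul_right_comm, ← mul_pow,
      IsLocalization.mk'_spec]
  by_contra hu
  obtain ⟨π, hπi, hπb⟩ := WfDvdMonoid.exists_irreducible_factor hu (nonZeroDivisors.coe_ne_zero b)
  have hπ : Prime π := irreducible_iff_prime.mp hπi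
  have hπa : ¬ π ∣ a := fun hd => hπ.not_isUnit (hcop hd hπb)
  have h1 : π ^ D.m ∣ D.cχ χ :=
    hπ.pow_dvd_of_dvd_mul_left _ (fun hd => hπa (hπ.dvd_of_dvd_pow hd))
      (he ▸ Dvd.dvd.mul_left (pow_dvd_pow_of_dvd hπb _) z)
  exact D.not_pow_dvd_cχ hπ χ h1

end Par

end Vale.Agent.P190.Example
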