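import Vale.Agent.P190.Example.ValBound
import Vale.Agent.P190.Example.Data

/-!
P190: the divisorial valuations of the plane that bound the pieces of the example, each with two
derivations that do not lower it.
-/

open MvPolynomial WithZero

namespace Vale.Agent.P190.Example

set_option linter.unusedSectionVars false

variable {k : Type} [Field k]

/-- An order function on polynomials in two variables. -/
structure OrdFun (k : Type) [Field k] where
  /-- The order. -/
  f : P2 k → ℤ
  f_one : f 1 = 0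
  f_mul : ∀ p q, p ≠ 0 → q ≠ 0 → f (p * q) = f p + f q
  f_add : ∀ p q, p ≠ 0 → q ≠ 0 → p + q ≠ 0 → min (f p) (f q) ≤ f (p + q)

namespace OrdFun

variable (o : OrdFun k)

open scoped Classical in
/-- The valuation of an order function on polynomials. -/
noncomputable def polyVal : Valuation (P2 k) ℤᵐ⁰ where
  toFun p := if p = 0 then 0 else exp (-o.f p)
  map_zero' := by simp
  map_one' := by simp [o.f_one]
  map_mul' p q := by
    by_cases hp : p = 0
    · simp [hp]
    by_cases hq : q = 0
    · simp [hq]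
    rw [if_neg (mul_ne_zero hp hq), if_neg hp, if_neg hq, o.f_mul p q hp hq, neg_add, exp_add]
  map_add_le_max' p q := by
    by_cases hp : p = 0
    · simp [hp]
    by_cases hq : q = 0
    · simp [hq]
    by_cases hpq : p + q = 0
    · simp [hpq]
    rw [if_neg hpq, if_neg hp, if_neg hq, le_max_iff, exp_le_exp, exp_le_exp]
    rcases min_le_iff.1 (o.f_add p q hp hq hpq) with h | h <;> omega

theorem polyVal_apply {p : P2 k} (hp : p ≠ 0) : o.polyVal p = exp (-o.f p) := if_neg hp

theorem nonZeroDivisors_le_supp : nonZeroDivisors (P2 k) ≤ o.polyVal.supp.primeCompl :=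
  fun p hp h => by
    have hp0 := nonZeroDivisors.ne_zero hp
    have h' : o.polyVal p = 0 := h
    rw [o.polyVal_apply hp0] at h'
    exact exp_ne_zero h'

/-- The valuation of the function field. -/
noncomputable def val : Valuation (L2 k) ℤᵐ⁰ :=
  o.polyVal.extendToLocalization o.nonZeroDivisors_le_supp (L2 k)

theorem val_algebraMap {p : P2 k} (hp : p ≠ 0) :
    o.val (algebraMap (P2 k) (L2 k) p) = exp (-o.f p) := by
  rw [val, Valuation.extendToLocalization_apply_map_apply, o.polyVal_apply hp]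

theorem f_pow {p : P2 k} (hp : p ≠ 0) (n : ℕ) : o.f (p ^ n) = n * o.f p := by
  induction n with
  | zero => simp [o.f_one]
  | succ n ih => rw [pow_succ, o.f_mul _ _ (pow_ne_zero n hp) hp, ih]; push_cast; ring

theorem f_const {a : k} (ha : a ≠ 0) (hconst : 0 ≤ o.f (C a)) (hconst' : 0 ≤ o.f (C a⁻¹)) :
    o.f (C a) = 0 := by
  have h := o.f_mul (C a) (C a⁻¹) (by simpa using ha) (by simpa using ha)
  rw [← map_mul, mul_inv_cancel₀ ha, map_one, o.f_one] at h
  omega

/-- A derivation `a₀ ∂/∂x + a₁ ∂/∂y` that does not lower the order. -/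
def Log (a : Fin 2 → P2 k) (d : P2 k) : Prop :=
  ∀ p : P2 k, p ≠ 0 → a 0 * pderiv 0 p + a 1 * pderiv 1 p ≠ 0 →
    o.f p + o.f d ≤ o.f (a 0 * pderiv 0 p + a 1 * pderiv 1 p)

end OrdFun

theorem prime_emultiplicity_ne_top {π p : P2 k} (hπ : Prime π) (hp : p ≠ 0) :
    FiniteMultiplicity π p :=
  FiniteMultiplicity.of_prime_left hπ hp

/-- The order along a curve. -/
noncomputable def curveOrd {π : P2 k} (hπ : Prime π) : OrdFun k where
  f p := (multiplicity π p : ℤ)
  f_one := by simp [multiplicity_eq_zero.2 hπ.not_dvd_one]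
  f_mul p q hp hq := by
    rw [multiplicity_mul hπ (prime_emultiplicity_ne_top hπ (mul_ne_zero hp hq))]
    push_cast
    rfl
  f_add p q hp hq hpq := by
    have h1 : π ^ min (multiplicity π p) (multiplicity π q) ∣ p + q :=
      dvd_add (dvd_trans (pow_dvd_pow π (min_le_left _ _)) (pow_multiplicity_dvd π p))
        (dvd_trans (pow_dvd_pow π (min_le_right _ _)) (pow_multiplicity_dvd π q))
    have h2 := (prime_emultiplicity_ne_top hπ hpq).le_multiplicity_of_pow_dvd h1
    omega

theorem le_curveOrd_iff {π : P2 k} (hπ : Prime π) {p : P2 k} (hp : p ≠ 0) (n : ℕ) :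
    (n : ℤ) ≤ (curveOrd hπ).f p ↔ π ^ n ∣ p := by
  show (n : ℤ) ≤ (multiplicity π p : ℤ) ↔ _
  rw [(prime_emultiplicity_ne_top hπ hp).pow_dvd_iff_le_multiplicity, Nat.cast_le]

/-- Minus the degree. -/
noncomputable def degOrd : OrdFun k where
  f p := -(p.totalDegree : ℤ)
  f_one := by simp
  f_mul p q hp hq := by rw [totalDegree_mul_of_isDomain hp hq]; push_cast; ring
  f_add p q _ _ _ := by have := totalDegree_add p q; omega

/-- Minus the degree in one variable. -/
noncomputable def degVarOrd (i : Fin 2) : OrdFun k where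
  f p := -(degreeOf i p : ℤ)
  f_one := by simp [degreeOf_one]
  f_mul p q hp hq := by rw [degreeOf_mul_eq hp hq]; push_cast; ring
  f_add p q _ _ _ := by have := degreeOf_add_le i p q; omega

/-- The order at a point. -/
noncomputable def pointOrd (P : Fin 2 → k) : OrdFun k where
  f p := ((ordAt P p).toNat : ℤ)
  f_one := by simp
  f_mul p q hp hq := by
    rw [ordAt_mul, ENat.toNat_add (ordAt_ne_top hp) (ordAt_ne_top hq)]
    push_cast
    rfl
  f_add p q hp hq hpq := by
    have h := le_ordAt_add (P := P) (p := p) (q := q) (n := min (ordAt P p) (ordAt P q))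
      (min_le_left _ _) (min_le_right _ _)
    obtain ⟨a, ha⟩ := ENat.ne_top_iff_exists.1 (ordAt_ne_top (P := P) hp)
    obtain ⟨b, hb⟩ := ENat.ne_top_iff_exists.1 (ordAt_ne_top (P := P) hq)
    obtain ⟨c, hc⟩ := ENat.ne_top_iff_exists.1 (ordAt_ne_top (P := P) hpq)
    rw [← ha, ← hb, ← hc, min_le_iff, Nat.cast_le, Nat.cast_le] at h
    simp only [← ha, ← hb, ← hc, ENat.toNat_natCast]
    omega

theorem le_pointOrd_iff (P : Fin 2 → k) {p : P2 k} (hp : p ≠ 0) (n : ℕ) :
    (n : ℤ) ≤ (pointOrd P).f p ↔ (n : ℕ∞) ≤ ordAt P p := by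
  obtain ⟨a, ha⟩ := ENat.ne_top_iff_exists.1 (ordAt_ne_top (P := P) hp)
  show (n : ℤ) ≤ ((ordAt P p).toNat : ℤ) ↔ _
  simp [← ha]

/-- `π ∂ᵢ` and `∂ᵢπ ∂ⱼ - ∂ⱼπ ∂ᵢ` along a curve. -/
theorem curve_log {π : P2 k} (hπ : Prime π) (i j : Fin 2) (hij : i ≠ j)
    (hi : ¬ π ∣ pderiv i π) :
    (curveOrd hπ).Log (Pi.single i π) (pderiv i π) ∧
      (curveOrd hπ).Log (Pi.single j (pderiv i π) + Pi.single i (-pderiv j π)) (pderiv i π) := by
  have h0 : (curveOrd hπ).f (pderiv i π) = 0 := by
    simp [curveOrd, multiplicity_eq_zero.2 hi]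
  have hsum : ∀ (a : Fin 2 → P2 k) (p : P2 k),
      a 0 * pderiv 0 p + a 1 * pderiv 1 p = ∑ l, a l * pderiv l p := fun a p => by
    rw [Fin.sum_univ_two]
  constructor
  · intro p hp hne
    rw [h0, add_zero]
    rw [hsum, Finset.sum_eq_single i (fun b _ hb => by simp [hb]) (by simp), Pi.single_eq_same]
      at hne ⊢
    refine (le_curveOrd_iff hπ hne _).2 ?_
    obtain ⟨r, hr⟩ := pow_multiplicity_dvd π p
    rcases Nat.eq_zero_or_pos (multiplicity π p) with hz | hz
    · simp [hz]
    · generalize multiplicity π p = n at hr hz ⊢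
      obtain ⟨n, rfl⟩ := Nat.exists_eq_add_of_le' hz
      rw [hr, Derivation.leibniz, Derivation.leibniz_pow, Nat.add_sub_cancel, smul_eq_mul,
        smul_eq_mul, nsmul_eq_mul, smul_eq_mul]
      exact ⟨pderiv i r * π + r * (((n + 1 : ℕ) : P2 k) * pderiv i π), by rw [pow_succ]; ring⟩
  · intro p hp hne
    rw [h0, add_zero]
    set a : Fin 2 → P2 k := Pi.single j (pderiv i π) + Pi.single i (-pderiv j π)
    rw [hsum] at hne ⊢
    refine (le_curveOrd_iff hπ hne _).2 ?_
    have hval : ∀ q : P2 k, ∑ l, a l * pderiv l q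
        = pderiv i π * pderiv j q - pderiv j π * pderiv i q := fun q => by
      obtain ⟨rfl, rfl⟩ | ⟨rfl, rfl⟩ : (i = 0 ∧ j = 1) ∨ (i = 1 ∧ j = 0) := by omega
      · simp [a, Fin.sum_univ_two]; ring
      · simp [a, Fin.sum_univ_two]; ring
    obtain ⟨r, hr⟩ := pow_multiplicity_dvd π p
    generalize multiplicity π p = n at hr ⊢
    refine ⟨∑ l, a l * pderiv l r, ?_⟩
    rw [hval, hval, hr]
    simp only [Derivation.leibniz, Derivation.leibniz_pow, nsmul_eq_mul, smul_eq_mul]
    ring

theorem mulX_pderiv_monomial (i j : Fin 2) (d : Fin 2 →₀ ℕ) (c : k) :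
    X i * pderiv j (monomial d c)
      = monomial (d - Finsupp.single j 1 + Finsupp.single i 1) (c * d j) := by
  rw [pderiv_monomial, mul_comm, X, monomial_mul, mul_one]

/-- A polynomial derivation sending monomials to monomials of bounded exponents. -/
theorem support_log {a : Fin 2 → P2 k} (P : (Fin 2 →₀ ℕ) → Prop)
    (h : ∀ (d : Fin 2 →₀ ℕ) (c : k), P d →
      ∀ e ∈ (a 0 * pderiv 0 (monomial d c) + a 1 * pderiv 1 (monomial d c)).support, P e)
    {p : P2 k} (hp : ∀ d ∈ p.support, P d) :
    ∀ e ∈ (a 0 * pderiv 0 p + a 1 * pderiv 1 p).support, P e := by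
  classical
  intro e he
  rw [p.as_sum, map_sum, map_sum, Finset.mul_sum, Finset.mul_sum, ← Finset.sum_add_distrib] at he
  obtain ⟨d, hd, he'⟩ := Finset.mem_biUnion.1 (support_sum he)
  exact h d _ (hp d hd) e he'

/-- The derivations of the total degree. -/
theorem deg_log : (degOrd (k := k)).Log ![X 0, X 1] 1 ∧ (degOrd (k := k)).Log ![0, X 0] 1 := by
  constructor <;> intro p hp hne <;> rw [(degOrd (k := k)).f_one, add_zero] <;>
    refine neg_le_neg (Int.ofNat_le.2 (Finset.sup_le fun e he => ?_))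
  · refine support_log (fun d => d.sum (fun _ n => n) ≤ p.totalDegree) (fun d c hd e he => ?_)
      (fun d hd => le_totalDegree hd) e he
    simp only [Matrix.cons_val_zero, Matrix.cons_val_one, mulX_pderiv_monomial] at he
    rcases Finset.mem_union.1 (support_add he) with h | h <;>
      rw [Finset.mem_singleton.1 (support_monomial_subset h)] <;>
      simp [Finsupp.sum_fintype, Fin.sum_univ_two] at hd ⊢ <;>
      by_cases hz : d 0 = 0 <;> by_cases hz' : d 1 = 0 <;> simp_all <;> omega
  · refine support_log (fun d => d.sum (fun _ n => n) ≤ p.totalDegree) (fun d c hd e he => ?_)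
      (fun d hd => le_totalDegree hd) e he
    simp only [Matrix.cons_val_zero, Matrix.cons_val_one, mulX_pderiv_monomial, zero_mul,
      zero_add] at he
    by_cases hz : d 1 = 0
    · simp [hz] at he
    rw [Finset.mem_singleton.1 (support_monomial_subset he)]
    simp [Finsupp.sum_fintype, Fin.sum_univ_two] at hd ⊢
    omega

/-- The derivations of the degree in a variable. -/
theorem degVar_log (i j : Fin 2) (hij : i ≠ j) :
    (degVarOrd (k := k) i).Log (Pi.single i (X i)) 1 ∧
      (degVarOrd (k := k) i).Log (Pi.single j 1) 1 := by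
  have hsum : ∀ (a : Fin 2 → P2 k) (p : P2 k),
      a 0 * pderiv 0 p + a 1 * pderiv 1 p = ∑ l, a l * pderiv l p := fun a p => by
    rw [Fin.sum_univ_two]
  have key : ∀ (l : Fin 2) (q p : P2 k), q = pderiv l p → ∀ e ∈ q.support,
      e + Finsupp.single l 1 ∈ p.support := fun l q p hq e he => by
    rw [hq, mem_support_iff, coeff_pderiv] at he
    exact mem_support_iff.2 (left_ne_zero_of_mul he)
  constructor <;> intro p hp hne <;> rw [(degVarOrd (k := k) i).f_one, add_zero] <;>
    refine neg_le_neg (Int.ofNat_le.2 (degreeOf_le_iff.2 fun e he => ?_))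
  · rw [hsum, Finset.sum_eq_single i (fun b _ hb => by simp [hb]) (by simp), Pi.single_eq_same,
      mem_support_iff, coeff_X_mul'] at he
    split_ifs at he with h
    · have h1 := monomial_le_degreeOf i (key i _ p rfl _ (mem_support_iff.2 he))
      have h2 : 0 < e i := Nat.pos_of_ne_zero (Finsupp.mem_support_iff.1 h)
      simp at h1
      omega
    · exact absurd rfl he
  · rw [hsum, Finset.sum_eq_single j (fun b _ hb => by simp [hb]) (by simp), Pi.single_eq_same,
      one_mul] at he
    have h1 := monomial_le_degreeOf i (key j _ p rfl _ he)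
    simpa [Finsupp.single_eq_of_ne hij] using h1

/-- The derivations of the order at a point. -/
theorem point_log (P : Fin 2 → k) :
    (pointOrd P).Log ![X 0 - C (P 0), X 1 - C (P 1)] 1 ∧
      (pointOrd P).Log ![0, X 0 - C (P 0)] 1 := by
  have hle : ∀ (i j : Fin 2) (p : P2 k) (n : ℕ), (n : ℕ∞) ≤ ordAt P p →
      (n : ℕ∞) ≤ ordAt P ((X i - C (P i)) * pderiv j p) := fun i j p n h => by
    rw [le_ordAt] at h ⊢
    intro d hd
    rw [map_mul, map_sub, shift_X, shift, algHom_C, ← shift, algebraMap_eq,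
      add_sub_cancel_right, ← shift_pderiv, coeff_X_mul']
    split_ifs with hi
    · rw [coeff_pderiv, h _ ?_, zero_mul]
      have h1 : Finsupp.single i 1 ≤ d :=
        Finsupp.single_le_iff.2 (Nat.one_le_iff_ne_zero.2 (Finsupp.mem_support_iff.1 hi))
      rw [Finsupp.degree_eq_sum, Fin.sum_univ_two] at hd ⊢
      have h2 := h1 i
      simp only [Finsupp.add_apply, Finsupp.tsub_apply]
      fin_cases i <;> fin_cases j <;> simp at h2 ⊢ <;> omega
    · rfl
  constructor <;> intro p hp hne <;> rw [(pointOrd P).f_one, add_zero] <;>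
    obtain ⟨n, hn⟩ := ENat.ne_top_iff_exists.1 (ordAt_ne_top (P := P) hp)
  · rw [show (pointOrd P).f p = (n : ℤ) by simp [pointOrd, ← hn], le_pointOrd_iff P hne]
    exact le_ordAt_add (hle 0 0 p n hn.le) (hle 1 1 p n hn.le)
  · rw [show (pointOrd P).f p = (n : ℤ) by simp [pointOrd, ← hn], le_pointOrd_iff P hne]
    simpa using hle 0 1 p n hn.le

end Vale.Agent.P190.Example
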