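import Vale.Agent.P190.Defs
import Vale.Agent.P190.Example.ChartsComp

/-!
P190: the three standard charts of the example are smooth.
-/

open MvPolynomial

namespace Vale.Agent.P190.Example

variable {k K : Type} [Field k] [Field K] [Algebra k K]

/-- The value of a component. -/
noncomputable def compVal (x y u v w : K) (a b c : ℕ) (φ : MvPolynomial (Fin 2) k) : K :=
  aeval ![x, y] φ * (u ^ a * v ^ b * w ^ c)

theorem chart_finiteType (C : Cone k K) {s : K} (hs : s ≠ 0) :
    Algebra.FiniteType k (C.chart s) := by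
  rw [← Subalgebra.fg_iff_finiteType]
  classical
  have hfd : ∀ n : ℤ, ∃ T : Finset K, Submodule.span k (T : Set K) = C.R n := fun n =>
    haveI := C.fd n
    (C.R n).fg_iff_finiteDimensional.2 inferInstance
  choose T hT using hfd
  let G : Finset K := ((Finset.range (C.g + 1)).biUnion fun n => (T (n : ℤ)).image (· / s ^ n)) ∪
    {1 / s, C.η / s, C.ζ / s}
  refine ⟨G, le_antisymm (Algebra.adjoin_le ?_) (Algebra.adjoin_le ?_)⟩
  · intro e he
    rcases Finset.mem_union.1 he with h | h
    · obtain ⟨n, -, hn⟩ := Finset.mem_biUnion.1 h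
      obtain ⟨a, ha, rfl⟩ := Finset.mem_image.1 hn
      exact Algebra.subset_adjoin ⟨n, a, hT n ▸ Submodule.subset_span ha, rfl⟩
    · simp only [Finset.mem_insert, Finset.mem_singleton] at h
      rcases h with rfl | rfl | rfl
      exacts [Algebra.subset_adjoin ⟨1, 1, C.one_mem, by simp⟩,
        Algebra.subset_adjoin ⟨1, C.η, C.η_mem, by simp⟩,
        Algebra.subset_adjoin ⟨1, C.ζ, C.ζ_mem, by simp⟩]
  · rintro e ⟨n, a, ha, rfl⟩
    set D := Algebra.adjoin k (G : Set K)
    have hone : 1 / s ∈ D := Algebra.subset_adjoin (by simp [G])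
    have hη : C.η / s ∈ D := Algebra.subset_adjoin (by simp [G])
    have hζ : C.ζ / s ∈ D := Algebra.subset_adjoin (by simp [G])
    show a / s ^ n ∈ D
    induction n generalizing a with
    | zero =>
      rw [Nat.cast_zero, C.R_zero, Submodule.mem_span_singleton] at ha
      obtain ⟨c, rfl⟩ := ha
      simp [Algebra.smul_def]
    | succ n ih =>
      rcases lt_or_ge n C.g with hn | hn
      · rw [← hT] at ha
        induction ha using Submodule.span_induction with
        | mem b hb =>
          refine Algebra.subset_adjoin (Finset.mem_union_left _ (Finset.mem_biUnion.2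
            ⟨n + 1, Finset.mem_range.2 (by omega), Finset.mem_image.2 ⟨b, hb, rfl⟩⟩))
        | zero => simp
        | add b b' _ _ h h' => rw [add_div]; exact D.add_mem h h'
        | smul c b _ h => rw [smul_div_assoc]; exact D.smul_mem h c
      · rw [Nat.cast_succ, C.gen n (by exact_mod_cast hn)] at ha
        obtain ⟨b, hb, b₂, hb₂, rfl⟩ := Submodule.mem_sup.1 ha
        obtain ⟨b₀, hb₀, b₁', hb₁, rfl⟩ := Submodule.mem_sup.1 hb
        obtain ⟨b₁, hb₁, rfl⟩ := hb₁
        obtain ⟨b₂, hb₂, rfl⟩ := hb₂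
        have e : (b₀ + LinearMap.mulLeft k C.η b₁ + LinearMap.mulLeft k C.ζ b₂) / s ^ (n + 1)
            = 1 / s * (b₀ / s ^ n) + C.η / s * (b₁ / s ^ n) + C.ζ / s * (b₂ / s ^ n) := by
          simp only [LinearMap.mulLeft_apply, pow_succ]
          field_simp
        rw [e]
        exact D.add_mem (D.add_mem (D.mul_mem hone (ih b₀ hb₀)) (D.mul_mem hη (ih b₁ hb₁)))
          (D.mul_mem hζ (ih b₂ hb₂))

/-- A maximal ideal of a finitely generated algebra over an algebraically closed field is the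
kernel of a point. -/
theorem exists_point [IsAlgClosed k] {B : Type*} [CommRing B] [Algebra k B]
    [Algebra.FiniteType k B] (P : Ideal B) [P.IsMaximal] :
    ∃ χ : B →ₐ[k] k, RingHom.ker χ = P := by
  let _ : Field (B ⧸ P) := Ideal.Quotient.field P
  have : Algebra.FiniteType k (B ⧸ P) :=
    Algebra.FiniteType.of_surjective (Ideal.Quotient.mkₐ k P) Ideal.Quotient.mk_surjective
  have : Module.Finite k (B ⧸ P) := finite_of_finite_type_of_isJacobsonRing k (B ⧸ P)
  have hb : Function.Bijective (Algebra.ofId k (B ⧸ P)) :=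
    IsAlgClosed.algebraMap_bijective_of_isIntegral
  refine ⟨(AlgEquiv.ofBijective _ hb).symm.toAlgHom.comp (Ideal.Quotient.mkₐ k P), ?_⟩
  ext b
  rw [RingHom.mem_ker]
  show (AlgEquiv.ofBijective _ hb).symm (Ideal.Quotient.mk P b) = 0 ↔ _
  rw [map_eq_zero_iff _ (AlgEquiv.injective _), Ideal.Quotient.eq_zero_iff_mem]

/-- The charts of a cone whose pieces consist of the admissible components of
`u^m = x^m - y^m, v^m = y^m - 1, w^m = 1 - x^m` are smooth. -/
theorem smooth_charts [IsAlgClosed k] (C : Cone k K) {m : ℕ} (hm : (m : k) ≠ 0)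
    {x y u v w X : K} (hF : Fermat m (six x y u v w)) (hX : X ≠ 0)
    (hne : ∀ l q, six x y u v w l * quad (six x y u v w) q ≠ 0)
    (hlq : ∀ l q, six x y u v w l * quad (six x y u v w) q / X ∈ C.R 1)
    (hspan : ∀ n : ℕ, ∀ a ∈ C.R n, a ∈ Submodule.span k
      {z : K | ∃ (a b c : ℕ) (φ : MvPolynomial (Fin 2) k),
        CompOK m n φ a b c ∧ z = compVal x y u v w a b c φ / X ^ n})
    (hcov : ∀ s ∈ ({1, C.η, C.ζ} : Set K), ∃ M : Set K, s ∈ Submodule.span k M ∧
      ∀ e ∈ M, e ∈ C.R 1 ∧ e ^ m ∈ Submodule.span k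
        (Set.range fun p : Fin 6 × Fin 3 =>
          (six x y u v w p.1 * quad (six x y u v w) p.2 / X) ^ m)) :
    ∀ s ∈ ({1, C.η, C.ζ} : Set K), ∀ P : Ideal (C.chart s), P.IsMaximal →
      ∃ u ∈ P, ∃ v ∈ P, ∀ w ∈ P, ∃ t ∉ P, t * w ∈ Ideal.span {u, v} := by
  intro s hs P hP
  have hm0 : m ≠ 0 := fun h0 => hm (by simp [h0])
  have hs0 : s ≠ 0 := by
    simp only [Set.mem_insert_iff, Set.mem_singleton_iff] at hs
    rcases hs with rfl | rfl | rfl
    exacts [one_ne_zero, C.indep.ne_zero 0, C.indep.ne_zero 1]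
  have hs1 : s ∈ C.R 1 := by
    simp only [Set.mem_insert_iff, Set.mem_singleton_iff] at hs
    rcases hs with rfl | rfl | rfl
    exacts [C.one_mem, C.η_mem, C.ζ_mem]
  have := chart_finiteType C hs0
  obtain ⟨χ, rfl⟩ := exists_point (k := k) P
  have hB : ∀ e ∈ C.R 1, e / s ∈ C.chart s := fun e he =>
    Algebra.subset_adjoin ⟨1, e, by exact_mod_cast he, by rw [pow_one]⟩
  have hreg : ∀ e (he : e ∈ C.R 1), Val χ (e / s) (χ ⟨e / s, hB e he⟩) := fun e he =>
    val_mem ⟨e / s, hB e he⟩
  obtain ⟨⟨l₀, q₀⟩, hlq₀⟩ : ∃ p : Fin 6 × Fin 3, χ ⟨_, hB _ (hlq p.1 p.2)⟩ ≠ 0 := by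
    by_contra! hall
    obtain ⟨M, hsM, hM⟩ := hcov s hs
    have key : ∀ e ∈ M, Val χ (e / s) 0 := fun e he => by
      obtain ⟨he1, hem⟩ := hM e he
      suffices hp : Val χ (e ^ m / s ^ m) 0 by
        rw [← div_pow] at hp
        have h0 := ((hreg e he1).pow m).unique hp
        have hval := hreg e he1
        rwa [eq_zero_of_pow_eq_zero h0] at hval
      generalize e ^ m = z at hem ⊢
      induction hem using Submodule.span_induction with
      | mem b hb =>
        obtain ⟨p, rfl⟩ := hb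
        rw [← div_pow]
        have h := (hreg _ (hlq p.1 p.2)).pow (χ := χ) m
        rwa [hall p, zero_pow hm0] at h
      | zero => simpa using val_zero (χ := χ)
      | add b b' _ _ h h' => simpa [add_div] using h.add h'
      | smul c b _ h => simpa [Algebra.smul_def, mul_div_assoc] using (val_algebraMap c).mul h
    have h1 : ∀ z ∈ Submodule.span k M, Val χ (z / s) 0 := fun z hz => by
      induction hz using Submodule.span_induction with
      | mem b hb => exact key b hb
      | zero => simpa using val_zero (χ := χ)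
      | add b b' _ _ h h' => simpa [add_div] using h.add h'
      | smul c b _ h => simpa [Algebra.smul_def, mul_div_assoc] using (val_algebraMap c).mul h
    have h2 := h1 s hsM
    rw [div_self hs0] at h2
    exact one_ne_zero (val_one.unique h2)
  set M₀ : K := six x y u v w l₀ * quad (six x y u v w) q₀ with hM₀
  have hv0 := hreg _ (hlq l₀ q₀)
  set c₀ := χ ⟨_, hB _ (hlq l₀ q₀)⟩
  have hR : ∀ l q, Reg χ (six x y u v w l * quad (six x y u v w) q / M₀) := fun l q => by
    have h := ((hreg _ (hlq l q)).div hv0 hlq₀).reg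
    rwa [← hM₀, div_div_div_cancel_right₀ hs0, div_div_div_cancel_right₀ hX] at h
  obtain ⟨p, q, hp, hq, hcomp⟩ := exists_params hm hF (left_ne_zero_of_mul (hne l₀ q₀))
    (right_ne_zero_of_mul (hne l₀ q₀)) hR
  have hpiece : ∀ n : ℕ, ∀ a ∈ C.R n, ∃ r, Cong χ p q (a * X ^ n / M₀ ^ n) r := by
    intro n a ha
    have hmem := hspan n a ha
    clear ha
    induction hmem using Submodule.span_induction with
    | mem z hz =>
      obtain ⟨i, j, l, φ, hφ, rfl⟩ := hz
      rw [div_mul_cancel₀ _ (pow_ne_zero _ hX)]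
      exact hcomp n i j l φ hφ
    | zero => exact ⟨0, by simpa using cong_algebraMap (χ := χ) (u := p) (v := q) 0⟩
    | add b b' _ _ h h' =>
      obtain ⟨r, hr⟩ := h
      obtain ⟨r', hr'⟩ := h'
      exact ⟨_, by simpa [add_mul, add_div] using hr.add hr'⟩
    | smul c b _ h =>
      obtain ⟨r, hr⟩ := h
      exact ⟨_, by simpa [Algebra.smul_def, mul_assoc, mul_div_assoc]
        using (cong_algebraMap c).mul hp hq hr⟩
  obtain ⟨r₁, hr₁⟩ := hpiece 1 s (by exact_mod_cast hs1)
  have hr₁0 : r₁ ≠ 0 := fun h0 => hlq₀ <| by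
    have h := (hr₁.val hp hq).mul hv0
    rw [h0, zero_mul, pow_one, pow_one, ← hM₀] at h
    have e : s * X / M₀ * (M₀ / X / s) = 1 := by
      have := hne l₀ q₀
      rw [← hM₀] at this
      field_simp
    rw [e] at h
    exact absurd (val_one.unique h) one_ne_zero
  clear_value M₀
  refine two_generated (χ := χ) rfl hp hq ?_
  rintro _ ⟨n, a, ha, rfl⟩
  obtain ⟨r, hr⟩ := hpiece n a ha
  refine ⟨r * (r₁ ^ n)⁻¹, ?_⟩
  have h := hr.mul hp hq ((hr₁.pow hp hq n).inv hp hq (pow_ne_zero _ hr₁0))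
  convert h using 1
  have := hne l₀ q₀
  rw [← hM₀] at this
  rw [pow_one, pow_one, div_pow, mul_pow]
  field_simp

end Vale.Agent.P190.Example
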