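import Vale.Agent.P190.Example.Cone
import Vale.Agent.P190.Example.Smooth

/-!
# P190 Module 6: the three standard charts of the cone are smooth
-/

namespace Vale.Agent.P190.Example

open MvPolynomial

set_option linter.unusedSectionVars false

variable {k : Type} [Field k] [Infinite k] (D : Par k) {s : k}

namespace Par

/-- The two affine coordinates in the field. -/
noncomputable def co (i : Fin 2) : D.K :=
  algebraMap (L2 k) D.K (algebraMap (P2 k) (L2 k) (X i))

/-- The three roots in the field. -/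
noncomputable def rK (i : Fin 3) : D.K :=
  ⟨D.kum.rt i, by
    have h := D.monomial_mem (D.unitIdx i) 1
    rwa [map_one, one_mul, D.rx_unitIdx] at h⟩

/-- The coordinates `x, y, 1, u, v, w`. -/
noncomputable def six' : Fin 6 → D.K := six (D.co 0) (D.co 1) (D.rK 0) (D.rK 1) (D.rK 2)

theorem aeval_co (p : P2 k) :
    aeval ![D.co 0, D.co 1] p = algebraMap (L2 k) D.K (algebraMap (P2 k) (L2 k) p) := by
  have h : (aeval ![D.co 0, D.co 1] : P2 k →ₐ[k] D.K) =
      (IsScalarTower.toAlgHom k (L2 k) D.K).comp (IsScalarTower.toAlgHom k (P2 k) (L2 k)) := by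
    refine MvPolynomial.algHom_ext fun i => ?_
    fin_cases i <;> simp [co]
  exact DFunLike.congr_fun h p

theorem coe_compVal (χ : D.Ix) (p : P2 k) :
    ((compVal (D.co 0) (D.co 1) (D.rK 0) (D.rK 1) (D.rK 2) (χ 0 : ℕ) (χ 1 : ℕ) (χ 2 : ℕ) p : D.K) :
        M2 k) = algebraMap (L2 k) (M2 k) (algebraMap (P2 k) (L2 k) p) * D.kum.rx χ := by
  rw [compVal, aeval_co, IntermediateField.coe_mul]
  refine congrArg₂ (· * ·) rfl ?_
  rw [IntermediateField.coe_mul, IntermediateField.coe_mul, IntermediateField.coe_pow,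
    IntermediateField.coe_pow, IntermediateField.coe_pow]
  show D.kum.rt 0 ^ _ * D.kum.rt 1 ^ _ * D.kum.rt 2 ^ _ = ∏ i : Fin 3, D.kum.rt i ^ _
  rw [Fin.prod_univ_three]

theorem compOK_of_pblock {χ : D.Ix} {n : ℕ} {p : P2 k} (h : D.PBlock χ n p) :
    CompOK D.m n p (χ 0 : ℕ) (χ 1 : ℕ) (χ 2 : ℕ) where
  deg := by have := h.deg; rwa [tot, Fin.sum_univ_three] at this
  degX := h.degX
  degY := h.degY
  origin := h.origin
  points ξ η hξ hη := by
    haveI : NeZero D.m := ⟨D.m_pos.ne'⟩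
    obtain ⟨i, hi, rfl⟩ := D.hμ.eq_pow_of_pow_eq_one hξ
    obtain ⟨j, hj, rfl⟩ := D.hμ.eq_pow_of_pow_eq_one hη
    refine ⟨D.gridOrd χ n, h.points (⟨i, hi⟩, ⟨j, hj⟩), ?_⟩
    have := (D.gridOrd_le_iff χ n _).mp le_rfl
    rwa [tot, Fin.sum_univ_three] at this

theorem span_R {n : ℕ} {q : D.K} (hq : q ∈ D.R s n) :
    q ∈ Submodule.span k {z : D.K | ∃ (a b c : ℕ) (φ : P2 k), CompOK D.m n φ a b c ∧
      z = compVal (D.co 0) (D.co 1) (D.rK 0) (D.rK 1) (D.rK 2) a b c φ / D.TK s 0 ^ n} := by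
  set P := Submodule.span k {z : D.K | ∃ (a b c : ℕ) (φ : P2 k), CompOK D.m n φ a b c ∧
      z = compVal (D.co 0) (D.co 1) (D.rK 0) (D.rK 1) (D.rK 2) a b c φ / D.TK s 0 ^ n} with hP
  have h : D.grad.Sec n ≤ P.map (D.rep s n) := by
    refine D.grad.Sec_le fun χ φ hφ => ?_
    rcases (D.mem_block_iff (χ := χ)).mp hφ with rfl | ⟨p, rfl, hp⟩
    · rw [map_zero, zero_mul]; exact zero_mem _
    · refine ⟨_, Submodule.subset_span ⟨_, _, _, p, D.compOK_of_pblock hp, rfl⟩, ?_⟩
      rw [rep_apply, IntermediateField.coe_div, IntermediateField.coe_pow]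
      exact (div_mul_cancel₀ _ (pow_ne_zero n (D.T_ne s 0))).trans (D.coe_compVal χ p)
  obtain ⟨q', hq', e⟩ := h (D.mem_R.mp hq)
  rwa [D.rep_injective s n e] at hq'

/-- Monomials of degree one. -/
theorem mono_mem {i j a b c : ℕ} (h : i + a + c ≤ 2 ∧ j + a + b ≤ 2 ∧ i + j + a + b + c ≤ 3 ∧
      1 ≤ i + j + a ∧ 1 ≤ a + b + c) :
    D.co 0 ^ i * D.co 1 ^ j * (D.rK 0 ^ a * D.rK 1 ^ b * D.rK 2 ^ c) / D.TK s 0 ∈ D.R s 1 := by
  have hm := D.hm
  let χ : D.Ix := ![⟨a, show a < D.m by omega⟩, ⟨b, show b < D.m by omega⟩,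
    ⟨c, show c < D.m by omega⟩]
  have h01 : (0 : Fin 2) ≠ 1 := by decide
  have hd : ∀ l : Fin 2, degreeOf l (X 0 ^ i * X 1 ^ j : P2 k) ≤ ![i, j] l := fun l => by
    refine (degreeOf_mul_le _ _ _).trans ?_
    refine (add_le_add (degreeOf_pow_le _ _ _) (degreeOf_pow_le _ _ _)).trans ?_
    fin_cases l <;> simp [degreeOf_X, h01, h01.symm]
  have hX : (X 0 ^ i * X 1 ^ j : P2 k) ≠ 0 :=
    mul_ne_zero (pow_ne_zero _ (X_ne_zero _)) (pow_ne_zero _ (X_ne_zero _))
  have hp : D.PBlock χ 1 (X 0 ^ i * X 1 ^ j) := by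
    refine ⟨?_, ?_, ?_, ?_, fun q => ?_⟩
    · have := hd 0; simp [exX, χ] at this ⊢; omega
    · have := hd 1; simp [exY, χ] at this ⊢; omega
    · refine (Nat.add_le_add_right (totalDegree_mul _ _) _).trans ?_
      simp [tot, Fin.sum_univ_three, χ, totalDegree_X_pow]; omega
    · rw [ordAt_zero_of_isHomogeneous ((isHomogeneous_X_pow 0 i).mul (isHomogeneous_X_pow 1 j)) hX]
      simp only [χ, Matrix.cons_val_zero]
      exact_mod_cast (show 1 - a ≤ i + j by omega)
    · rw [show D.gridOrd χ 1 = 0 from Nat.le_zero.mp ((D.gridOrd_le_iff χ 1 0).mpr (by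
        simp [tot, Fin.sum_univ_three, χ]; omega))]
      simp
  refine (D.mem_R (n := 1)).mpr ?_
  rw [IntermediateField.coe_div, pow_one]
  rw [show ((D.TK s 0 : D.K) : M2 k) = D.T s 0 from rfl, div_mul_cancel₀ _ (D.T_ne s 0)]
  have e : (D.co 0 ^ i * D.co 1 ^ j * (D.rK 0 ^ a * D.rK 1 ^ b * D.rK 2 ^ c)) =
      compVal (D.co 0) (D.co 1) (D.rK 0) (D.rK 1) (D.rK 2) (χ 0 : ℕ) (χ 1 : ℕ) (χ 2 : ℕ)
        (X 0 ^ i * X 1 ^ j : P2 k) := by
    simp [compVal, χ]
  rw [e, D.coe_compVal]
  exact D.grad.monomial_mem_Sec.mpr ((D.mem_block_iff (χ := χ)).mpr (Or.inr ⟨_, rfl, hp⟩))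

theorem product_mem (l : Fin 6) (q : Fin 3) :
    D.six' l * quad D.six' q / D.TK s 0 ∈ D.R s 1 := by
  fin_cases l <;> fin_cases q <;>
    simp only [six', six, quad, Fin.zero_eta, Fin.mk_one, Fin.reduceFinMk, Matrix.cons_val_zero,
      Matrix.cons_val_one, Matrix.cons_val]
  · convert D.mono_mem (s := s) (i := 2) (j := 0) (a := 0) (b := 1) (c := 0) (by norm_num) using 2; ring
  · convert D.mono_mem (s := s) (i := 1) (j := 1) (a := 0) (b := 0) (c := 1) (by norm_num) using 2; ring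
  · convert D.mono_mem (s := s) (i := 1) (j := 0) (a := 1) (b := 0) (c := 0) (by norm_num) using 2; ring
  · convert D.mono_mem (s := s) (i := 1) (j := 1) (a := 0) (b := 1) (c := 0) (by norm_num) using 2; ring
  · convert D.mono_mem (s := s) (i := 0) (j := 2) (a := 0) (b := 0) (c := 1) (by norm_num) using 2; ring
  · convert D.mono_mem (s := s) (i := 0) (j := 1) (a := 1) (b := 0) (c := 0) (by norm_num) using 2; ring
  · convert D.mono_mem (s := s) (i := 1) (j := 0) (a := 0) (b := 1) (c := 0) (by norm_num) using 2; ring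
  · convert D.mono_mem (s := s) (i := 0) (j := 1) (a := 0) (b := 0) (c := 1) (by norm_num) using 2; ring
  · convert D.mono_mem (s := s) (i := 0) (j := 0) (a := 1) (b := 0) (c := 0) (by norm_num) using 2; ring
  · convert D.mono_mem (s := s) (i := 1) (j := 0) (a := 1) (b := 1) (c := 0) (by norm_num) using 2; ring
  · convert D.mono_mem (s := s) (i := 0) (j := 1) (a := 1) (b := 0) (c := 1) (by norm_num) using 2; ring
  · convert D.mono_mem (s := s) (i := 0) (j := 0) (a := 2) (b := 0) (c := 0) (by norm_num) using 2; ring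
  · convert D.mono_mem (s := s) (i := 1) (j := 0) (a := 0) (b := 2) (c := 0) (by norm_num) using 2; ring
  · convert D.mono_mem (s := s) (i := 0) (j := 1) (a := 0) (b := 1) (c := 1) (by norm_num) using 2; ring
  · convert D.mono_mem (s := s) (i := 0) (j := 0) (a := 1) (b := 1) (c := 0) (by norm_num) using 2; ring
  · convert D.mono_mem (s := s) (i := 1) (j := 0) (a := 0) (b := 1) (c := 1) (by norm_num) using 2; ring
  · convert D.mono_mem (s := s) (i := 0) (j := 1) (a := 0) (b := 0) (c := 2) (by norm_num) using 2; ring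
  · convert D.mono_mem (s := s) (i := 0) (j := 0) (a := 1) (b := 0) (c := 1) (by norm_num) using 2; ring

theorem six_ne (l : Fin 6) : D.six' l ≠ 0 := by
  have hr : ∀ i, D.rK i ≠ 0 := fun i h => by
    have := congrArg Subtype.val h
    exact D.rx_unitIdx i ▸ D.kum.rx_ne (D.unitIdx i) <| this
  have hc : ∀ i, D.co i ≠ 0 := fun i => by
    rw [co, _root_.map_ne_zero, Ne, map_eq_zero_iff _ (IsFractionRing.injective (P2 k) (L2 k))]
    exact X_ne_zero i
  fin_cases l <;> simp [six', six, hr, hc]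

theorem fermat_six : Fermat D.m D.six' := by
  have hr : ∀ i, D.rK i ^ D.m = algebraMap (L2 k) D.K (algebraMap (P2 k) (L2 k) (D.cpol i)) :=
    fun i => Subtype.ext (by rw [IntermediateField.coe_pow]; exact D.kum.hrt i)
  refine ⟨?_, ?_, ?_⟩ <;>
    simp [six', six, hr, cpol, co]

/-- The three standard charts are smooth. -/
theorem smooth_cone_charts [IsAlgClosed k] (hs : D.Good s) (p : ℕ) [CharP k p] (hp : D.deg < p) :
    ∀ t ∈ ({1, D.eta s, D.zeta s} : Set D.K), ∀ P : Ideal ((D.cone hs p hp).chart t),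
      P.IsMaximal →
      ∃ u ∈ P, ∃ v ∈ P, ∀ w ∈ P, ∃ t ∉ P, t * w ∈ Ideal.span {u, v} := by
  have hne : ∀ l q, D.six' l * quad D.six' q ≠ 0 := fun l q => by
    refine mul_ne_zero (D.six_ne l) ?_
    fin_cases q <;> exact mul_ne_zero (D.six_ne _) (D.six_ne _)
  refine smooth_charts (D.cone hs p hp) D.hmk D.fermat_six (D.TK_ne s 0) hne
    (fun l q => D.product_mem l q) (fun n q hq => D.span_R hq) ?_
  obtain ⟨hu, hv, hw⟩ := D.fermat_six
  simp only [six', six, Matrix.cons_val_zero, Matrix.cons_val_one, Matrix.cons_val, one_pow]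
    at hu hv hw
  set x := D.co 0 with hx
  set y := D.co 1 with hy
  set u := D.rK 0 with hu'
  set v := D.rK 1 with hv'
  set w := D.rK 2 with hw'
  set X₀ := D.TK s 0
  have hX : X₀ ≠ 0 := D.TK_ne s 0
  let g : Fin 6 × Fin 3 → D.K := fun p => (D.six' p.1 * quad D.six' p.2 / X₀) ^ D.m
  have hg : ∀ p, g p ∈ Submodule.span k (Set.range g) := fun p => Submodule.subset_span ⟨p, rfl⟩
  have e1 : (x * y * u / X₀) ^ D.m = g (0, 0) + g (1, 1) + g (0, 2) + g (1, 2) := by
    simp only [g, six', six, quad, ← hx, ← hy, ← hu', ← hv', ← hw', Matrix.cons_val_zero, Matrix.cons_val_one, Matrix.cons_val,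
      div_pow, mul_pow, one_pow, one_mul, hu, hv, hw]
    ring
  have e2 : (y * v / X₀) ^ D.m = g (1, 1) + g (2, 2) + g (1, 0) + g (2, 0) := by
    simp only [g, six', six, quad, ← hx, ← hy, ← hu', ← hv', ← hw', Matrix.cons_val_zero, Matrix.cons_val_one, Matrix.cons_val,
      div_pow, mul_pow, one_pow, one_mul, hu, hv, hw]
    ring
  have e3 : (x * w / X₀) ^ D.m = g (2, 2) + g (0, 0) + g (2, 1) + g (0, 1) := by
    simp only [g, six', six, quad, ← hx, ← hy, ← hu', ← hv', ← hw', Matrix.cons_val_zero, Matrix.cons_val_one, Matrix.cons_val,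
      div_pow, mul_pow, one_pow, one_mul, hu, hv, hw]
    ring
  have hsum : ∀ a b c d : Fin 6 × Fin 3, g a + g b + g c + g d ∈ Submodule.span k (Set.range g) :=
    fun a b c d => add_mem (add_mem (add_mem (hg a) (hg b)) (hg c)) (hg d)
  have hterm : ∀ l q, (D.six' l * quad D.six' q / X₀) ∈ D.R s 1 ∧
      (D.six' l * quad D.six' q / X₀) ^ D.m ∈ Submodule.span k (Set.range g) :=
    fun l q => ⟨D.product_mem l q, hg (l, q)⟩
  have hco : ∀ c : k, algebraMap (L2 k) D.K (algebraMap (P2 k) (L2 k) (C c)) = algebraMap k D.K c :=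
    fun c => by
      rw [← D.aeval_co]
      exact aeval_C _ c
  have hT : ∀ i, D.TK s i =
      algebraMap (L2 k) D.K (algebraMap (P2 k) (L2 k) (conic s i)) * D.rK i := fun i => rfl
  intro t ht
  rcases ht with rfl | rfl | rfl
  · refine ⟨{D.six' 2 * quad D.six' 2 / X₀, x * y * u / X₀}, ?_, ?_⟩
    · rw [Submodule.mem_span_pair]
      refine ⟨1, -(s ^ 2), ?_⟩
      have h0 : X₀ = (1 - algebraMap k D.K (s ^ 2) * (x * y)) * u := by
        rw [show X₀ = _ from hT 0]
        simp [conic, hco, x, y, co, u]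
      rw [one_smul, neg_smul, Algebra.smul_def, ← sub_eq_add_neg]
      simp only [six', six, quad, Matrix.cons_val_zero, Matrix.cons_val_one, Matrix.cons_val]
      field_simp
      linear_combination -h0
    · rintro e (rfl | rfl)
      · exact hterm 2 2
      · refine ⟨?_, e1 ▸ hsum _ _ _ _⟩
        have h := D.mono_mem (s := s) (i := 1) (j := 1) (a := 1) (b := 0) (c := 0) (by norm_num)
        simp only [pow_zero, pow_one, one_mul, mul_one] at h
        exact h
  · refine ⟨{D.six' 0 * quad D.six' 0 / X₀, y * v / X₀}, ?_, ?_⟩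
    · rw [Submodule.mem_span_pair]
      refine ⟨1, -1, ?_⟩
      have h0 : D.TK s 1 = (x ^ 2 - y) * v := by
        rw [hT 1]
        simp [conic, x, y, co, v]
      rw [one_smul, neg_smul, one_smul, ← sub_eq_add_neg]
      show _ = D.TK s 1 / X₀
      simp only [six', six, quad, Matrix.cons_val_zero, Matrix.cons_val_one, Matrix.cons_val, h0]
      ring
    · rintro e (rfl | rfl)
      · exact hterm 0 0
      · refine ⟨?_, e2 ▸ hsum _ _ _ _⟩
        have h := D.mono_mem (s := s) (i := 0) (j := 1) (a := 0) (b := 1) (c := 0) (by norm_num)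
        simp only [pow_zero, pow_one, one_mul, mul_one] at h
        exact h
  · refine ⟨{D.six' 1 * quad D.six' 1 / X₀, x * w / X₀}, ?_, ?_⟩
    · rw [Submodule.mem_span_pair]
      refine ⟨1, -s, ?_⟩
      have h0 : D.TK s 2 = (y ^ 2 - algebraMap k D.K s * x) * w := by
        rw [hT 2]
        simp [conic, hco, x, y, co, w]
      rw [one_smul, neg_smul, Algebra.smul_def, ← sub_eq_add_neg]
      show _ = D.TK s 2 / X₀
      simp only [six', six, quad, Matrix.cons_val_zero, Matrix.cons_val_one, Matrix.cons_val, h0]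
      ring
    · rintro e (rfl | rfl)
      · exact hterm 1 1
      · refine ⟨?_, e3 ▸ hsum _ _ _ _⟩
        have h := D.mono_mem (s := s) (i := 1) (j := 0) (a := 0) (b := 0) (c := 1) (by norm_num)
        simp only [pow_zero, pow_one, one_mul, mul_one] at h
        exact h

end Par

end Vale.Agent.P190.Example
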