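import Vale.Agent.P190.Spec
import Vale.Agent.P190.Example.SmoothCone

/-!
# P190 Module 6: the family over the algebraic closures of the prime fields (`m = 14`)
-/

namespace Vale.Agent.P190.Example

open MvPolynomial

set_option linter.unusedSectionVars false

instance fbarInfinite (p : Nat.Primes) : Infinite (fbar p) := IsAlgClosed.instInfinite

/-- The order of the covers: fourteen, except for two primes that play no role. -/
def mOf (p : Nat.Primes) : ℕ := if (p : ℕ) = 2 ∨ (p : ℕ) = 7 then 5 else 14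

theorem mOf_ne (p : Nat.Primes) : (mOf p : fbar p) ≠ 0 := by
  rw [Ne, CharP.cast_eq_zero_iff (fbar p) (p : ℕ)]
  intro h
  rw [mOf] at h
  split_ifs at h with h'
  · rcases h' with h' | h' <;> rw [h'] at h <;> norm_num at h
  · have h2 : (p : ℕ) ∣ 2 * 7 := h
    rcases p.2.dvd_mul.mp h2 with h3 | h3
    · exact h' (Or.inl ((Nat.prime_dvd_prime_iff_eq p.2 Nat.prime_two).mp h3))
    · exact h' (Or.inr ((Nat.prime_dvd_prime_iff_eq p.2 (by norm_num)).mp h3))

theorem exists_root (p : Nat.Primes) : ∃ μ : fbar p, IsPrimitiveRoot μ (mOf p) :=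
  haveI : NeZero (mOf p : fbar p) := ⟨mOf_ne p⟩
  HasEnoughRootsOfUnity.exists_primitiveRoot (fbar p) (mOf p)

/-- The parameters at a prime. -/
noncomputable def par (p : Nat.Primes) : Par (fbar p) where
  m := mOf p
  hm := by rw [mOf]; split_ifs <;> norm_num
  hmk := mOf_ne p
  μ := (exists_root p).choose
  hμ := (exists_root p).choose_spec

/-- The first prime of the family exceeds this. -/
def P0 : ℕ := 5 * 14 ^ 3 + 1

theorem par_m {p : Nat.Primes} (hp : P0 ≤ (p : ℕ)) : (par p).m = 14 := by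
  show mOf p = 14
  rw [mOf, if_neg]
  simp only [P0] at hp
  omega

theorem par_deg {p : Nat.Primes} (hp : P0 ≤ (p : ℕ)) : (par p).deg = 5 * 14 ^ 3 := by
  rw [Par.deg, par_m hp]

/-- The generation degree of the family. -/
def gFam : ℕ := max (10 * 14 + 2 + 2) (5 * 14 ^ 3 * (10 * 14 + 2))

theorem par_gdeg {p : Nat.Primes} (hp : P0 ≤ (p : ℕ)) : (par p).gdeg = gFam := by
  rw [Par.gdeg, Par.n0, Par.deg, par_m hp, gFam]

theorem deg_lt {p : Nat.Primes} (hp : P0 ≤ (p : ℕ)) : (par p).deg < (p : ℕ) := by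
  rw [par_deg hp]; exact hp

/-- The cone at a prime. -/
noncomputable def coneAt (p : Nat.Primes) (hp : P0 ≤ (p : ℕ)) : Cone (fbar p) (par p).K :=
  (par p).cone (par p).exists_good.choose_spec (p : ℕ) (deg_lt hp)

theorem finrank_gFam_le (p : Nat.Primes) (hp : P0 ≤ (p : ℕ)) :
    Module.finrank (fbar p) ((coneAt p hp).R gFam) ≤ 5 * 14 ^ 3 * gFam ^ 2 := by
  have hg : 10 * (par p).m + 2 ≤ gFam := by rw [par_m hp, gFam]; omega
  show Module.finrank (fbar p) ((par p).R _ (gFam : ℤ)) ≤ _
  rw [(par p).finrank_R]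
  have h := ((par p).finrank_Sec hg).1
  have hq : ((Module.finrank (fbar p) ((par p).grad.Sec gFam) : ℕ) : ℚ) ≤
      ((5 * 14 ^ 3 * gFam ^ 2 : ℕ) : ℚ) := by
    rw [h, Par.hilb, par_m hp]
    have : (144 : ℚ) ≤ (gFam : ℚ) := by
      exact_mod_cast (le_max_left _ _ : 144 ≤ gFam)
    push_cast
    nlinarith
  exact_mod_cast hq

/-- The family. -/
noncomputable def family : Family (5 * 14 ^ 3) gFam (5 * 14 ^ 3 * gFam ^ 2) P0 where
  K p := (par p).K
  cone := coneAt
  d_eq _ hp := par_deg hp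
  g_eq _ hp := par_gdeg hp
  bound := finrank_gFam_le

theorem num_eq {k : Type} [Field k] [Infinite k] (D : Par k) :
    (D.deg : ℚ) - 8 * excess D.deg D.eCoef D.cCoef
      = (D.m : ℚ) ^ 3 * ((D.m : ℚ) ^ 2 - 10) / 3 := by
  have : (D.m : ℚ) ≠ 0 := by exact_mod_cast D.m_pos.ne'
  simp only [excess, Par.eCoef, Par.cCoef, Par.deg]
  push_cast
  field_simp
  ring

/-- The canonical module is a shift of the ring. -/
def OmegaShift {k K : Type} [Field k] [Field K] [Algebra k K] (C : Cone k K) : Prop :=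
  ∃ (a : ℕ) (w : K), w ≠ 0 ∧
    ∀ n, C.omega n = (one1 C.R (n + a)).map (DistribSMul.toLinearMap k (Fin 1 → K) w)

/-- A ring whose canonical module is a shift of it is reflexive. -/
theorem reflexive_of {k K : Type} [Field k] [Field K] [Algebra k K] {C : Cone k K}
    (h : OmegaShift C) (n : ℤ) :
    dualFam C.η C.ζ (dualFam C.η C.ζ (one1 C.R)) n = one1 C.R n := by
  obtain ⟨a, w, hw, homega⟩ := h
  have key : ∀ u : Fin 1 → K, u ∈ dualFam C.η C.ζ (dualFam C.η C.ζ (one1 C.R)) n ↔
      w • u ∈ dualFam C.η C.ζ (one1 C.R) (n - a) := by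
    intro u
    constructor
    · intro hu j v hv
      have hwv : w • v ∈ C.omega (j - a) := by
        rw [homega, sub_add_cancel]; exact Submodule.mem_map_of_mem hv
      have := hu _ _ hwv
      rw [show n + (j - a) - 3 = n - a + j - 3 by ring] at this
      simpa [mul_left_comm, mul_assoc] using this
    · intro hu j v hv
      obtain ⟨v₀, hv₀, rfl⟩ :
          v ∈ (one1 C.R (j + a)).map (DistribSMul.toLinearMap k (Fin 1 → K) w) := homega j ▸ hv
      have := hu _ _ hv₀
      rw [show n - a + (j + a) - 3 = n + j - 3 by ring] at this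
      simpa [mul_left_comm, mul_assoc] using this
  ext u
  rw [key, show dualFam C.η C.ζ (one1 C.R) (n - a) = C.omega (n - a) from rfl, homega,
    sub_add_cancel, Submodule.mem_map]
  refine ⟨fun ⟨v, hv, e⟩ => ?_, fun hu => ⟨u, hu, rfl⟩⟩
  have : v = u := smul_right_injective (Fin 1 → K) hw e
  exact this ▸ hv

theorem sigIs_of {k K : Type} [Field k] [Field K] [Algebra k K] {C : Cone k K}
    (h : OmegaShift C) {e c : ℚ} (hP : HasPoly C.R C.d e c) :
    C.SigIs ((C.d : ℚ) - 8 * excess C.d e c) :=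
  let ⟨a, w, hw, homega⟩ := h
  ⟨a, w, e, c, hw, homega, hP, rfl⟩

/-- Module 6 from the canonical module of each cone. -/
theorem exampleModule_of
    (h : ∀ (k : Type) [Field k] [Infinite k] [IsAlgClosed k] (D : Par k) (s : k) (hs : D.Good s)
      (p : ℕ) [CharP k p] (hp : D.deg < p),
      OmegaShift (D.cone hs p hp)) :
    ExampleModule := by
  refine ⟨_, _, _, _, family, fun p hp => ?_⟩
  have hω := h (fbar p) (par p) _ (par p).exists_good.choose_spec (p : ℕ) (deg_lt hp)
  refine ⟨⟨reflexive_of hω, (par p).smooth_cone_charts (par p).exists_good.choose_spec (p : ℕ) (deg_lt hp)⟩, _, sigIs_of hω (e := (par p).eCoef) (c := (par p).cCoef) ((par p).hasPoly_R _), ?_⟩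
  show ((10 * (5 * 14 ^ 3 : ℕ) : ℚ)) < ((par p).deg : ℚ) - 8 * excess ((par p).deg : ℚ) _ _
  rw [num_eq, par_m hp]
  norm_num

end Vale.Agent.P190.Example
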