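import Vale.Agent.P190.Hilb.Poly2

/-!
# P190 Module 6: the degree and separability from the Hilbert polynomial

If a family in a field spans it over `k(η, ζ)` and its Hilbert polynomial has leading coefficient
`d` then the degree is at most `d`; below the characteristic this gives separability, and then the
degree is `d`.
-/

namespace Vale.Agent.P190.Example

open Filter Submodule Module Hilb

variable {k K : Type} [Field k] [Field K] [Algebra k K] {η ζ : K} {R : ℤ → Submodule k K}

/-- Equal polynomials from eventual equality. -/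
theorem quad_unique {a b c a' b' c' : ℚ}
    (h : ∀ᶠ n : ℤ in atTop, a * (((n : ℚ) + 2) * ((n : ℚ) + 1) / 2) + b * ((n : ℚ) + 1) + c
      = a' * (((n : ℚ) + 2) * ((n : ℚ) + 1) / 2) + b' * ((n : ℚ) + 1) + c') :
    a = a' ∧ b = b' ∧ c = c' := by
  obtain ⟨n₀, h₀⟩ := eventually_atTop.mp h
  have e₀ := h₀ n₀ le_rfl
  have e₁ := h₀ (n₀ + 1) (by omega)
  have e₂ := h₀ (n₀ + 2) (by omega)
  push_cast at e₀ e₁ e₂
  have ha : a = a' := by linarith
  subst ha
  have hb : b = b' := by linarith
  subst hb
  exact ⟨rfl, rfl, by linarith⟩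

theorem finite_of_span_top (g : ℤ) [FiniteDimensional k (R g)]
    (htop : span (ratField k η ζ) (R g : Set K) = ⊤) :
    FiniteDimensional (ratField k η ζ) K := by
  obtain ⟨T, hT⟩ := (R g).fg_iff_finiteDimensional.2 inferInstance
  refine Module.Finite.of_fg_top ⟨T, eq_top_iff.2 (htop ▸ span_le.2 ?_)⟩
  rw [← hT]
  exact span_subset_span k (ratField k η ζ) _

/-- The degree is at most the leading coefficient. -/
theorem finrank_le_of_hasPoly (hind : AlgebraicIndependent k ![η, ζ])
    (hfd : ∀ n, FiniteDimensional k (R n))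
    (hmul : ∀ m n : ℤ, ∀ a ∈ R m, ∀ b ∈ R n, a * b ∈ R (m + n))
    (hpoly : ∀ l, polySpace (k := k) η ζ l ≤ R l) (g : ℤ)
    (htop : span (ratField k η ζ) (R g : Set K) = ⊤) {d e c : ℚ} (hP : HasPoly R d e c) :
    (finrank (ratField k η ζ) K : ℚ) ≤ d := by
  classical
  have := hfd g
  have hF := finite_of_span_top g htop
  obtain ⟨b, hb, hspan, hli⟩ := exists_linearIndependent (ratField k η ζ) (R g : Set K)
  have : Fintype b := hli.setFinite.fintype
  have hcard : finrank (ratField k η ζ) K = Fintype.card b := by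
    rw [← finrank_span_eq_card hli, Subtype.range_coe, hspan, htop, finrank_top]
  let f : (b → K) →ₗ[k] K := ∑ i : b, LinearMap.mulRight k (i : K) ∘ₗ LinearMap.proj i
  have hf : ∀ u, f u = ∑ i, u i * (i : K) := fun u => by simp [f]
  have hlow : ∀ n, Fintype.card b * cpos (n - g) ≤ finrank k (R n) := fun n => by
    have := fd_freeFam (k := k) (η := η) (ζ := ζ) (fun _ : b => g) n
    have := hfd n
    have hcount := finrank_freeFam hind (fun _ : b => g) n
    simp only [Finset.sum_const, Finset.card_univ, smul_eq_mul] at hcount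
    rw [← hcount]
    have hle : (freeFam (k := k) η ζ (fun _ : b => g) n).map f ≤ R n := by
      refine map_le_iff_le_comap.mpr fun u hu => ?_
      show f u ∈ R n
      rw [hf]
      refine sum_mem fun i _ => ?_
      have := hmul _ _ _ (hpoly _ (mem_freeFam.mp hu i)) _ (hb i.2)
      rwa [sub_add_cancel] at this
    have h3 : (LinearMap.ker f ⊓ freeFam (k := k) η ζ (fun _ : b => g) n : Submodule k (b → K))
        = ⊥ := by
      rw [eq_bot_iff]
      rintro u ⟨hu0, hu⟩
      rw [Submodule.mem_bot]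
      let uE : b → ratField k η ζ :=
        fun i => ⟨u i, polySpace_le_ratField _ (mem_freeFam.mp hu i)⟩
      have hz : ∑ i, uE i • (i : K) = 0 := by
        have : f u = 0 := hu0
        rw [hf] at this
        exact this
      funext i
      exact congrArg Subtype.val (Fintype.linearIndependent_iff.mp hli uE hz i)
    have h1 := finrank_map_add_ker f (freeFam (k := k) η ζ (fun _ : b => g) n)
    have h2 := Submodule.finrank_mono hle
    rw [h3, finrank_bot] at h1
    omega
  obtain ⟨n₀, hn₀⟩ := eventually_atTop.mp hP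
  rw [hcard]
  refine le_of_mul_le_mul_right ?_ (show (0 : ℚ) < 1 / 2 by norm_num)
  refine quad_eq (b := (Fintype.card b : ℚ) * (-2 * g + 3) / 2)
    (c := (Fintype.card b : ℚ) * (-g + 2) * (-g + 1) / 2)
    (b' := 3 * d / 2 + e) (c' := d + e + c) ?_
  refine eventually_atTop.mpr ⟨max n₀ g, fun n hn => ?_⟩
  have h1 := hn₀ n (le_trans (le_max_left _ _) hn)
  have h2 : (Fintype.card b : ℚ) * (cpos (n - g) : ℚ) ≤ (finrank k (R n) : ℚ) := by
    exact_mod_cast hlow n
  have h3 : (cpos (n - g) : ℚ) * 2 = ((n : ℚ) - g + 2) * ((n : ℚ) - g + 1) := by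
    have hge : 0 ≤ n - g := by have := le_max_right n₀ g; omega
    have := congrArg (fun z : ℤ => (z : ℚ)) (two_mul_cpos_of_nonneg hge)
    push_cast at this
    linarith
  rw [h1, show (cpos (n - g) : ℚ) = ((n : ℚ) - g + 2) * ((n : ℚ) - g + 1) / 2 by linarith] at h2
  linarith

/-- An extension of degree below the characteristic is separable. -/
theorem separable_of_finrank_lt {F L : Type*} [Field F] [Field L] [Algebra F L]
    [FiniteDimensional F L] (p : ℕ) [CharP F p] (h : finrank F L < p) :
    Algebra.IsSeparable F L := ⟨fun x => by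
  have hx := IsIntegral.of_finite F x
  have hpos := minpoly.natDegree_pos hx
  refine (Polynomial.separable_iff_derivative_ne_zero (minpoly.irreducible hx)).mpr fun h0 => ?_
  have := congrArg (fun q => Polynomial.coeff q ((minpoly F x).natDegree - 1)) h0
  simp only [Polynomial.coeff_zero, Polynomial.coeff_derivative, Nat.sub_add_cancel hpos,
    (minpoly.monic hx).coeff_natDegree, one_mul, ← Nat.cast_add_one,
    CharP.cast_eq_zero_iff F p] at this
  have h1 := Nat.le_of_dvd hpos this
  have h2 := minpoly.natDegree_le (A := F) x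
  omega⟩

theorem mem_one1 {S : ℤ → Submodule k K} {n : ℤ} {v : Fin 1 → K} :
    v ∈ one1 S n ↔ v 0 ∈ S n := Iff.rfl

theorem one1_eq (S : ℤ → Submodule k K) (n : ℤ) :
    one1 S n = (S n).map (LinearEquiv.funUnique (Fin 1) k K).symm.toLinearMap := by
  ext v
  rw [mem_one1, Submodule.mem_map_equiv]
  rfl

theorem finrank_one1 (S : ℤ → Submodule k K) (n : ℤ) :
    finrank k (one1 S n) = finrank k (S n) := by
  rw [one1_eq]
  exact (LinearEquiv.submoduleMap (LinearEquiv.funUnique (Fin 1) k K).symm (S n)).symm.finrank_eq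

/-- A family in a field is a family in the sense of `Hilb`. -/
theorem fam_one1 (hfd : ∀ n, FiniteDimensional k (R n)) (hneg : ∀ n < 0, R n = ⊥)
    (hone : (1 : K) ∈ R 1) (hη : η ∈ R 1) (hζ : ζ ∈ R 1)
    (hmul : ∀ m n : ℤ, ∀ a ∈ R m, ∀ b ∈ R n, a * b ∈ R (m + n)) (g : ℤ)
    (hgen : ∀ n, g ≤ n →
      R (n + 1) = R n ⊔ (R n).map (LinearMap.mulLeft k η) ⊔ (R n).map (LinearMap.mulLeft k ζ))
    (hsat : ∀ n, ∀ q ∈ R (n + 1), η * q ∈ R (n + 1) → q ∈ R n)
    (htop : span (ratField k η ζ) (R g : Set K) = ⊤) : Fam η ζ (one1 R) := by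
  set u := (LinearEquiv.funUnique (Fin 1) k K).symm
  refine ⟨⟨fun n v hv => ?_, fun n v hv => ?_, fun n v hv => ?_⟩, fun n => ?_,
    ⟨0, fun n hn => ?_⟩, fun n v hv hv' => hsat n (v 0) hv hv', ⟨g, fun n hn => ?_⟩, ?_⟩
  · have := hmul n 1 _ hv _ hone
    rwa [mul_one] at this
  · have := hmul 1 n _ hη _ hv
    rwa [add_comm] at this
  · have := hmul 1 n _ hζ _ hv
    rwa [add_comm] at this
  · have := hfd n
    rw [one1_eq]
    infer_instance
  · rw [one1_eq, hneg n hn, Submodule.map_bot]
  · rw [one1_eq, one1_eq, hgen n hn, Submodule.map_sup, Submodule.map_sup, ← Submodule.map_comp,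
      ← Submodule.map_comp, ← Submodule.map_comp, ← Submodule.map_comp]
    rfl
  · refine eq_top_iff.2 fun v _ => ?_
    have hv : v = LinearMap.pi (fun _ : Fin 1 => (LinearMap.id : K →ₗ[ratField k η ζ] K)) (v 0) := by
      funext i; rw [Subsingleton.elim i 0]; rfl
    have hm := Submodule.mem_map_of_mem
      (f := LinearMap.pi (fun _ : Fin 1 => (LinearMap.id : K →ₗ[ratField k η ζ] K)))
      (htop ▸ Submodule.mem_top : v 0 ∈ span (ratField k η ζ) (R g : Set K))
    rw [← hv, Submodule.map_span] at hm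
    refine span_mono ?_ hm
    rintro _ ⟨q, hq, rfl⟩
    exact Set.mem_iUnion.2 ⟨g, hq⟩

/-- The degree is the leading coefficient. -/
theorem finrank_eq_of_hasPoly (hind : AlgebraicIndependent k ![η, ζ])
    [FiniteDimensional (ratField k η ζ) K] [Algebra.IsSeparable (ratField k η ζ) K]
    (hR : Fam η ζ (one1 R)) {d e c : ℚ} (hP : HasPoly R d e c) :
    (finrank (ratField k η ζ) K : ℚ) = d := by
  obtain ⟨e', c', hP', -⟩ := exists_hasPoly hind hR
  have h := (quad_unique ((hP'.and hP).mono fun n hn =>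
    hn.1.symm.trans ((congrArg Nat.cast (finrank_one1 R n)).trans hn.2))).1
  rwa [(LinearEquiv.funUnique (Fin 1) (ratField k η ζ) K).finrank_eq] at h

end Vale.Agent.P190.Example
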