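import Vale.Agent.P190.Example.Ring

/-!
# P190 Module 6: `x, y` form a regular sequence (saturation)
-/

namespace Vale.Agent.P190.Example

open MvPolynomial

set_option linter.unusedSectionVars false

variable {k : Type} [Field k] [Infinite k] (D : Par k)

theorem aeval_update_of_degreeOf_eq_zero {l : Fin 2} {p : P2 k} (h : degreeOf l p = 0)
    (g : P2 k) : aeval (Function.update (X : Fin 2 → P2 k) l g) p = p := by
  classical
  conv_rhs => rw [← MvPolynomial.aeval_X_left_apply p]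
  rw [aeval_def, aeval_def]
  refine eval₂Hom_congr' rfl (fun i hi _ => ?_) rfl
  refine Function.update_of_ne (fun hil => ?_) _ _
  subst hil
  rw [degreeOf_eq_sup] at h
  obtain ⟨d, hd, hdi⟩ := (mem_vars i).mp hi
  have := Finset.le_sup (f := fun m : Fin 2 →₀ ℕ => m i) hd
  rw [h] at this
  exact Finsupp.mem_support_iff.mp hdi (Nat.le_zero.mp this)

theorem degreeOf_eq_zero_of_dvd {l : Fin 2} {π p : P2 k} (h : π ∣ p) (hp : p ≠ 0)
    (h0 : degreeOf l p = 0) : degreeOf l π = 0 := by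
  obtain ⟨r, rfl⟩ := h
  rw [degreeOf_mul_eq (left_ne_zero_of_mul hp) (right_ne_zero_of_mul hp)] at h0
  omega

namespace Par

variable {s : k}

/-- `c P^m`, the `m`-th power of a parameter. -/
noncomputable def Tp (s : k) (i : Fin 3) : P2 k := D.cpol i * conic s i ^ D.m

theorem T_pow' (s : k) (i : Fin 3) :
    D.T s i ^ D.m = algebraMap (L2 k) (M2 k) (algebraMap (P2 k) (L2 k) (D.Tp s i)) := by
  rw [D.T_pow, ← IsScalarTower.algebraMap_apply (P2 k) (L2 k) (M2 k)]
  rfl

theorem not_dvd_both (hs : D.Good s) {π : P2 k} (hπ : Prime π) (h0 : π ∣ D.Tp s 0) :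
    ¬ π ∣ D.Tp s 1 := by
  intro h1
  have hm := D.m_pos
  have hX : ∀ l : Fin 2, π ∣ X l → ∀ q : P2 k,
      π ∣ q → π ∣ aeval (Function.update (X : Fin 2 → P2 k) l 0) q := by
    intro l hl q hq
    have h : X l ∣ q - aeval (Function.update (X : Fin 2 → P2 k) l 0) q := by
      clear hq
      induction q using MvPolynomial.induction_on with
      | C a => simp [MvPolynomial.algebraMap_eq]
      | add p q hp hq =>
        rw [map_add, show p + q - (aeval (Function.update (X : Fin 2 → P2 k) l 0) p +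
          aeval (Function.update (X : Fin 2 → P2 k) l 0) q) =
          (p - aeval (Function.update (X : Fin 2 → P2 k) l 0) p) +
          (q - aeval (Function.update (X : Fin 2 → P2 k) l 0) q) by ring]
        exact dvd_add hp hq
      | mul_X p i hp =>
        rw [map_mul, aeval_X]
        by_cases hil : i = l
        · subst hil; simp
        · rw [Function.update_of_ne hil, ← sub_mul]
          exact hp.mul_right _
    have := dvd_sub hq (hl.trans h)
    simpa using this
  have hxy : π ∣ X 0 → π ∣ X 1 → False := fun a b => by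
    rcases (X_prime (R := k) (i := (0 : Fin 2))).irreducible.dvd_iff.mp a with hu | ha
    · exact hπ.not_isUnit hu
    rcases (X_prime (R := k) (i := (1 : Fin 2))).irreducible.dvd_iff.mp b with hu | hb
    · exact hπ.not_isUnit hu
    obtain ⟨w, hw⟩ := ha.trans hb.symm
    simpa using congrArg (eval ![(0 : k), 1]) hw
  -- `π` cannot divide `1 - X^m` and `X² - Y` together with `c 0`, nor the two conics
  rcases hπ.dvd_or_dvd h0 with a | a <;> rcases hπ.dvd_or_dvd h1 with b | b
  · exact D.cpol_separated hπ (by decide : (0 : Fin 3) ≠ 1) a b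
  · -- `X^m - Y^m` and `X² - Y`
    have b' := hπ.dvd_of_dvd_pow b
    simp only [cpol, conic, Matrix.cons_val_zero, Matrix.cons_val_one] at a b'
    have h2 : π ∣ X 0 ^ D.m * (1 - X 0 ^ D.m) := by
      have := dvd_sub a (b'.trans (sub_dvd_pow_sub_pow (X 0 ^ 2) (X 1) D.m))
      convert this using 1
      ring
    rcases hπ.dvd_or_dvd h2 with c | c
    · have c' := hπ.dvd_of_dvd_pow c
      refine hxy c' ?_
      have := dvd_sub (dvd_pow c' two_ne_zero) b'
      simpa using this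
    · exact D.cpol_separated hπ (by decide : (0 : Fin 3) ≠ 2) a c
  · -- `1 - s² XY` and `Y^m - 1`
    have a' := hπ.dvd_of_dvd_pow a
    simp only [cpol, conic, Matrix.cons_val_zero, Matrix.cons_val_one] at a' b
    have hd : degreeOf 0 π = 0 := degreeOf_eq_zero_of_dvd b (D.cpol_ne 1) (by
      refine Nat.le_zero.mp ((degreeOf_sub_le _ _ _).trans ?_)
      simp [degreeOf_X_pow_of_ne, show (0 : Fin 2) ≠ 1 by decide])
    have := map_dvd (aeval (Function.update (X : Fin 2 → P2 k) 0 0)) a'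
    rw [aeval_update_of_degreeOf_eq_zero hd] at this
    simp at this
    exact hπ.not_dvd_one this
  · -- the two conics
    have a' := hπ.dvd_of_dvd_pow a
    have b' := hπ.dvd_of_dvd_pow b
    simp only [conic, Matrix.cons_val_zero, Matrix.cons_val_one] at a' b'
    have h3 : π ∣ 1 - C (s ^ 2) * (X 0 * X 0 ^ 2) := by
      have := dvd_sub a' (b'.mul_left (C (s ^ 2) * X 0))
      convert this using 1
      ring
    have hd : degreeOf 1 π = 0 := degreeOf_eq_zero_of_dvd h3 (fun h => by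
        simpa using congrArg (eval ![(0 : k), 0]) h) (by
      refine Nat.le_zero.mp ((degreeOf_sub_le _ _ _).trans (max_le (by simp) ?_))
      refine (degreeOf_C_mul_le _ _ _).trans ((degreeOf_mul_le _ _ _).trans ?_)
      simp [degreeOf_X_pow_of_ne, degreeOf_X_of_ne, show (1 : Fin 2) ≠ 0 by decide])
    have h4 := map_dvd (aeval (Function.update (X : Fin 2 → P2 k) 1 0)) b'
    rw [aeval_update_of_degreeOf_eq_zero hd] at h4
    simp at h4
    have h5 : π ∣ X 0 := hπ.dvd_of_dvd_pow h4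
    have h6 := dvd_add h3 ((h5.mul_right (X 0 ^ 2)).mul_left (C (s ^ 2)))
    rw [sub_add_cancel] at h6
    exact hπ.not_dvd_one h6

theorem Tp0_data (hs : D.Good s) :
    degreeOf 0 (D.Tp s 0) = 2 * D.m ∧ degreeOf 1 (D.Tp s 0) = 2 * D.m ∧
      (D.Tp s 0).totalDegree = 3 * D.m ∧ ordAt (0 : Fin 2 → k) (D.Tp s 0) = (D.m : ℕ∞) ∧
      ∀ g, ordAt (D.grid g) (D.Tp s 0) = 1 := by
  have hm := D.m_pos
  have hP : conic s 0 ≠ 0 := conic_ne s 0
  have hPm := pow_ne_zero D.m hP
  have hco : coeff (ex (1, 1)) (conic s 0) = -(s ^ 2) := by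
    have hne : (0 : Fin 2 →₀ ℕ) ≠ ex (1, 1) := fun h => by
      simpa [ex] using DFunLike.congr_fun h 0
    have hmul : (X 0 * X 1 : P2 k) = monomial (ex (1, 1)) 1 := by
      rw [X, X, monomial_mul, one_mul]; rfl
    simp only [conic, Matrix.cons_val_zero]
    rw [coeff_sub, coeff_C_mul, hmul, coeff_monomial, if_pos rfl, coeff_one, if_neg hne, mul_one,
      zero_sub]
  have hmem : ex (1, 1) ∈ (conic s 0).support :=
    mem_support_iff.mpr (by rw [hco]; exact neg_ne_zero.mpr (pow_ne_zero _ hs.ne))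
  have h01 : ∀ l : Fin 2, degreeOf l (conic s 0) = 1 := fun l => by
    refine le_antisymm ?_ ?_
    · refine (degreeOf_sub_le _ _ _).trans (max_le (by simp) ((degreeOf_C_mul_le _ _ _).trans
        ((degreeOf_mul_le _ _ _).trans ?_)))
      fin_cases l <;> simp [degreeOf_X]
    · have := monomial_le_degreeOf l hmem
      fin_cases l <;> simpa [ex] using this
  have htot : (conic s 0).totalDegree = 2 := by
    refine le_antisymm ?_ ?_
    · refine (totalDegree_sub _ _).trans (max_le (by simp) ((totalDegree_mul _ _).trans ?_))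
      rw [totalDegree_C, zero_add]
      exact (totalDegree_mul _ _).trans (by simp [totalDegree_X])
    · have := totalDegree_le_iff.mp le_rfl _ hmem
      simpa [ex] using this
  have hpw : ((conic s 0) ^ D.m).totalDegree = D.m * 2 := by
    have : ∀ n, ((conic s 0) ^ n).totalDegree = n * 2 := fun n => by
      induction n with
      | zero => simp
      | succ n ih => rw [pow_succ, totalDegree_mul_of_isDomain (pow_ne_zero _ hP) hP, ih, htot]; ring
    exact this _
  obtain ⟨c0, c1⟩ := D.degreeOf_cpol 0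
  refine ⟨?_, ?_, ?_, ?_, fun g => ?_⟩
  · rw [Tp, degreeOf_mul_eq (D.cpol_ne 0) hPm, degreeOf_pow_eq _ _ _ hP, c0, h01]
    simp; ring
  · rw [Tp, degreeOf_mul_eq (D.cpol_ne 0) hPm, degreeOf_pow_eq _ _ _ hP, c1, h01]
    simp; ring
  · rw [Tp, totalDegree_mul_of_isDomain (D.cpol_ne 0) hPm, D.totalDegree_cpol, hpw]; ring
  · rw [Tp, ordAt_mul, ordAt_pow, D.ordAt_cpol_origin, ordAt_eq_zero (p := conic s 0)
      (by simp [conic])]
    simp
  · rw [Tp, ordAt_mul, ordAt_pow, D.ordAt_cpol_grid, ordAt_eq_zero (p := conic s 0) ?_]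
    · simp
    simp only [conic, Matrix.cons_val_zero, map_sub, map_one, map_mul, eval_C, eval_X, ne_eq,
      sub_eq_zero]
    intro h
    refine hs.pow ?_
    have h' := congrArg (fun z : k => z ^ D.m) h
    simp only [one_pow, mul_pow, grid, Matrix.cons_val_zero, Matrix.cons_val_one, D.pow_grid,
      mul_one, ← pow_mul] at h'
    exact h'.symm

/-- If `z a₀` and `z a₁` are admissible in degree `n+1` then `z` is in degree `n`. -/
theorem adm_sat (hs : D.Good s) {n : ℕ} {z : L2 k}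
    (h0 : D.Adm (n + 1) (z * algebraMap (P2 k) (L2 k) (D.Tp s 0)))
    (h1 : D.Adm (n + 1) (z * algebraMap (P2 k) (L2 k) (D.Tp s 1))) : D.Adm n z := by
  obtain ⟨p0, e0, hp0⟩ := h0
  obtain ⟨p1, e1, -⟩ := h1
  obtain ⟨a, b, hcop, rfl⟩ := IsFractionRing.exists_reduced_fraction (A := P2 k) z
  have hb : ∀ (i : Fin 3) (p : P2 k), algebraMap (P2 k) (L2 k) p =
      IsLocalization.mk' (L2 k) a b * algebraMap (P2 k) (L2 k) (D.Tp s i) →
      (b : P2 k) ∣ a * D.Tp s i := fun i p hp => ⟨p, by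
    apply IsFractionRing.injective (P2 k) (L2 k)
    rw [map_mul, map_mul, hp, ← mul_assoc, IsLocalization.mk'_spec']⟩
  have hu : IsUnit (b : P2 k) := by
    by_contra hu
    obtain ⟨π, hπi, hπb⟩ := WfDvdMonoid.exists_irreducible_factor hu (nonZeroDivisors.coe_ne_zero b)
    have hπ : Prime π := irreducible_iff_prime.mp hπi
    have hπa : ¬ π ∣ a := fun hd => hπ.not_isUnit (hcop hd hπb)
    have d0 := (hπ.dvd_or_dvd (hπb.trans (hb 0 p0 e0))).resolve_left hπa
    have d1 := (hπ.dvd_or_dvd (hπb.trans (hb 1 p1 e1))).resolve_left hπa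
    exact D.not_dvd_both hs hπ d0 d1
  obtain ⟨u, hu⟩ := hu
  refine ⟨a * u⁻¹.1, by rw [IsLocalization.eq_mk'_iff_mul_eq, ← map_mul, ← hu]; simp, ?_⟩
  have hp : p0 = a * u⁻¹.1 * D.Tp s 0 := by
    apply IsFractionRing.injective (P2 k) (L2 k)
    rw [e0, map_mul _ (a * _)]
    congr 1
    rw [eq_comm, IsLocalization.eq_mk'_iff_mul_eq, ← map_mul, ← hu]; simp
  by_cases hq : a * u⁻¹.1 = 0
  · rw [hq]; exact D.admPoly_zero n
  generalize a * u⁻¹.1 = q at hp hq ⊢
  subst hp
  obtain ⟨t0, t1, t2, t3, t4⟩ := D.Tp0_data hs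
  have hT : D.Tp s 0 ≠ 0 := mul_ne_zero (D.cpol_ne 0) (pow_ne_zero _ (conic_ne s 0))
  refine ⟨?_, ?_, ?_, ?_, fun g => ?_⟩
  · have := hp0.degX; rw [degreeOf_mul_eq hq hT, t0, mul_add, mul_one] at this; omega
  · have := hp0.degY; rw [degreeOf_mul_eq hq hT, t1, mul_add, mul_one] at this; omega
  · have := hp0.deg; rw [totalDegree_mul_of_isDomain hq hT, t2, mul_add, mul_one] at this; omega
  · have := hp0.origin; rw [ordAt_mul, t3, mul_add, mul_one, Nat.cast_add] at this
    exact (ENat.add_le_add_iff_right (ENat.coe_ne_top _)).mp this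
  · have := hp0.points g; rw [ordAt_mul, t4, Nat.cast_add, Nat.cast_one] at this
    exact (ENat.add_le_add_iff_right ENat.one_ne_top).mp this

theorem Φ_mul_monomial_mem {j : ℕ} {ρ : D.kum.Idx} {ψ : L2 k} (f : D.kum.Idx → L2 k)
    (h : D.kum.Φ f * (algebraMap (L2 k) (M2 k) ψ * D.kum.rx ρ) ∈ D.grad.Sec j) (χ : D.kum.Idx) :
    algebraMap (L2 k) (M2 k) (f χ * ψ * D.kum.carry χ ρ) * D.kum.rx (D.kum.add χ ρ) ∈
      D.grad.Sec j := by
  have key : algebraMap (L2 k) (M2 k) (f χ * ψ * D.kum.carry χ ρ) * D.kum.rx (D.kum.add χ ρ) =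
      algebraMap (L2 k) (M2 k) (f χ) * D.kum.rx χ *
        (algebraMap (L2 k) (M2 k) ψ * D.kum.rx ρ) := by
    rw [mul_mul_mul_comm, D.kum.rx_mul, map_mul, map_mul]; ring
  rw [key]
  refine D.kum.component (P := fun x => x * (algebraMap (L2 k) (M2 k) ψ * D.kum.rx ρ) ∈ D.grad.Sec j)
    (fun a b ha hb => by show (a - b) * _ ∈ _; rw [sub_mul]; exact sub_mem ha hb)
    (fun c x hx => by show (c • x) * _ ∈ _; rw [smul_mul_assoc]; exact Submodule.smul_mem _ c hx)
    (fun σ x hx => ?_) f h χ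
  have hσ := D.grad.apply_mem_Sec σ hx
  rw [map_mul, map_mul, σ.commutes, Kummer.apply_rx] at hσ
  have hne : D.kum.eig σ ρ ≠ 0 := fun h0 => D.kum.rx_ne ρ
    ((map_eq_zero σ).mp (by rw [D.kum.apply_rx σ ρ, h0, map_zero, zero_mul]))
  have h2 := Submodule.smul_mem _ (D.kum.eig σ ρ)⁻¹ hσ
  have e : (D.kum.eig σ ρ)⁻¹ • (σ x * (algebraMap (L2 k) (M2 k) ψ *
      (algebraMap k (M2 k) (D.kum.eig σ ρ) * D.kum.rx ρ))) =
      σ x * (algebraMap (L2 k) (M2 k) ψ * D.kum.rx ρ) := by
    have h1 : algebraMap k (M2 k) (D.kum.eig σ ρ)⁻¹ * algebraMap k (M2 k) (D.kum.eig σ ρ) = 1 := by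
      rw [← map_mul, inv_mul_cancel₀ hne, map_one]
    refine (Algebra.smul_def (A := M2 k) _ _).trans ?_
    linear_combination (σ x * algebraMap (L2 k) (M2 k) ψ * D.kum.rx ρ) * h1
  rwa [e] at h2

theorem sat_R (hs : D.Good s) (n : ℤ) (q : D.K) (h0 : q ∈ D.R s (n + 1))
    (h1 : D.eta s * q ∈ D.R s (n + 1)) (hn : 0 ≤ n) : q ∈ D.R s n := by
  obtain ⟨n', rfl⟩ : ∃ n' : ℕ, n = n' := ⟨n.toNat, by omega⟩
  rw [← Nat.cast_one, ← Nat.cast_add, mem_R] at h0 h1
  rw [mem_R]
  have hqT : (q : M2 k) * D.T s 0 ^ n' ∈ D.field :=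
    mul_mem q.2 (pow_mem (D.TK s 0).2 _)
  obtain ⟨f, hf⟩ := D.mem_field.mp hqT
  rw [← hf]
  have g0 : D.kum.Φ f * D.T s 0 ∈ D.grad.Sec (n' + 1) := by
    rwa [hf, mul_assoc, ← pow_succ]
  have g1 : D.kum.Φ f * D.T s 1 ∈ D.grad.Sec (n' + 1) := by
    rw [hf]
    rw [IntermediateField.coe_mul] at h1
    have e : ((D.eta s : D.K) : M2 k) = D.T s 1 / D.T s 0 := by
      rw [eta, IntermediateField.coe_div]; rfl
    rw [e, pow_succ] at h1
    convert h1 using 1
    field_simp [D.T_ne s 0]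
  refine D.grad.Φ_mem_Sec.mpr fun χ => ?_
  have key : ∀ i : Fin 3, D.kum.Φ f * D.T s i ∈ D.grad.Sec (n' + 1) →
      D.Adm (n' + 1) (D.kum.Z χ (f χ) * algebraMap (P2 k) (L2 k) (D.Tp s i)) := by
    intro i hi
    rw [T, ← D.rx_unitIdx i] at hi
    have h2 := (D.grad.monomial_mem_Sec).mp (D.Φ_mul_monomial_mem f hi χ)
    have h3 : D.kum.Z (D.unitIdx i) (algebraMap (P2 k) (L2 k) (conic s i)) =
        algebraMap (P2 k) (L2 k) (D.Tp s i) := by
      apply (algebraMap (L2 k) (M2 k)).injective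
      exact ((D.kum.monomial_pow (D.unitIdx i) _).symm.trans
        ((congrArg (fun r => (algebraMap (L2 k) (M2 k) (algebraMap (P2 k) (L2 k) (conic s i)) * r)
          ^ D.m) (D.rx_unitIdx i)).trans (D.T_pow' s i)))
    exact h3 ▸ (D.kum.Z_mul χ (D.unitIdx i) _ _).symm ▸ h2
  exact D.adm_sat hs (key 0 g0) (key 1 g1)

end Par

end Vale.Agent.P190.Example
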