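import Vale.Agent.P190.Hilb.Present

/-!
# P190 Module 6: traces of integral elements; a family spanned from below is finitely generated
-/

namespace Vale.Agent.P190.Example

open MvPolynomial Hilb

variable {k K : Type} [Field k] [Field K] [Algebra k K] {η ζ : K}

theorem isIntegralElem_ev {x : K} (hx : IsIntegral (Algebra.adjoin k ({η, ζ} : Set K)) x) :
    RingHom.IsIntegralElem (ev (k := k) η ζ).toRingHom x := by
  have hr : Algebra.adjoin k ({η, ζ} : Set K) = (ev (k := k) η ζ).range := by
    rw [ev, ← Algebra.adjoin_range_eq_range_aeval]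
    congr 1
    simp [Matrix.range_cons, Set.pair_comm]
  obtain ⟨p, hp, hpx⟩ := hx
  let q := p.map (algebraMap (Algebra.adjoin k ({η, ζ} : Set K)) K)
  have hq : q ∈ Polynomial.lifts (ev (k := k) η ζ).toRingHom := by
    refine (Polynomial.lifts_iff_coeff_lifts _).mpr fun n => ?_
    have h : ((p.coeff n : Algebra.adjoin k ({η, ζ} : Set K)) : K) ∈ (ev (k := k) η ζ).range :=
      hr.le (p.coeff n).2
    obtain ⟨a, ha⟩ := h
    exact ⟨a, by rw [Polynomial.coeff_map]; exact ha⟩
  obtain ⟨r, hr', -, hrm⟩ := Polynomial.lifts_and_natDegree_eq_and_monic hq (hp.map _)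
  refine ⟨r, hrm, ?_⟩
  rw [← Polynomial.eval_map, hr', Polynomial.eval_map]
  exact hpx

/-- The trace of an element integral over `k[η, ζ]` lies in it. -/
theorem trace_mem_ev (hind : AlgebraicIndependent k ![η, ζ])
    [FiniteDimensional (ratField k η ζ) K] {x : K}
    (hx : IsIntegral (Algebra.adjoin k ({η, ζ} : Set K)) x) :
    ∃ p : MvPolynomial (Fin 2) k, ev η ζ p = ((Algebra.trace (ratField k η ζ) K x : ratField k η ζ) : K) := by
  let F := ratField k η ζ
  let gF : MvPolynomial (Fin 2) k →ₐ[k] F :=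
    aeval ![(⟨η, eta_ratField⟩ : F), ⟨ζ, zeta_ratField⟩]
  have hg : ∀ p, ((gF p : F) : K) = ev η ζ p := by
    intro p
    have h : F.val.comp gF = ev η ζ := by
      apply MvPolynomial.algHom_ext
      intro i
      fin_cases i <;> simp [gF, ev]
    exact AlgHom.congr_fun h p
  letI : Algebra (MvPolynomial (Fin 2) k) F := gF.toRingHom.toAlgebra
  letI : Algebra (MvPolynomial (Fin 2) k) K := (ev (k := k) η ζ).toRingHom.toAlgebra
  haveI : IsScalarTower (MvPolynomial (Fin 2) k) F K :=
    IsScalarTower.of_algebraMap_eq fun p => (hg p).symm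
  have hint : IsIntegral (MvPolynomial (Fin 2) k) x := isIntegralElem_ev hx
  have hT : IsIntegral (MvPolynomial (Fin 2) k) (Algebra.trace F K x) :=
    Algebra.isIntegral_trace hint
  set t := Algebra.trace F K x
  have hs : ({η, ζ} : Set K) = Set.range ![η, ζ] := by simp [Matrix.range_cons, Set.pair_comm]
  have ht : (t : K) ∈ IntermediateField.adjoin k (Set.range ![η, ζ]) := hs ▸ t.2
  rw [IntermediateField.mem_adjoin_range_iff] at ht
  obtain ⟨a, b, hab⟩ := ht
  let φ := IsFractionRing.lift (A := MvPolynomial (Fin 2) k)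
    (K := FractionRing (MvPolynomial (Fin 2) k)) (g := (ev (k := k) η ζ).toRingHom)
    (ev_injective hind)
  have hφ : ∀ p, φ (algebraMap _ _ p) = ev η ζ p := fun p => IsFractionRing.lift_algebraMap _ p
  let w : FractionRing (MvPolynomial (Fin 2) k) := algebraMap _ _ a / algebraMap _ _ b
  have hw : φ w = (t : K) := by
    rw [map_div₀, hφ, hφ, hab]
    rfl
  obtain ⟨q, hq, hq'⟩ := hT
  have hwint : IsIntegral (MvPolynomial (Fin 2) k) w := by
    refine ⟨q, hq, φ.injective ?_⟩
    rw [Polynomial.hom_eval₂, map_zero, hw]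
    have h2 := congrArg (fun z : F => (z : K)) hq'
    have h3 : ((Polynomial.eval₂ (algebraMap (MvPolynomial (Fin 2) k) F) t q : F) : K) =
        Polynomial.eval₂ (ev (k := k) η ζ).toRingHom (t : K) q := by
      have := Polynomial.hom_eval₂ q (algebraMap (MvPolynomial (Fin 2) k) F) F.val.toRingHom t
      refine this.trans ?_
      congr 1
      exact RingHom.ext hg
    have h4 : φ.comp (algebraMap (MvPolynomial (Fin 2) k) _) = (ev (k := k) η ζ).toRingHom :=
      RingHom.ext hφ
    rw [h4, ← h3]
    exact h2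
  obtain ⟨p, hp⟩ := IsIntegrallyClosed.isIntegral_iff.mp hwint
  exact ⟨p, by rw [← hφ, hp, hw]⟩

theorem ratField_inv (hind : AlgebraicIndependent k ![η, ζ]) :
    ratField k η⁻¹ (ζ / η) = ratField k η ζ := by
  have hη : η ≠ 0 := hind.ne_zero 0
  refine le_antisymm (IntermediateField.adjoin_le_iff.mpr ?_) (IntermediateField.adjoin_le_iff.mpr ?_)
  · rintro _ (rfl | rfl)
    exacts [inv_mem eta_ratField, div_mem zeta_ratField eta_ratField]
  · have h1 : η⁻¹ ∈ ratField k η⁻¹ (ζ / η) := IntermediateField.subset_adjoin k _ (by simp)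
    have h2 : ζ / η ∈ ratField k η⁻¹ (ζ / η) := IntermediateField.subset_adjoin k _ (by simp)
    rintro _ (rfl | rfl)
    · simpa using inv_mem h1
    · have := mul_mem h2 (inv_mem h1)
      simpa [div_mul_cancel₀ _ hη] using this

theorem trace_congr' {E₁ E₂ : IntermediateField k K} (h : E₁ = E₂) (x : K) :
    ((Algebra.trace E₁ K x : E₁) : K) = ((Algebra.trace E₂ K x : E₂) : K) := by subst h; rfl

/-- Degree bound for traces from integrality in two charts. -/
theorem trace_mem_polySpace (hind : AlgebraicIndependent k ![η, ζ])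
    (hind' : AlgebraicIndependent k ![η⁻¹, ζ / η])
    [FiniteDimensional (ratField k η ζ) K] {n : ℕ} {x : K}
    (hx : IsIntegral (Algebra.adjoin k ({η, ζ} : Set K)) x)
    (hx' : IsIntegral (Algebra.adjoin k ({η⁻¹, ζ / η} : Set K)) (x / η ^ n)) :
    ((Algebra.trace (ratField k η ζ) K x : ratField k η ζ) : K) ∈
      polySpace (k := k) η ζ (n : ℤ) := by
  classical
  have hη : η ≠ 0 := hind.ne_zero 0
  obtain ⟨P, hP⟩ := trace_mem_ev hind hx
  haveI : FiniteDimensional (ratField k η⁻¹ (ζ / η)) K := by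
    rw [ratField_inv hind]; infer_instance
  obtain ⟨Q, hQ⟩ := trace_mem_ev hind' hx'
  rw [trace_congr' (ratField_inv hind)] at hQ
  have hscal : x / η ^ n = (⟨η, eta_ratField⟩ : ratField k η ζ)⁻¹ ^ n • x := by
    show x / η ^ n = (((⟨η, eta_ratField⟩ : ratField k η ζ)⁻¹ ^ n : ratField k η ζ) : K) * x
    simp [div_eq_mul_inv, mul_comm]
  rw [hscal, map_smul] at hQ
  have hQ' : ev η⁻¹ (ζ / η) Q * η ^ n = ev η ζ P := by
    rw [hQ, hP]
    simp [smul_eq_mul]
    field_simp
  set M := Q.totalDegree with hM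
  let Q' : MvPolynomial (Fin 2) k :=
    ∑ d ∈ Q.support, C (coeff d Q) * (X 0 ^ (M + n - d 0 - d 1) * X 1 ^ d 1)
  have hd : ∀ d ∈ Q.support, d 0 + d 1 ≤ M := fun d hd => by
    have := le_totalDegree hd
    rwa [Finsupp.sum_fintype _ _ (fun _ => rfl), Fin.sum_univ_two] at this
  have e : ev η ζ (P * X 0 ^ M) = ev η ζ Q' := by
    rw [map_mul, ← hQ', Q.as_sum, map_sum, map_sum, Finset.sum_mul, Finset.sum_mul]
    refine Finset.sum_congr rfl fun d hd' => ?_
    obtain ⟨r, hr⟩ := Nat.exists_eq_add_of_le (hd d hd')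
    rw [ev_monomial, Algebra.smul_def, show M + n - d 0 - d 1 = r + n by omega]
    simp only [ev, map_mul, map_pow, aeval_C, aeval_X, Matrix.cons_val_zero, Matrix.cons_val_one]
    rw [hr, pow_add, pow_add, pow_add, div_pow, inv_pow]
    field_simp

  have hPQ : P * X 0 ^ M = Q' := ev_injective hind e
  refine mem_polySpace.mpr ⟨P, ?_, hP⟩
  by_cases hP0 : P = 0
  · simp [hP0]
  have h := congrArg totalDegree hPQ
  rw [totalDegree_mul_of_isDomain hP0 (pow_ne_zero _ (X_ne_zero _)), totalDegree_X_pow] at h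
  have hle : Q'.totalDegree ≤ M + n := by
    refine totalDegree_finsetSum_le fun d hd' => ?_
    refine (totalDegree_mul _ _).trans ?_
    rw [totalDegree_C, zero_add]
    refine (totalDegree_mul _ _).trans ?_
    rw [totalDegree_X_pow, totalDegree_X_pow]
    have := hd d hd'
    omega
  omega

/-- A closed family with traces in the polynomial spaces, spanning in one degree, is finitely
generated. -/
theorem exists_gen_of_trace (_hind : AlgebraicIndependent k ![η, ζ])
    [FiniteDimensional (ratField k η ζ) K] [Algebra.IsSeparable (ratField k η ζ) K]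
    {R : ℤ → Submodule k K} {N : ℕ} (hN : Submodule.span (ratField k η ζ) (R N : Set K) = ⊤)
    (hclosed : Closed η ζ (one1 R))
    (hmul : ∀ (i j : ℤ) a, a ∈ R i → ∀ b, b ∈ R j → a * b ∈ R (i + j))
    (htr : ∀ (j : ℕ), ∀ a ∈ R j,
      ((Algebra.trace (ratField k η ζ) K a : ratField k η ζ) : K) ∈ polySpace (k := k) η ζ (j : ℤ))
    (hneg : ∀ n : ℤ, n < 0 → R n = ⊥) :
    ∃ b, ∀ n ≥ b, one1 R (n + 1) = one1 R n ⊔ (one1 R n).map (smulE k η) ⊔
      (one1 R n).map (smulE k ζ) := by
  classical
  obtain ⟨s, hs, hspan, hli⟩ :=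
    exists_linearIndependent (ratField k η ζ) (R N : Set K)
  have : Fintype s := hli.setFinite.fintype
  let f : (Fin 1 → K) →ₗ[k] (s → K) :=
    { toFun := fun v b => ((Algebra.trace (ratField k η ζ) K (v 0 * b) : ratField k η ζ) : K)
      map_add' := fun u v => by funext b; simp [add_mul]
      map_smul' := fun c v => by
        funext b
        simp only [Pi.smul_apply, RingHom.id_apply, smul_mul_assoc]
        rw [← algebraMap_smul (ratField k η ζ) c (v 0 * (b : K)), map_smul, algebraMap_smul]
        rfl }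
  have hinj : Function.Injective f := by
    rw [injective_iff_map_eq_zero]
    intro v hv
    have h0 : ∀ b ∈ (⊤ : Submodule (ratField k η ζ) K),
        Algebra.trace (ratField k η ζ) K (v 0 * b) = 0 := by
      rw [← hN, ← hspan]
      intro b hb
      induction hb using Submodule.span_induction with
      | mem b hb => exact Subtype.ext (congrFun hv ⟨b, hb⟩)
      | zero => simp
      | add a b _ _ ha hb => rw [mul_add, map_add, ha, hb, add_zero]
      | smul c b _ hb => rw [mul_smul_comm, map_smul, hb, smul_zero]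
    have := (traceForm_nondegenerate (ratField k η ζ) K).1 (v 0) fun b => h0 b Submodule.mem_top
    funext i
    fin_cases i
    exact this
  have hfs : ∀ c (v : Fin 1 → K), c ∈ ratField k η ζ → f (c • v) = c • f v := by
    intro c v hc
    funext b
    show ((Algebra.trace (ratField k η ζ) K (c * v 0 * b) : ratField k η ζ) : K) = c * _
    rw [mul_assoc, show c * (v 0 * (b : K)) = (⟨c, hc⟩ : ratField k η ζ) • (v 0 * (b : K)) from rfl,
      map_smul]
    rfl
  let N' : ℤ → Submodule k (s → K) := fun n => (one1 R n).map f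
  have hN' : Closed η ζ N' :=
    { mono := fun n => Submodule.map_mono (hclosed.mono n)
      eta := by
        rintro n _ ⟨v, hv, rfl⟩
        exact ⟨η • v, hclosed.eta n v hv, hfs η v eta_ratField⟩
      zeta := by
        rintro n _ ⟨v, hv, rfl⟩
        exact ⟨ζ • v, hclosed.zeta n v hv, hfs ζ v zeta_ratField⟩ }
  have hle : ∀ n, N' n ≤ freeFam (k := k) η ζ (fun _ : s => -(N : ℤ)) n := by
    rintro n _ ⟨v, hv, rfl⟩
    refine mem_freeFam.mpr fun b => ?_
    rcases lt_or_ge n 0 with hn | hn
    · have : v 0 = 0 := by simpa [hneg n hn] using (show v 0 ∈ R n from hv)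
      show ((Algebra.trace (ratField k η ζ) K (v 0 * b) : ratField k η ζ) : K) ∈ _
      simp [this]
    obtain ⟨j, rfl⟩ := Int.eq_ofNat_of_zero_le hn
    have h := htr (j + N) (v 0 * b) (by
      rw [Nat.cast_add]; exact hmul _ _ _ hv _ (hs b.2))
    rw [Nat.cast_add] at h
    rw [show (j : ℤ) - -(N : ℤ) = (j : ℤ) + N by ring]
    exact h
  obtain ⟨b, hb⟩ := exists_gen_of_le_free hN' hle
  refine ⟨b, fun n hn => ?_⟩
  have h := hb n hn
  have hc : ∀ c ∈ ratField k η ζ, ((one1 R n).map f).map (smulE k c) =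
      ((one1 R n).map (smulE k c)).map f := fun c hc => by
    rw [← Submodule.map_comp, ← Submodule.map_comp]
    congr 1
    exact LinearMap.ext fun v => (hfs c v hc).symm
  simp only [N', hc η eta_ratField, hc ζ zeta_ratField, ← Submodule.map_sup] at h
  exact Submodule.map_injective_of_injective hinj h

end Vale.Agent.P190.Example
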