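import Vale.Agent.P190.Example.Integral
import Vale.Agent.P190.Example.Sat
import Vale.Agent.P190.Example.Trace
import Vale.Agent.P190.Hilb.Duality
import Vale.Agent.P190.Example.Rank

/-!
# P190 Module 6: finiteness over `k(η, ζ)`, the bound on the rank, finite generation
-/

namespace Vale.Agent.P190.Example

open MvPolynomial

set_option linter.unusedSectionVars false

section Abstract

variable {k K : Type} [Field k] [Field K] [Algebra k K] {η ζ : K} {R : ℤ → Submodule k K}

theorem span_of_gen [Algebra.IsAlgebraic (ratField k η ζ) K]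
    (hone : (1 : K) ∈ R 0) (hmul : ∀ i j : ℤ, ∀ a ∈ R i, ∀ b ∈ R j, a * b ∈ R (i + j))
    (hmono : ∀ n, R n ≤ R (n + 1)) {n₀ : ℕ} [hfd : FiniteDimensional k (R n₀)]
    (hgen : IntermediateField.adjoin k (R n₀ : Set K) = ⊤) :
    FiniteDimensional (ratField k η ζ) K ∧ ∀ N : ℕ, Module.finrank (ratField k η ζ) K * n₀ ≤ N →
      Submodule.span (ratField k η ζ) (R N : Set K) = ⊤ := by
  classical
  obtain ⟨S, hS⟩ : ∃ S : Finset K, Submodule.span k (S : Set K) = R n₀ := by
    obtain ⟨S, hS⟩ := (Submodule.fg_iff_finiteDimensional (R n₀)).mpr hfd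
    exact ⟨S, hS⟩
  have hle : ∀ {a b : ℤ}, a ≤ b → R a ≤ R b := by
    intro a b hab
    obtain ⟨c, rfl⟩ := Int.exists_add_of_le hab
    induction c with
    | zero => simp
    | succ c ih =>
      refine (ih (by omega)).trans ((hmono _).trans ?_)
      rw [Nat.cast_succ, ← add_assoc]
  let F := ratField k η ζ
  have hK : Algebra.adjoin F (S : Set K) = ⊤ := by
    have hfield : IntermediateField.adjoin F (S : Set K) = ⊤ := by
      refine eq_top_iff.mpr fun z _ => ?_
      have hz : z ∈ IntermediateField.adjoin k (R n₀ : Set K) := hgen ▸ IntermediateField.mem_top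
      have : IntermediateField.adjoin k (R n₀ : Set K) ≤
          (IntermediateField.adjoin F (S : Set K)).restrictScalars k := by
        refine IntermediateField.adjoin_le_iff.mpr fun w hw => ?_
        have hsub : (R n₀) ≤ Subalgebra.toSubmodule
            ((IntermediateField.adjoin F (S : Set K)).restrictScalars k).toSubalgebra := by
          rw [← hS, Submodule.span_le]
          exact fun u hu => IntermediateField.subset_adjoin F _ hu
        exact hsub hw
      exact this hz
    rw [← IntermediateField.adjoin_toSubalgebra_of_isAlgebraic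
      (fun x _ => Algebra.IsAlgebraic.isAlgebraic x), hfield,
      IntermediateField.top_toSubalgebra]
  haveI hfin : FiniteDimensional F K := by
    have : Algebra.FiniteType F K := ⟨⟨S, hK⟩⟩
    exact Algebra.IsIntegral.finite
  refine ⟨hfin, fun N hN => ?_⟩
  let V : ℕ → Submodule F K := fun i => Submodule.span F (R ((i * n₀ : ℕ) : ℤ) : Set K)
  have hV : ∀ i j, i ≤ j → V i ≤ V j := fun i j hij =>
    Submodule.span_mono (hle (by exact_mod_cast Nat.mul_le_mul_right n₀ hij))
  obtain ⟨i, hi, heq⟩ : ∃ i ≤ Module.finrank F K, V (i + 1) = V i := by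
    by_contra! hne
    have hlt : ∀ i ≤ Module.finrank F K + 1, i ≤ Module.finrank F (V i) := by
      intro i
      induction i with
      | zero => exact fun _ => Nat.zero_le _
      | succ i ih =>
        intro hi
        have := Submodule.finrank_lt_finrank_of_lt
          (lt_of_le_of_ne (hV i (i + 1) (Nat.le_succ i)) (hne i (by omega)).symm)
        have := ih (by omega)
        omega
    exact absurd ((hlt _ le_rfl).trans (Submodule.finrank_le _)) (by omega)
  have hmem : ∀ z ∈ (S : Set K), ∀ x ∈ V i, z * x ∈ V i := by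
    intro z hz x hx
    induction hx using Submodule.span_induction with
    | zero => rw [mul_zero]; exact zero_mem _
    | add x y _ _ hx hy => rw [mul_add]; exact add_mem hx hy
    | smul c x _ hx => rw [mul_smul_comm]; exact Submodule.smul_mem _ c hx
    | mem x hx =>
      have hz' : z ∈ R n₀ := by rw [← hS]; exact Submodule.subset_span hz
      refine heq ▸ Submodule.subset_span ?_
      have := hmul _ _ _ hz' _ hx
      rwa [← Nat.cast_add, show n₀ + i * n₀ = (i + 1) * n₀ by ring] at this
  have hall : ∀ z ∈ Algebra.adjoin F (S : Set K), ∀ x ∈ V i, z * x ∈ V i := by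
    intro z hz
    induction hz using Algebra.adjoin_induction with
    | mem z hz => exact hmem z hz
    | algebraMap c => exact fun x hx => by rw [← Algebra.smul_def]; exact Submodule.smul_mem _ c hx
    | add a b _ _ ha hb => exact fun x hx => by rw [add_mul]; exact add_mem (ha x hx) (hb x hx)
    | mul a b _ _ ha hb => exact fun x hx => by rw [mul_assoc]; exact ha _ (hb x hx)
  refine eq_top_iff.mpr fun z _ => ?_
  have h1 : (1 : K) ∈ V i := Submodule.subset_span (hle (by positivity) hone)
  have hz := hall z (hK ▸ Algebra.mem_top) 1 h1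
  rw [mul_one] at hz
  refine Submodule.span_mono (hle ?_) hz
  exact_mod_cast (Nat.mul_le_mul_right n₀ hi).trans hN

theorem fam_of (hind : AlgebraicIndependent k ![η, ζ])
    [FiniteDimensional (ratField k η ζ) K] [Algebra.IsSeparable (ratField k η ζ) K]
    {N : ℕ} (hN : Submodule.span (ratField k η ζ) (R N : Set K) = ⊤)
    (hclosed : Hilb.Closed η ζ (one1 R))
    (hmul : ∀ (i j : ℤ) a, a ∈ R i → ∀ b, b ∈ R j → a * b ∈ R (i + j))
    (htr : ∀ (j : ℕ), ∀ a ∈ R j,
      ((Algebra.trace (ratField k η ζ) K a : ratField k η ζ) : K) ∈ polySpace (k := k) η ζ (j : ℤ))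
    (hneg : ∀ n : ℤ, n < 0 → R n = ⊥) (hfd : ∀ n, FiniteDimensional k (R n))
    (hsat : ∀ n, ∀ v ∈ R (n + 1), η * v ∈ R (n + 1) → v ∈ R n) :
    Hilb.Fam η ζ (one1 R) where
  toClosed := hclosed
  fd n := by
    have := hfd n
    let f : one1 R n →ₗ[k] R n :=
      { toFun := fun v => ⟨v.1 0, v.2⟩
        map_add' := fun _ _ => rfl
        map_smul' := fun _ _ => rfl }
    refine FiniteDimensional.of_injective f fun a b h => ?_
    refine Subtype.ext (funext fun i => ?_)
    fin_cases i
    exact congrArg Subtype.val h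
  below := ⟨0, fun n hn => by
    rw [eq_bot_iff]
    intro v hv
    have : v 0 ∈ R n := hv
    rw [hneg n hn, Submodule.mem_bot] at this
    rw [Submodule.mem_bot]
    funext i; fin_cases i; exact this⟩
  sat n v hv hv' := hsat n _ hv hv'
  gen := exists_gen_of_trace hind hN hclosed hmul htr hneg
  spanE := by
    refine eq_top_iff.mpr fun v _ => ?_
    have hv : v 0 ∈ Submodule.span (ratField k η ζ) (R N : Set K) := hN ▸ Submodule.mem_top
    have hv' : v = (fun _ => v 0) := by funext i; fin_cases i; rfl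
    rw [hv']
    refine Submodule.span_induction (p := fun x _ => (fun _ : Fin 1 => x) ∈ Submodule.span
      (ratField k η ζ) (⋃ n, (one1 R n : Set (Fin 1 → K))))
      (fun x hx => Submodule.subset_span (Set.mem_iUnion.mpr ⟨N, hx⟩))
      (zero_mem _) (fun x y _ _ hx hy => add_mem hx hy)
      (fun c x _ hx => Submodule.smul_mem _ c hx) hv

end Abstract

variable {k : Type} [Field k] [Infinite k] (D : Par k) {s : k}

namespace Par

theorem R_mono (s : k) (n : ℤ) : D.R s n ≤ D.R s (n + 1) := fun q hq => by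
  simpa using D.mul_mem_R s n 1 q hq 1 (D.one_mem_R_one s)

theorem eta_mem (s : k) : D.eta s ∈ D.R s 1 := D.div_TK_mem s 1

theorem zeta_mem (s : k) : D.zeta s ∈ D.R s 1 := D.div_TK_mem s 2

theorem closed_R (s : k) : Hilb.Closed (D.eta s) (D.zeta s) (one1 (D.R s)) where
  mono n v hv := D.R_mono s n hv
  eta n v hv := by
    show D.eta s * v 0 ∈ D.R s (n + 1)
    rw [add_comm]; exact D.mul_mem_R s 1 n _ (D.eta_mem s) _ hv
  zeta n v hv := by
    show D.zeta s * v 0 ∈ D.R s (n + 1)
    rw [add_comm]; exact D.mul_mem_R s 1 n _ (D.zeta_mem s) _ hv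

theorem one_mem_R_zero (s : k) : (1 : D.K) ∈ D.R s 0 := by
  rw [D.R_zero]; exact Submodule.subset_span rfl

theorem polySpace_le_R (s : k) (j : ℕ) :
    polySpace (k := k) (D.eta s) (D.zeta s) (j : ℤ) ≤ D.R s j := by
  refine Submodule.span_le.mpr ?_
  rintro _ ⟨a, b, hab, rfl⟩
  have hpow : ∀ (x : D.K), x ∈ D.R s 1 → ∀ i : ℕ, x ^ i ∈ D.R s i := fun x hx i => by
    induction i with
    | zero => simpa using D.one_mem_R_zero s
    | succ i ih => rw [pow_succ, Nat.cast_succ]; exact D.mul_mem_R s _ _ _ ih _ hx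
  have h := D.mul_mem_R s _ _ _ (hpow _ (D.eta_mem s) a) _ (hpow _ (D.zeta_mem s) b)
  rw [← Nat.cast_add] at h
  obtain ⟨c, hc⟩ := Nat.exists_eq_add_of_le (Int.ofNat_le.mp hab)
  have h1 : (1 : D.K) ∈ D.R s c := by simpa using hpow 1 (D.one_mem_R_one s) c
  have h2 := D.mul_mem_R s _ _ _ h _ h1
  rwa [mul_one, ← Nat.cast_add, ← hc] at h2

theorem polySpace_le_R' (s : k) (l : ℤ) :
    polySpace (k := k) (D.eta s) (D.zeta s) l ≤ D.R s l := by
  rcases lt_or_ge l 0 with hl | hl
  · refine Submodule.span_le.mpr ?_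
    rintro _ ⟨a, b, hab, -⟩
    omega
  · obtain ⟨j, rfl⟩ := Int.eq_ofNat_of_zero_le hl
    exact D.polySpace_le_R s j

theorem finite_span (hs : D.Good s) :
    FiniteDimensional (ratField k (D.eta s) (D.zeta s)) D.K ∧
      ∀ N : ℕ, Module.finrank (ratField k (D.eta s) (D.zeta s)) D.K * D.n0 ≤ N →
        Submodule.span (ratField k (D.eta s) (D.zeta s)) (D.R s N : Set D.K) = ⊤ := by
  haveI := D.isAlgebraic_K hs
  haveI := D.finiteDimensional_R s (D.n0 : ℤ)
  exact span_of_gen (η := D.eta s) (ζ := D.zeta s) (R := D.R s) (n₀ := D.n0)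
    (D.one_mem_R_zero s) (D.mul_mem_R s) (D.R_mono s)
    (D.field_gen s _ fun q hq => IntermediateField.subset_adjoin k _ hq)

theorem finrank_le_deg (hs : D.Good s) :
    Module.finrank (ratField k (D.eta s) (D.zeta s)) D.K ≤ D.deg := by
  obtain ⟨h, hN⟩ := D.finite_span hs
  exact_mod_cast finrank_le_of_hasPoly (D.indep hs) (fun n => D.finiteDimensional_R s n)
    (fun i j a ha b hb => D.mul_mem_R s i j a ha b hb) (D.polySpace_le_R' s) _ (hN _ le_rfl)
    (D.hasPoly_R s)

theorem span_top (hs : D.Good s) {N : ℕ} (hN : D.deg * D.n0 ≤ N) :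
    Submodule.span (ratField k (D.eta s) (D.zeta s)) (D.R s N : Set D.K) = ⊤ :=
  (D.finite_span hs).2 N ((Nat.mul_le_mul_right _ (D.finrank_le_deg hs)).trans hN)

theorem trace_mem (hs : D.Good s) {n : ℕ} {q : D.K} (hq : q ∈ D.R s n) :
    ((Algebra.trace (ratField k (D.eta s) (D.zeta s)) D.K q :
        ratField k (D.eta s) (D.zeta s)) : D.K) ∈
      polySpace (k := k) (D.eta s) (D.zeta s) (n : ℤ) := by
  have hind := D.indep hs
  haveI := (D.finite_span hs).1
  have hη : D.eta s ≠ 0 := hind.ne_zero 0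
  have hind' : AlgebraicIndependent k ![(D.eta s)⁻¹, D.zeta s / D.eta s] := by
    haveI : Algebra.IsAlgebraic (ratField k (D.eta s)⁻¹ (D.zeta s / D.eta s)) D.K := by
      rw [ratField_inv hind]; exact D.isAlgebraic_K hs
    exact indep_of_isAlgebraic
      ((IsScalarTower.toAlgHom k (L2 k) D.K).comp (IsScalarTower.toAlgHom k (P2 k) (L2 k)))
      ((algebraMap (L2 k) D.K).injective.comp (IsFractionRing.injective (P2 k) (L2 k)))
  refine trace_mem_polySpace hind hind' (D.isIntegral_R hs hq) ?_
  have h := D.isIntegral_chart hs 1 hq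
  have hr : Algebra.adjoin k (Set.range fun l => D.TK s l / D.TK s 1) =
      Algebra.adjoin k ({(D.eta s)⁻¹, D.zeta s / D.eta s} : Set D.K) := by
    have e0 : D.TK s 0 / D.TK s 1 = (D.eta s)⁻¹ := by rw [eta, inv_div]
    have e2 : D.TK s 2 / D.TK s 1 = D.zeta s / D.eta s := by
      rw [eta, zeta, div_div_div_cancel_right₀ (D.TK_ne s 0)]
    refine le_antisymm (Algebra.adjoin_le ?_) (Algebra.adjoin_mono ?_)
    · rintro _ ⟨l, rfl⟩
      fin_cases l
      · exact Algebra.subset_adjoin (Or.inl e0)
      · simp [D.TK_ne]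
      · exact Algebra.subset_adjoin (Or.inr e2)
    · rintro _ (rfl | rfl)
      exacts [⟨0, e0⟩, ⟨2, e2⟩]
  rw [hr] at h
  have e : q / D.eta s ^ n = q * (D.TK s 0 / D.TK s 1) ^ n := by
    rw [eta, div_pow, div_pow, div_div_eq_mul_div, mul_div_assoc]
  rw [e]; exact h

theorem sat_all (hs : D.Good s) {n : ℤ} {v : D.K} (hv : v ∈ D.R s (n + 1))
    (hv' : D.eta s * v ∈ D.R s (n + 1)) : v ∈ D.R s n := by
  rcases lt_or_ge n 0 with hn | hn
  · have h0 : v = 0 := by
      rcases lt_or_ge (n + 1) 0 with h1 | h1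
      · rwa [D.R_neg s h1, Submodule.mem_bot] at hv
      · have hn1 : n + 1 = 0 := by omega
        rw [hn1, D.R_zero, Submodule.mem_span_singleton] at hv hv'
        obtain ⟨α, hα⟩ := hv
        obtain ⟨β, hβ⟩ := hv'
        by_contra hne
        refine (D.indep hs).transcendental 0 ?_
        have hα0 : α ≠ 0 := fun h => hne (by rw [← hα, h, zero_smul])
        have : D.eta s = algebraMap k D.K (β * α⁻¹) := by
          have hh : D.eta s * algebraMap k D.K α = algebraMap k D.K β := by
            rw [Algebra.algebraMap_eq_smul_one, Algebra.algebraMap_eq_smul_one, hα, hβ]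
          rw [map_mul, map_inv₀, ← hh,
            mul_inv_cancel_right₀ ((_root_.map_ne_zero _).mpr hα0)]
        show IsAlgebraic k (D.eta s)
        rw [this]; exact isAlgebraic_algebraMap _
    rw [h0]; exact zero_mem _
  · exact D.sat_R hs n v hv hv' hn

/-- The ring as a finitely generated saturated family. -/
theorem fam_R (hs : D.Good s) [Algebra.IsSeparable (ratField k (D.eta s) (D.zeta s)) D.K] :
    Hilb.Fam (D.eta s) (D.zeta s) (one1 (D.R s)) := by
  obtain ⟨hfin, hN⟩ := D.finite_span hs
  exact fam_of (D.indep hs) (hN _ le_rfl) (D.closed_R s) (fun i j a ha b hb => D.mul_mem_R s i j a ha b hb)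
    (fun j a ha => D.trace_mem hs ha) (fun n hn => D.R_neg s hn)
    (fun n => D.finiteDimensional_R s n) (fun n v hv hv' => D.sat_all hs hv hv')

end Par

end Vale.Agent.P190.Example
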