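import Vale.Agent.P190.Example.Ring

/-!
# P190 Module 6: the pieces of one high degree generate the field
-/

namespace Vale.Agent.P190.Example

open MvPolynomial

set_option linter.unusedSectionVars false

variable {k : Type} [Field k] [Infinite k] (D : Par k)

namespace Par

/-- A degree in which everything below takes place. -/
def n0 : ℕ := 10 * D.m + 2

/-- A polynomial lying, with margin one, in every block of degree `n0`. -/
noncomputable def witness : P2 k :=
  shiftXY ((D.n0 + 1) / 2) (D.vp 0 ^ D.gridOrd D.kum.zeroIdx D.n0)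

theorem gridOrd_le_zero (χ : D.Ix) (j : ℕ) : D.gridOrd χ j ≤ D.gridOrd D.kum.zeroIdx j := by
  refine (D.gridOrd_le_iff χ j _).mpr ?_
  have h := (D.gridOrd_le_iff D.kum.zeroIdx j _).mp le_rfl
  have h0 : D.tot (D.kum.zeroIdx) = 0 := by simp [tot, Kummer.zeroIdx]
  rw [h0] at h
  omega

theorem witness_ne : D.witness ≠ 0 := by
  simp only [witness, shiftXY, LinearMap.mulLeft_apply]
  refine mul_ne_zero (pow_ne_zero _ (mul_ne_zero (X_ne_zero _) (X_ne_zero _))) (pow_ne_zero _ ?_)
  intro h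
  have := congrArg (eval (0 : Fin 2 → k)) h
  simp [vp, zero_pow D.m_pos.ne'] at this

theorem witness_support {d : Fin 2 →₀ ℕ} (hd : d ∈ D.witness.support) :
    (D.n0 + 1) / 2 ≤ d 0 ∧ d 1 = (D.n0 + 1) / 2 ∧
      d 0 ≤ (D.n0 + 1) / 2 + (D.n0 + D.m) := by
  simp only [witness, shiftXY, LinearMap.mulLeft_apply] at hd
  have hmono : ((X 0 * X 1 : P2 k) ^ ((D.n0 + 1) / 2)) =
      monomial (ex ((D.n0 + 1) / 2, (D.n0 + 1) / 2)) 1 := by
    rw [mul_pow, X_pow_eq_monomial, X_pow_eq_monomial, monomial_mul, one_mul]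
    rfl
  rw [hmono, mem_support_iff, coeff_monomial_mul'] at hd
  split_ifs at hd with hle
  · have hd' := mem_support_iff.mpr (right_ne_zero_of_mul hd)
    have hb := D.gridOrd_bound D.kum.zeroIdx D.n0
    have hX : degreeOf 0 (D.vp 0 ^ D.gridOrd D.kum.zeroIdx D.n0) ≤
        D.gridOrd D.kum.zeroIdx D.n0 * D.m := by
      refine (degreeOf_pow_le _ _ _).trans (Nat.mul_le_mul_left _ ?_)
      refine (degreeOf_sub_le _ _ _).trans (max_le ?_ (by simp))
      exact (degreeOf_pow_le _ _ _).trans (by simp)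
    have hY : degreeOf 1 (D.vp 0 ^ D.gridOrd D.kum.zeroIdx D.n0) = 0 := by
      refine Nat.le_zero.mp ((degreeOf_pow_le _ _ _).trans (le_of_eq ?_))
      have : degreeOf 1 (D.vp 0) = 0 := Nat.le_zero.mp ((degreeOf_sub_le _ _ _).trans (by
        simp [degreeOf_X_pow_of_ne, show (1 : Fin 2) ≠ 0 by decide]))
      rw [this, mul_zero]
    have h0 := (monomial_le_degreeOf 0 hd').trans hX
    have h1 := (monomial_le_degreeOf 1 hd').trans hY.le
    have e0 := hle 0
    have e1 := hle 1
    rw [mul_comm] at h0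
    simp [ex, Finsupp.tsub_apply] at h0 h1 e0 e1
    omega
  · exact absurd rfl hd

theorem witness_mem (χ : D.Ix) (q : P2 k)
    (hq : q = 1 ∨ q = X 0 ∨ q = X 1) :
    algebraMap (P2 k) (L2 k) (D.witness * q) ∈ D.grad.block χ D.n0 := by
  have hn : 2 * D.m ≤ D.n0 := by simp only [n0]; omega
  refine (D.mem_block_iff (χ := χ)).mpr (Or.inr ⟨_, rfl, (D.PBlock_iff hn).mpr ⟨?_, ?_⟩⟩)
  · intro d hd
    obtain ⟨b1, b2, b3, b4, -, -, -⟩ := D.ex_bounds χ
    have hm := D.m_pos
    obtain ⟨e, he, hd'⟩ : ∃ e, (e = (0 : Fin 2 →₀ ℕ) ∨ e = Finsupp.single 0 1 ∨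
        e = Finsupp.single 1 1) ∧ ∃ d' ∈ D.witness.support, d = d' + e := by
      rcases hq with rfl | rfl | rfl
      · exact ⟨0, Or.inl rfl, d, by simpa using hd, by simp⟩
      all_goals
        rw [mem_support_iff, coeff_mul_X'] at hd
        split_ifs at hd with hmem
        · refine ⟨_, by first | exact Or.inr (Or.inl rfl) | exact Or.inr (Or.inr rfl), _,
            mem_support_iff.mpr hd, (tsub_add_cancel_of_le ?_).symm⟩
          intro i
          rw [Finsupp.mem_support_iff] at hmem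
          rw [Finsupp.single_apply]
          split_ifs with h
          · subst h; omega
          · exact Nat.zero_le _
        · exact absurd rfl hd
    obtain ⟨d', hd'', rfl⟩ := hd'
    have hw := D.witness_support hd''
    simp only [n0] at hw ⊢
    rcases he with rfl | rfl | rfl <;> simp [Hexa.Mem, hexa] <;> omega
  · have h := (D.shiftXY_mem_van (l := (D.n0 + 1) / 2)).mpr
      (D.pow_vp_mem_van 0 (D.gridOrd D.kum.zeroIdx D.n0))
    have := D.mul_mem_van (D.van_anti (D.gridOrd_le_zero χ D.n0) h) (D.van_zero q)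
    simpa [witness] using this

theorem field_gen (s : k) (S : IntermediateField k D.K)
    (hS : ∀ q ∈ D.R s D.n0, q ∈ S) : S = ⊤ := by
  -- the ratios of two elements of degree `n0`
  have ratio : ∀ a b : M2 k, a ∈ D.grad.Sec D.n0 → b ∈ D.grad.Sec D.n0 → b ≠ 0 →
      ∀ hab : a / b ∈ D.field, (⟨a / b, hab⟩ : D.K) ∈ S := by
    intro a b ha hb hb0 hab
    obtain ⟨qa, hqa, ea⟩ := D.exists_mem_R (s := s) ha
    obtain ⟨qb, hqb, eb⟩ := D.exists_mem_R (s := s) hb
    have : (⟨a / b, hab⟩ : D.K) = qa / qb := Subtype.ext <| by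
      show a / b = ((qa / qb : D.K) : M2 k)
      rw [IntermediateField.coe_div, ← ea, ← eb,
        mul_div_mul_right _ _ (pow_ne_zero _ (D.T_ne s 0))]
    rw [this]; exact div_mem (hS _ hqa) (hS _ hqb)
  have base : ∀ (χ : D.kum.Idx) (q : P2 k), (q = 1 ∨ q = X 0 ∨ q = X 1) →
      (⟨_, D.monomial_mem χ (algebraMap (P2 k) (L2 k) q)⟩ : D.K) ∈ S := by
    intro χ q hq
    have ha := (D.grad.monomial_mem_Sec (χ := χ)).mpr (D.witness_mem χ q hq)
    have hb := (D.grad.monomial_mem_Sec (χ := D.kum.zeroIdx)).mpr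
      (D.witness_mem D.kum.zeroIdx 1 (Or.inl rfl))
    rw [Kummer.rx_zeroIdx, mul_one, mul_one] at hb
    have hb0 : algebraMap (L2 k) (M2 k) (algebraMap (P2 k) (L2 k) D.witness) ≠ 0 :=
      (_root_.map_ne_zero _).mpr fun h => D.witness_ne
        ((map_eq_zero_iff _ (IsFractionRing.injective (P2 k) (L2 k))).mp h)
    have e : algebraMap (L2 k) (M2 k) (algebraMap (P2 k) (L2 k) (D.witness * q)) * D.kum.rx χ /
        algebraMap (L2 k) (M2 k) (algebraMap (P2 k) (L2 k) D.witness) =
        algebraMap (L2 k) (M2 k) (algebraMap (P2 k) (L2 k) q) * D.kum.rx χ := by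
      rw [map_mul, map_mul, mul_assoc, mul_div_cancel_left₀ _ hb0]
    have hm : algebraMap (L2 k) (M2 k) (algebraMap (P2 k) (L2 k) (D.witness * q)) * D.kum.rx χ /
        algebraMap (L2 k) (M2 k) (algebraMap (P2 k) (L2 k) D.witness) ∈ D.field := by
      rw [e]; exact D.monomial_mem χ _
    have := ratio _ _ ha hb hb0 hm
    convert this using 1
    exact Subtype.ext e.symm
  have hX : ∀ i : Fin 2, algebraMap (L2 k) D.K (algebraMap (P2 k) (L2 k) (X i)) ∈ S := by
    intro i
    have := base D.kum.zeroIdx (X i) (by fin_cases i <;> simp)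
    convert this using 1
    refine Subtype.ext ?_
    show algebraMap (L2 k) (M2 k) _ =
      algebraMap (L2 k) (M2 k) (algebraMap (P2 k) (L2 k) (X i)) * D.kum.rx D.kum.zeroIdx
    rw [Kummer.rx_zeroIdx, mul_one]
  have hP : ∀ p : P2 k, algebraMap (L2 k) D.K (algebraMap (P2 k) (L2 k) p) ∈ S := by
    intro p
    induction p using MvPolynomial.induction_on with
    | C a =>
      have : algebraMap (L2 k) D.K (algebraMap (P2 k) (L2 k) (C a)) = algebraMap k D.K a := by
        rw [← MvPolynomial.algebraMap_eq, ← IsScalarTower.algebraMap_apply k (P2 k) (L2 k),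
          ← IsScalarTower.algebraMap_apply]
      rw [this]; exact S.algebraMap_mem a
    | add p q hp hq => rw [map_add, map_add]; exact add_mem hp hq
    | mul_X p i hp => rw [map_mul, map_mul]; exact mul_mem hp (hX i)
  have hL : ∀ φ : L2 k, algebraMap (L2 k) D.K φ ∈ S := by
    intro φ
    obtain ⟨a, b, rfl⟩ := IsLocalization.exists_mk'_eq (nonZeroDivisors (P2 k)) φ
    rw [IsFractionRing.mk'_eq_div, map_div₀]
    exact div_mem (hP a) (hP b)
  refine eq_top_iff.mpr fun z _ => ?_
  obtain ⟨f, hf⟩ := D.mem_field.mp z.2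
  have hz : z = ∑ χ, algebraMap (L2 k) D.K (f χ) *
      ⟨_, D.monomial_mem χ (algebraMap (P2 k) (L2 k) 1)⟩ := by
    refine Subtype.ext ?_
    rw [← hf, Kummer.Φ_apply]
    simp
  rw [hz]
  exact sum_mem fun χ _ => mul_mem (hL _) (base χ 1 (Or.inl rfl))

end Par

end Vale.Agent.P190.Example
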