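import Vale.Agent.P190.Example.Kummer

/-!
# P190 Module 6: graded pieces spanned by admissible monomials
-/

namespace Vale.Agent.P190.Example

open Polynomial

set_option linter.unusedSectionVars false

variable {k L M ι : Type*} [Field k] [Field L] [Field M] [Algebra k L] [Algebra k M]
  [Algebra L M] [IsScalarTower k L M] [IsGalois L M] [Fintype ι] [DecidableEq ι]

/-- Admissibility of the `m`-th power of a monomial of given degree. -/
structure Grad (K : Kummer k L M ι) where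
  adm : ℕ → L → Prop
  adm_zero : ∀ j, adm j 0
  adm_one : adm 0 1
  adm_mul : ∀ i j a b, adm i a → adm j b → adm (i + j) (a * b)
  adm_add : ∀ j χ φ ψ, adm j (K.Z χ φ) → adm j (K.Z χ ψ) → adm j (K.Z χ (φ + ψ))
  adm_smul : ∀ j (a : k) Z, adm j Z → adm j (a • Z)

namespace Grad

variable {K : Kummer k L M ι} (G : Grad K)

theorem adm_pow {j : ℕ} {a : L} (h : G.adm j a) (n : ℕ) : G.adm (n * j) (a ^ n) := by
  induction n with
  | zero => simpa using G.adm_one
  | succ n ih => simpa [pow_succ, add_mul] using G.adm_mul _ _ _ _ ih h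

/-- The coefficients allowed on `rt^χ` in degree `j`. -/
def block (χ : K.Idx) (j : ℕ) : Submodule k L where
  carrier := {φ | G.adm j (K.Z χ φ)}
  zero_mem' := by simpa [Kummer.Z, zero_pow K.hm.ne'] using G.adm_zero j
  add_mem' := fun {a b} ha hb => G.adm_add j χ a b ha hb
  smul_mem' := fun c a ha => by
    simpa [Kummer.Z, _root_.smul_pow, smul_mul_assoc] using G.adm_smul j (c ^ K.m) _ ha

theorem mem_block {χ : K.Idx} {j : ℕ} {φ : L} : φ ∈ G.block χ j ↔ G.adm j (K.Z χ φ) := Iff.rfl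

theorem block_mul {χ χ' : K.Idx} {i j : ℕ} {φ ψ : L} (hφ : φ ∈ G.block χ i)
    (hψ : ψ ∈ G.block χ' j) : φ * ψ * K.carry χ χ' ∈ G.block (K.add χ χ') (i + j) := by
  rw [mem_block, ← K.Z_mul]
  exact G.adm_mul _ _ _ _ hφ hψ

/-- The expansion on admissible coefficients. -/
noncomputable def expand (j : ℕ) : (∀ χ, G.block χ j) →ₗ[k] M :=
  (K.Φ.restrictScalars k).comp
    (LinearMap.pi fun χ => (G.block χ j).subtype.comp (LinearMap.proj χ))

theorem expand_apply (j : ℕ) (f : ∀ χ, G.block χ j) :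
    G.expand j f = K.Φ (fun χ => (f χ : L)) := rfl

/-- The degree `j` piece. -/
noncomputable def Sec (j : ℕ) : Submodule k M := LinearMap.range (G.expand j)

theorem mem_Sec {j : ℕ} {z : M} :
    z ∈ G.Sec j ↔ ∃ f : K.Idx → L, (∀ χ, f χ ∈ G.block χ j) ∧ K.Φ f = z := by
  constructor
  · rintro ⟨f, rfl⟩
    exact ⟨fun χ => f χ, fun χ => (f χ).2, rfl⟩
  · rintro ⟨f, hf, rfl⟩
    exact ⟨fun χ => ⟨f χ, hf χ⟩, rfl⟩

theorem Φ_mem_Sec {j : ℕ} {f : K.Idx → L} : K.Φ f ∈ G.Sec j ↔ ∀ χ, f χ ∈ G.block χ j := by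
  refine ⟨fun h χ => ?_, fun h => G.mem_Sec.mpr ⟨f, h, rfl⟩⟩
  obtain ⟨g, hg, he⟩ := G.mem_Sec.mp h
  exact K.Φ_injective he ▸ hg χ

theorem monomial_mem_Sec {j : ℕ} {χ : K.Idx} {φ : L} :
    algebraMap L M φ * K.rx χ ∈ G.Sec j ↔ φ ∈ G.block χ j := by
  have h : algebraMap L M φ * K.rx χ = K.Φ (Pi.single χ φ) := by
    rw [Kummer.Φ_apply, Finset.sum_eq_single χ (fun ρ _ hρ => by simp [hρ]) (by simp)]
    simp
  rw [h, Φ_mem_Sec]
  refine ⟨fun h' => by simpa using h' χ, fun h' ρ => ?_⟩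
  by_cases hρ : ρ = χ
  · subst hρ; simpa using h'
  · simp [hρ]

/-- To prove a linear property of a piece it is enough to prove it for its monomials. -/
theorem Sec_le {j : ℕ} {P : Submodule k M}
    (h : ∀ χ φ, φ ∈ G.block χ j → algebraMap L M φ * K.rx χ ∈ P) : G.Sec j ≤ P := by
  intro z hz
  obtain ⟨f, hf, rfl⟩ := G.mem_Sec.mp hz
  rw [Kummer.Φ_apply]
  exact sum_mem fun χ _ => h χ _ (hf χ)

theorem mul_mem_Sec {i j : ℕ} {a b : M} (ha : a ∈ G.Sec i) (hb : b ∈ G.Sec j) :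
    a * b ∈ G.Sec (i + j) := by
  obtain ⟨f, hf, rfl⟩ := G.mem_Sec.mp ha
  obtain ⟨g, hg, rfl⟩ := G.mem_Sec.mp hb
  rw [Kummer.Φ_apply, Kummer.Φ_apply, Finset.sum_mul_sum]
  refine sum_mem fun χ _ => sum_mem fun χ' _ => ?_
  have : algebraMap L M (f χ) * K.rx χ * (algebraMap L M (g χ') * K.rx χ') =
      algebraMap L M (f χ * g χ' * K.carry χ χ') * K.rx (K.add χ χ') := by
    rw [mul_mul_mul_comm, K.rx_mul, map_mul, map_mul]; ring
  rw [this, monomial_mem_Sec]
  exact G.block_mul (hf χ) (hg χ')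

theorem one_mem_Sec : (1 : M) ∈ G.Sec 0 := by
  have h : (1 : L) ∈ G.block K.zeroIdx 0 := by simpa [mem_block, Kummer.Z] using G.adm_one
  simpa using G.monomial_mem_Sec.mpr h

theorem apply_mem_Sec (σ : M ≃ₐ[L] M) {j : ℕ} {z : M} (hz : z ∈ G.Sec j) : σ z ∈ G.Sec j := by
  obtain ⟨f, hf, rfl⟩ := G.mem_Sec.mp hz
  rw [Kummer.apply_Φ, Φ_mem_Sec]
  exact fun χ => Submodule.smul_mem _ _ (hf χ)

theorem expand_injective (j : ℕ) : Function.Injective (G.expand j) := fun _ _ h =>
  funext fun χ => Subtype.ext (congrFun (K.Φ_injective h) χ)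

theorem finrank_Sec (j : ℕ) [∀ χ, FiniteDimensional k (G.block χ j)] :
    Module.finrank k (G.Sec j) = ∑ χ, Module.finrank k (G.block χ j) :=
  (LinearMap.finrank_range_of_inj (G.expand_injective j)).trans (Module.finrank_pi_fintype k)

instance finiteDimensional_Sec (j : ℕ) [∀ χ, FiniteDimensional k (G.block χ j)] :
    FiniteDimensional k (G.Sec j) :=
  inferInstanceAs (FiniteDimensional k (LinearMap.range (G.expand j)))

/-- The graded ring as polynomials over `M`. -/
noncomputable def ring : Subalgebra k M[X] where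
  carrier := {p | ∀ j, p.coeff j ∈ G.Sec j}
  zero_mem' := fun j => by simp
  one_mem' := fun j => by
    rw [coeff_one]
    split_ifs with h
    · subst h; exact G.one_mem_Sec
    · exact zero_mem _
  add_mem' := fun {p q} hp hq j => by simpa using add_mem (hp j) (hq j)
  mul_mem' := fun {p q} hp hq j => by
    rw [coeff_mul]
    refine sum_mem fun x hx => ?_
    rw [Finset.HasAntidiagonal.mem_antidiagonal] at hx
    exact hx ▸ G.mul_mem_Sec (hp x.1) (hq x.2)
  algebraMap_mem' := fun a j => by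
    rw [IsScalarTower.algebraMap_apply k M M[X], ← C_eq_algebraMap, coeff_C]
    split_ifs with h
    · subst h
      rw [Algebra.algebraMap_eq_smul_one]
      exact Submodule.smul_mem _ a G.one_mem_Sec
    · exact zero_mem _

theorem mem_ring {p : M[X]} : p ∈ G.ring ↔ ∀ j, p.coeff j ∈ G.Sec j := Iff.rfl

end Grad

end Vale.Agent.P190.Example
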