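import Vale.Agent.P190.Example.Jets

/-!
# P190 Module 6: the hexagon of exponents and the dimension of a block
-/

namespace Vale.Agent.P190.Example

open MvPolynomial

set_option linter.unusedSectionVars false

variable {k : Type} [Field k] [Infinite k] (D : Par k)

/-- A hexagon of exponents. -/
structure Hexa where
  A : ℕ
  B : ℕ
  T : ℕ
  E : ℕ

/-- Membership of an exponent in a hexagon. -/
def Hexa.Mem (H : Hexa) (d : Fin 2 →₀ ℕ) : Prop :=
  d 0 ≤ H.A ∧ d 1 ≤ H.B ∧ d 0 + d 1 ≤ H.T ∧ H.E ≤ d 0 + d 1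

/-- The polynomials supported in a hexagon. -/
noncomputable def Hexa.span (H : Hexa) (k : Type) [Field k] : Submodule k (P2 k) where
  carrier := {p | ∀ d ∈ p.support, H.Mem d}
  zero_mem' := by simp
  add_mem' {p q} hp hq d hd := by
    rcases Finset.mem_union.mp (support_add hd) with h | h
    exacts [hp d h, hq d h]
  smul_mem' a p hp d hd := hp d (support_smul hd)

theorem Hexa.mem_span {H : Hexa} {p : P2 k} : p ∈ H.span k ↔ ∀ d ∈ p.support, H.Mem d := Iff.rfl

theorem Hexa.monomial_mem {H : Hexa} {d : Fin 2 →₀ ℕ} (a : k) (h : H.Mem d) :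
    (monomial d a : P2 k) ∈ H.span k := fun e he => by
  rw [Finset.mem_singleton.mp (support_monomial_subset he)]; exact h

/-- The exponents of a hexagon as pairs. -/
def Hexa.pairs (H : Hexa) : Finset (ℕ × ℕ) :=
  (Finset.range (H.A + 1) ×ˢ Finset.range (H.B + 1)).filter
    fun q => q.1 + q.2 ≤ H.T ∧ H.E ≤ q.1 + q.2

theorem Hexa.mem_pairs {H : Hexa} {q : ℕ × ℕ} : q ∈ H.pairs ↔ H.Mem (ex q) := by
  simp [Hexa.pairs, Hexa.Mem, ex]; omega

theorem card_pairs (H : Hexa) (h1 : H.E ≤ H.A) (h2 : H.E ≤ H.B) (h3 : H.T ≤ H.A + H.B)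
    (h4 : H.A ≤ H.T) (h5 : H.B ≤ H.T) (h6 : H.E ≤ H.T + 1) :
    2 * H.pairs.card + H.E * (H.E + 1) + (H.A + H.B - H.T) * (H.A + H.B - H.T + 1) =
      2 * ((H.A + 1) * (H.B + 1)) := by
  classical
  set box := Finset.range (H.A + 1) ×ˢ Finset.range (H.B + 1) with hbox
  set U := H.A + H.B - H.T with hU
  have hlow : tri H.E ⊆ box := fun q hq => by
    rw [mem_tri] at hq; simp [hbox]; omega
  have hhigh : (tri U).image (fun q => (H.A - q.1, H.B - q.2)) ⊆ box := fun q hq => by
    obtain ⟨r, hr, rfl⟩ := Finset.mem_image.mp hq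
    simp [hbox]
  have hinj : Set.InjOn (fun q : ℕ × ℕ => (H.A - q.1, H.B - q.2)) (tri U) := by
    intro a ha b hb hab
    rw [Finset.mem_coe, mem_tri] at ha hb
    simp only [Prod.mk.injEq] at hab
    exact Prod.ext (by omega) (by omega)
  have hdisj : Disjoint (tri H.E) ((tri U).image (fun q => (H.A - q.1, H.B - q.2))) :=
    Finset.disjoint_left.mpr fun q hq hq' => by
      obtain ⟨r, hr, rfl⟩ := Finset.mem_image.mp hq'
      rw [mem_tri] at hq hr
      simp at hq; omega
  have hsplit : H.pairs = box \ (tri H.E ∪ (tri U).image (fun q => (H.A - q.1, H.B - q.2))) := by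
    ext ⟨i, j⟩
    simp only [Hexa.pairs, hbox, Finset.mem_filter, Finset.mem_product, Finset.mem_range,
      Finset.mem_sdiff, Finset.mem_union, Finset.mem_image, mem_tri, Prod.mk.injEq, Prod.exists]
    constructor
    · rintro ⟨hb, ht, he⟩
      exact ⟨hb, by rintro (h | ⟨a, b, h, ha, hb'⟩) <;> omega⟩
    · rintro ⟨hb, hn⟩
      push Not at hn
      refine ⟨hb, ?_, hn.1⟩
      by_contra ht
      exact hn.2 (H.A - i) (H.B - j) (by omega) (by omega) (by omega)
  have := Finset.card_sdiff_add_card_eq_card (Finset.union_subset hlow hhigh)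
  rw [← hsplit, Finset.card_union_of_disjoint hdisj, Finset.card_image_of_injOn hinj,
    Finset.card_product, Finset.card_range, Finset.card_range] at this
  have hE := card_tri H.E
  have hUc := card_tri U
  linarith

/-- The monomial basis of the polynomials supported in a hexagon. -/
theorem Hexa.finrank_span (H : Hexa) :
    Module.finrank k (H.span k) = H.pairs.card ∧ FiniteDimensional k (H.span k) := by
  classical
  let φ : (H.pairs → k) →ₗ[k] P2 k := Fintype.linearCombination k fun q => monomial (ex q.1) 1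
  have hval : ∀ (f : H.pairs → k) (q : H.pairs), coeff (ex q.1) (φ f) = f q := fun f q => by
    rw [Fintype.linearCombination_apply, coeff_sum, Finset.sum_eq_single q]
    · simp
    · intro b _ hb
      rw [coeff_smul, coeff_monomial, if_neg (fun h => hb (Subtype.ext (ex_inj h))), smul_zero]
    · simp
  have hinj : Function.Injective φ := fun f g h => funext fun q => by
    rw [← hval f, ← hval g, h]
  have hrange : LinearMap.range φ = H.span k := by
    refine le_antisymm ?_ fun p hp => ?_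
    · rintro _ ⟨f, rfl⟩
      rw [Fintype.linearCombination_apply]
      exact sum_mem fun q _ =>
        Submodule.smul_mem _ _ (Hexa.monomial_mem 1 (Hexa.mem_pairs.mp q.2))
    · refine ⟨fun q => coeff (ex q.1) p, MvPolynomial.ext _ _ fun d => ?_⟩
      by_cases hd : (d 0, d 1) ∈ H.pairs
      · rw [eq_ex d]; exact hval _ ⟨_, hd⟩
      · have hp0 : coeff d p = 0 := by
          by_contra hne
          exact hd (Hexa.mem_pairs.mpr (eq_ex d ▸ hp d (mem_support_iff.mpr hne)))
        rw [hp0, Fintype.linearCombination_apply, coeff_sum]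
        refine Finset.sum_eq_zero fun q _ => ?_
        rw [coeff_smul, coeff_monomial, if_neg, smul_zero]
        intro h
        exact hd (by rw [← h]; simpa [ex] using q.2)
  rw [← hrange]
  exact ⟨(LinearMap.finrank_range_of_inj hinj).trans (by simp), inferInstance⟩

theorem ordAt_origin_iff {n : ℕ} {p : P2 k} :
    (n : ℕ∞) ≤ ordAt (0 : Fin 2 → k) p ↔ ∀ d ∈ p.support, n ≤ d 0 + d 1 := by
  have hs : shift (0 : Fin 2 → k) p = p := by simp [shift]
  rw [le_ordAt, hs]
  constructor
  · intro h d hd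
    by_contra hlt
    exact mem_support_iff.mp hd (h d (by rw [eq_ex d, degree_ex]; omega))
  · intro h d hd
    by_contra hne
    have := h d (mem_support_iff.mpr hne)
    rw [eq_ex d, degree_ex] at hd
    omega

theorem totalDegree_le_iff {n : ℕ} {p : P2 k} :
    p.totalDegree ≤ n ↔ ∀ d ∈ p.support, d 0 + d 1 ≤ n := by
  have hsum : ∀ d : Fin 2 →₀ ℕ, (d.sum fun _ e => e) = d 0 + d 1 := fun d => by
    rw [Finsupp.sum_fintype _ _ (fun _ => rfl), Fin.sum_univ_two]
  simp [totalDegree, Finset.sup_le_iff, hsum]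

namespace Par

/-- The hexagon of `u^a v^b w^c` in degree `j`. -/
def hexa (χ : D.Ix) (j : ℕ) : Hexa :=
  ⟨2 * j - D.exX χ, 2 * j - D.exY χ, 3 * j - D.tot χ, j - (χ 0 : ℕ)⟩

/-- The allowed polynomials as a submodule. -/
noncomputable def pblock (χ : D.Ix) (j : ℕ) : Submodule k (P2 k) :=
  (D.hexa χ j).span k ⊓ D.van (D.gridOrd χ j)

theorem ex_bounds (χ : D.Ix) :
    D.exX χ ≤ 2 * D.m ∧ D.exY χ ≤ 2 * D.m ∧ D.tot χ ≤ 3 * D.m ∧ (χ 0 : ℕ) ≤ D.m ∧
      D.exX χ ≤ D.tot χ ∧ D.exY χ ≤ D.tot χ ∧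
      D.tot χ = (χ 0 : ℕ) + χ 1 + χ 2 := by
  have := (χ 0).isLt; have := (χ 1).isLt; have := (χ 2).isLt
  simp only [exX, exY, tot, Fin.sum_univ_three]
  refine ⟨?_, ?_, ?_, ?_, ?_, ?_, ?_⟩   <;> first | trivial | omega

theorem PBlock_iff {χ : D.Ix} {j : ℕ} (hj : 2 * D.m ≤ j) {p : P2 k} :
    D.PBlock χ j p ↔ p ∈ D.pblock χ j := by
  obtain ⟨b1, b2, b3, -, -, -, -⟩ := D.ex_bounds χ
  simp only [pblock, Submodule.mem_inf, Hexa.mem_span, Hexa.Mem, hexa, mem_van]
  constructor
  · intro h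
    refine ⟨fun d hd => ⟨?_, ?_, ?_, ?_⟩, h.points⟩
    · have := monomial_le_degreeOf 0 hd; have := h.degX; omega
    · have := monomial_le_degreeOf 1 hd; have := h.degY; omega
    · have := totalDegree_le_iff.mp le_rfl d hd; have := h.deg; omega
    · exact ordAt_origin_iff.mp h.origin d hd
  · rintro ⟨h, hg⟩
    refine ⟨?_, ?_, ?_, ordAt_origin_iff.mpr fun d hd => (h d hd).2.2.2, hg⟩
    · have : degreeOf 0 p ≤ 2 * j - D.exX χ := degreeOf_le_iff.mpr fun d hd => (h d hd).1
      omega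
    · have : degreeOf 1 p ≤ 2 * j - D.exY χ := degreeOf_le_iff.mpr fun d hd => (h d hd).2.1
      omega
    · have : p.totalDegree ≤ 3 * j - D.tot χ := totalDegree_le_iff.mpr fun d hd => (h d hd).2.2.1
      omega

theorem block_eq_map {χ : D.Ix} {j : ℕ} (hj : 2 * D.m ≤ j) :
    D.grad.block χ j =
      (D.pblock χ j).map (IsScalarTower.toAlgHom k (P2 k) (L2 k)).toLinearMap := by
  ext φ
  rw [D.mem_block_iff (χ := χ), Submodule.mem_map]
  constructor
  · rintro (rfl | ⟨p, rfl, hp⟩)
    · exact ⟨0, zero_mem _, map_zero _⟩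
    · exact ⟨p, (D.PBlock_iff hj).mp hp, rfl⟩
  · rintro ⟨p, hp, rfl⟩
    exact Or.inr ⟨p, rfl, (D.PBlock_iff hj).mpr hp⟩

theorem finrank_block_eq {χ : D.Ix} {j : ℕ} (hj : 2 * D.m ≤ j) :
    Module.finrank k (D.grad.block χ j) = Module.finrank k (D.pblock χ j) := by
  rw [D.block_eq_map hj]
  exact (Submodule.equivMapOfInjective _
    (IsFractionRing.injective (P2 k) (L2 k)) _).finrank_eq.symm

/-- Multiplication by a power of `XY`. -/
noncomputable def shiftXY (l : ℕ) : P2 k →ₗ[k] P2 k := LinearMap.mulLeft k ((X 0 * X 1) ^ l)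

theorem ordAt_XY (g : Fin D.m × Fin D.m) (l : ℕ) :
    ordAt (D.grid g) ((X 0 * X 1 : P2 k) ^ l) = 0 :=
  ordAt_eq_zero (by simp [grid, D.μ_ne, D.hμ.ne_zero D.m_pos.ne'])

theorem shiftXY_mem_van {e l : ℕ} {p : P2 k} :
    shiftXY l p ∈ D.van e ↔ p ∈ D.van e := by
  simp only [shiftXY, LinearMap.mulLeft_apply, mem_van, ordAt_mul, ordAt_XY, zero_add]

theorem shiftXY_jets_bijective (e l : ℕ) :
    Function.Bijective ((D.jets e).comp ((shiftXY l).comp (D.fam e))) := by
  have hinj : Function.Injective ((D.jets e).comp ((shiftXY l).comp (D.fam e))) := by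
    rw [injective_iff_map_eq_zero]
    intro f hf
    exact D.fam_inj (D.shiftXY_mem_van.mp (D.jets_eq_zero_iff.mp hf))
  refine ⟨hinj, (LinearMap.injective_iff_surjective_of_finrank_eq_finrank ?_).mp hinj⟩
  rw [Module.finrank_pi_fintype, Module.finrank_fintype_fun_eq_card]
  simp [mul_comm]

/-- The support of `(XY)^l fam`. -/
theorem fam_span (e l : ℕ) (f : tri e → Fin D.m × Fin D.m → k) :
    shiftXY l (D.fam e f) ∈
      (⟨l + D.m * e + D.m, l + D.m * e + D.m, 2 * l + D.m * e + D.m, 2 * l⟩ : Hexa).span k := by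
  classical
  set p := D.fam e f with hp
  have hdeg : p.totalDegree ≤ D.m * e + D.m := by
    rw [hp, fam_apply]
    refine totalDegree_finsetSum_le fun q _ => ?_
    refine (totalDegree_mul _ _).trans ?_
    have h1 : (D.low (f q)).totalDegree ≤ 2 * (D.m - 1) := by
      rw [low_apply]
      refine totalDegree_finsetSum_le fun r _ => (totalDegree_smul_le _ _).trans ?_
      refine (totalDegree_mul _ _).trans ?_
      simp only [totalDegree_X_pow]
      have := r.1.isLt; have := r.2.isLt; omega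
    have hv : ∀ i (n : ℕ), (D.vp i ^ n).totalDegree ≤ n * D.m := fun i n =>
      (totalDegree_pow _ _).trans (Nat.mul_le_mul_left _ ((totalDegree_sub _ _).trans (by simp)))
    have h2 := (totalDegree_mul (D.vp 0 ^ q.1.1) (D.vp 1 ^ q.1.2)).trans
      (add_le_add (hv 0 q.1.1) (hv 1 q.1.2))
    have hq := mem_tri.mp q.2
    have : (q.1.1 + q.1.2 + 1) * D.m ≤ e * D.m := Nat.mul_le_mul_right _ hq
    have hm := D.m_pos
    nlinarith [Nat.sub_add_cancel hm]
  intro d hd
  have hmono : ((X 0 * X 1 : P2 k) ^ l) = monomial (ex (l, l)) 1 := by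
    rw [mul_pow, X_pow_eq_monomial, X_pow_eq_monomial, monomial_mul, one_mul]
    rfl
  rw [shiftXY, LinearMap.mulLeft_apply, hmono, mem_support_iff, coeff_monomial_mul'] at hd
  split_ifs at hd with hle
  · have := totalDegree_le_iff.mp hdeg _ (mem_support_iff.mpr (right_ne_zero_of_mul hd))
    have h0 := hle 0
    have h1 := hle 1
    simp [ex, Finsupp.tsub_apply] at this h0 h1
    simp only [Hexa.Mem]
    omega
  · exact absurd rfl hd

theorem gridOrd_bound (χ : D.Ix) (j : ℕ) : D.m * D.gridOrd χ j ≤ j + D.m := by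
  have h := Nat.div_mul_le_self (j - D.tot χ + (D.m - 1)) D.m
  rw [gridOrd, mul_comm]
  omega

theorem fam_mem_hexa {χ : D.Ix} {j : ℕ} (hj : 10 * D.m + 2 ≤ j)
    (f : tri (D.gridOrd χ j) → Fin D.m × Fin D.m → k) :
    shiftXY ((j + 1) / 2) (D.fam _ f) ∈ (D.hexa χ j).span k := by
  intro d hd
  have h := D.fam_span _ _ f d hd
  obtain ⟨b1, b2, b3, b4, -, -, -⟩ := D.ex_bounds χ
  have hb := D.gridOrd_bound χ j
  simp only [Hexa.Mem, hexa] at h ⊢
  omega

theorem finrank_pblock {χ : D.Ix} {j : ℕ} (hj : 10 * D.m + 2 ≤ j) :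
    Module.finrank k (D.pblock χ j) + D.m ^ 2 * (tri (D.gridOrd χ j)).card =
      (D.hexa χ j).pairs.card ∧ FiniteDimensional k (D.pblock χ j) := by
  obtain ⟨hH, hfd⟩ := (D.hexa χ j).finrank_span (k := k)
  haveI := hfd
  haveI : FiniteDimensional k (D.pblock χ j) :=
    Submodule.finiteDimensional_of_le (inf_le_left : D.pblock χ j ≤ _)
  refine ⟨?_, inferInstance⟩
  let ψ := (D.jets (D.gridOrd χ j)).comp ((D.hexa χ j).span k).subtype
  have hs : Function.Surjective ψ := fun y => by
    obtain ⟨f, hf⟩ := (D.shiftXY_jets_bijective (D.gridOrd χ j) ((j + 1) / 2)).2 y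
    exact ⟨⟨_, D.fam_mem_hexa hj f⟩, hf⟩
  have hk := LinearMap.finrank_range_add_finrank_ker ψ
  rw [LinearMap.range_eq_top.mpr hs, finrank_top, Module.finrank_fintype_fun_eq_card, hH] at hk
  have hker : Module.finrank k (LinearMap.ker ψ) = Module.finrank k (D.pblock χ j) := by
    have hcomap : LinearMap.ker ψ = (D.pblock χ j).comap ((D.hexa χ j).span k).subtype := by
      ext p
      simp only [LinearMap.mem_ker, ψ, LinearMap.comp_apply, Submodule.mem_comap,
        Submodule.subtype_apply, jets_eq_zero_iff, pblock, Submodule.mem_inf, SetLike.coe_mem,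
        true_and]
    rw [hcomap]
    exact (Submodule.comapSubtypeEquivOfLe (inf_le_left : D.pblock χ j ≤ _)).finrank_eq
  rw [hker] at hk
  simp only [JIdx, Fintype.card_prod, Fintype.card_fin, Fintype.card_coe] at hk
  rw [sq]
  omega

end Par

end Vale.Agent.P190.Example
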