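import Vale.Agent.P190.Example.Hex

/-!
# P190 Module 6: the Hilbert polynomial of the example
-/

namespace Vale.Agent.P190.Example

open MvPolynomial

set_option linter.unusedSectionVars false

variable {k : Type} [Field k] [Infinite k] (D : Par k)

theorem sum_range_cast (n : ℕ) :
    (∑ i ∈ Finset.range n, (i : ℚ)) = n * (n - 1) / 2 ∧
      (∑ i ∈ Finset.range n, (i : ℚ) ^ 2) = n * (n - 1) * (2 * n - 1) / 6 := by
  induction n with
  | zero => simp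
  | succ n ih =>
    rw [Finset.sum_range_succ, Finset.sum_range_succ, ih.1, ih.2]
    push_cast
    constructor <;> ring

namespace Par

theorem lt_gridOrd_iff (χ : D.Ix) (j n : ℕ) :
    n < D.gridOrd χ j ↔ D.m * n + D.tot χ < j := by
  have := D.gridOrd_le_iff χ j n
  omega

theorem sum_card_tri (j : ℕ) :
    ∑ χ : D.Ix, (tri (D.gridOrd χ j)).card = ∑ c : Fin D.m, (tri (j - (c : ℕ))).card := by
  classical
  rw [← Finset.card_sigma, ← Finset.card_sigma]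
  have hm := D.m_pos
  refine Finset.card_nbij'
    (fun x => ⟨x.1 2, ((x.1 0 : ℕ) + D.m * x.2.1, (x.1 1 : ℕ) + D.m * x.2.2)⟩)
    (fun x => ⟨![⟨x.2.1 % D.m, Nat.mod_lt _ hm⟩, ⟨x.2.2 % D.m, Nat.mod_lt _ hm⟩, x.1],
      (x.2.1 / D.m, x.2.2 / D.m)⟩) ?_ ?_ ?_ ?_
  · rintro ⟨χ, p, q⟩ h
    simp only [Finset.mem_coe, Finset.mem_sigma, Finset.mem_univ, true_and, mem_tri,
      lt_gridOrd_iff] at h ⊢
    obtain ⟨-, -, -, -, -, -, ht⟩ := D.ex_bounds χ
    rw [mul_add] at h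
    omega
  · rintro ⟨c, u, v⟩ h
    simp only [Finset.mem_coe, Finset.mem_sigma, Finset.mem_univ, true_and, mem_tri,
      lt_gridOrd_iff, tot, Fin.sum_univ_three] at h ⊢
    simp only [Matrix.cons_val_zero, Matrix.cons_val_one, Matrix.cons_val, mul_add]
    have := Nat.mod_add_div u D.m
    have := Nat.mod_add_div v D.m
    omega
  · rintro ⟨χ, p, q⟩ -
    have h0 := (χ 0).isLt
    have h1 := (χ 1).isLt
    simp only [Sigma.mk.injEq, heq_eq_eq, Prod.mk.injEq]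
    refine ⟨?_, ?_, ?_⟩
    · funext i
      fin_cases i <;> simp [Fin.ext_iff, Nat.add_mul_mod_self_left, Nat.mod_eq_of_lt h0,
        Nat.mod_eq_of_lt h1]
    · rw [Nat.add_mul_div_left _ _ hm, Nat.div_eq_of_lt h0, zero_add]
    · rw [Nat.add_mul_div_left _ _ hm, Nat.div_eq_of_lt h1, zero_add]
  · rintro ⟨c, u, v⟩ -
    simp [Nat.mod_add_div]

/-- The value of the Hilbert polynomial. -/
def hilb (j : ℚ) : ℚ :=
  (D.m : ℚ) ^ 3 * (5 / 2 * j ^ 2 - 5 / 2 * ((D.m : ℚ) - 2) * j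
    + (7 * (D.m : ℚ) ^ 2 - 30 * D.m + 35) / 12)

theorem finiteDimensional_block {χ : D.Ix} {j : ℕ} (hj : 10 * D.m + 2 ≤ j) :
    FiniteDimensional k (D.grad.block χ j) := by
  rw [D.block_eq_map (by omega)]
  have := (D.finrank_pblock (χ := χ) hj).2
  infer_instance

theorem finrank_block {χ : D.Ix} {j : ℕ} (hj : 10 * D.m + 2 ≤ j) :
    (Module.finrank k (D.grad.block χ j) : ℚ) =
      (2 * (j : ℚ) + 1 - (χ 0 : ℕ) - (χ 2 : ℕ)) * (2 * (j : ℚ) + 1 - (χ 0 : ℕ) - (χ 1 : ℕ))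
      - ((j : ℚ) - (χ 0 : ℕ)) * ((j : ℚ) - (χ 0 : ℕ) + 1)
      - (D.m : ℚ) ^ 2 * ((tri (D.gridOrd χ j)).card : ℚ) := by
  obtain ⟨b1, b2, b3, b4, b5, b6, ht⟩ := D.ex_bounds χ
  have h0 := (χ 0).isLt; have h1 := (χ 1).isLt; have h2 := (χ 2).isLt
  have hp := (D.finrank_pblock (χ := χ) hj).1
  have hc := card_pairs (D.hexa χ j) (by simp [hexa, exX]; omega) (by simp [hexa, exY]; omega)
    (by simp [hexa, exX, exY]; omega) (by simp [hexa, exX]; omega) (by simp [hexa, exY]; omega)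
    (by simp [hexa, ht]; omega)
  rw [D.finrank_block_eq (by omega)]
  generalize (D.hexa χ j).pairs.card = Pc at hc hp
  simp only [hexa, exX, exY, ht] at hc
  obtain ⟨E, hE⟩ : ∃ E, E = j - (χ 0 : ℕ) := ⟨_, rfl⟩
  obtain ⟨A, hA⟩ : ∃ A, A = 2 * j - ((χ 0 : ℕ) + χ 2) := ⟨_, rfl⟩
  obtain ⟨B, hB⟩ : ∃ B, B = 2 * j - ((χ 0 : ℕ) + χ 1) := ⟨_, rfl⟩
  have hU : A + B - (3 * j - ((χ 0 : ℕ) + χ 1 + χ 2)) = E := by omega
  rw [← hE, ← hA, ← hB, hU] at hc
  have hcq := congrArg (Nat.cast : ℕ → ℚ) hc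
  have hpq := congrArg (Nat.cast : ℕ → ℚ) hp
  push_cast at hcq hpq
  have eE : (E : ℚ) = (j : ℚ) - (χ 0 : ℕ) := by rw [hE, Nat.cast_sub (by omega)]
  have eA : (A : ℚ) = 2 * (j : ℚ) - (χ 0 : ℕ) - (χ 2 : ℕ) := by
    rw [hA, Nat.cast_sub (by omega)]; push_cast; ring
  have eB : (B : ℚ) = 2 * (j : ℚ) - (χ 0 : ℕ) - (χ 1 : ℕ) := by
    rw [hB, Nat.cast_sub (by omega)]; push_cast; ring
  rw [eE, eA, eB] at hcq
  linear_combination hpq + hcq / 2

theorem finrank_Sec {j : ℕ} (hj : 10 * D.m + 2 ≤ j) :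
    (Module.finrank k (D.grad.Sec j) : ℚ) = D.hilb j ∧ FiniteDimensional k (D.grad.Sec j) := by
  classical
  haveI : ∀ χ, FiniteDimensional k (D.grad.block χ j) := fun χ => D.finiteDimensional_block hj
  refine ⟨?_, inferInstance⟩
  have hsum : (Module.finrank k (D.grad.Sec j) : ℚ) =
      ∑ χ : D.Ix, (Module.finrank k (D.grad.block χ j) : ℚ) := by
    rw [D.grad.finrank_Sec j]; push_cast; rfl
  rw [hsum, Finset.sum_congr rfl (fun χ _ => D.finrank_block (χ := χ) hj), Finset.sum_sub_distrib,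
    ← Finset.mul_sum]
  have htri : (∑ χ : D.Ix, ((tri (D.gridOrd χ j)).card : ℚ)) =
      ∑ c ∈ Finset.range D.m, ((j : ℚ) - c) * ((j : ℚ) - c + 1) / 2 := by
    rw [← Nat.cast_sum, D.sum_card_tri, ← Fin.sum_univ_eq_sum_range
      (fun c => ((j : ℚ) - c) * ((j : ℚ) - c + 1) / 2), Nat.cast_sum]
    refine Finset.sum_congr rfl fun c _ => ?_
    have h := congrArg (Nat.cast : ℕ → ℚ) (card_tri (j - (c : ℕ)))
    push_cast [Nat.cast_sub (show (c : ℕ) ≤ j by have := c.isLt; omega)] at h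
    linarith
  obtain ⟨s1, s2⟩ := sum_range_cast D.m
  have hclosed : (∑ c ∈ Finset.range D.m, ((j : ℚ) - c) * ((j : ℚ) - c + 1) / 2) =
      (D.m : ℚ) * ((j : ℚ) ^ 2 + j) / 2 - (2 * (j : ℚ) + 1) / 2 * (D.m * (D.m - 1) / 2) +
        (D.m * (D.m - 1) * (2 * D.m - 1) / 6) / 2 := by
    have : ∀ c : ℕ, ((j : ℚ) - c) * ((j : ℚ) - c + 1) / 2 =
        ((j : ℚ) ^ 2 + j) / 2 - (2 * (j : ℚ) + 1) / 2 * c + (c : ℚ) ^ 2 / 2 := fun c => by ring
    rw [Finset.sum_congr rfl (fun c _ => this c), Finset.sum_add_distrib, Finset.sum_sub_distrib,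
      ← Finset.mul_sum, ← Finset.sum_div, ← Finset.sum_div, s1, s2, Finset.sum_const,
      Finset.card_range, nsmul_eq_mul]
  let e : Fin D.m × Fin D.m × Fin D.m ≃ D.Ix :=
    { toFun := fun x => ![x.1, x.2.1, x.2.2]
      invFun := fun χ => (χ 0, χ 1, χ 2)
      left_inv := fun x => by simp
      right_inv := fun χ => by funext i; fin_cases i <;> simp }
  rw [htri, hclosed, ← Equiv.sum_comp e, Fintype.sum_prod_type]
  simp only [Fintype.sum_prod_type, e, Equiv.coe_fn_mk, Matrix.cons_val_zero, Matrix.cons_val_one,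
    Matrix.cons_val]
  rw [← Fin.sum_univ_eq_sum_range] at s1 s2
  have hf : ∀ a b c : ℚ, (2 * (j : ℚ) + 1 - a - c) * (2 * (j : ℚ) + 1 - a - b) -
      ((j : ℚ) - a) * ((j : ℚ) - a + 1) =
      ((2 * (j : ℚ) + 1) ^ 2 - (j : ℚ) ^ 2 - j) - (2 * (j : ℚ) + 1) * a - (2 * (j : ℚ) + 1) * b
        - (2 * (j : ℚ) + 1) * c + a * b + a * c + b * c := fun a b c => by ring
  simp only [hf, hilb, Finset.sum_sub_distrib, Finset.sum_add_distrib, Finset.sum_const,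
    Finset.card_univ, Fintype.card_fin, nsmul_eq_mul, ← Finset.mul_sum, ← Finset.sum_mul, s1, s2]
  ring

end Par

end Vale.Agent.P190.Example
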