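import Vale.Agent.P190.Example.Gen
import Vale.Agent.P190.Example.Criterion

/-!
# P190 Module 6: the pieces are integral over `k[η, ζ]`; `η, ζ` are independent
-/

namespace Vale.Agent.P190.Example

open MvPolynomial

set_option linter.unusedSectionVars false

/-- Valuative criterion for integrality over an adjoined subalgebra. -/
theorem isIntegral_adjoin_of_valuation {k K : Type} [Field k] [Field K] [Algebra k K] (G : Set K)
    (x : K) (h : ∀ V : ValuationSubring K, (∀ a, algebraMap k K a ∈ V) → (∀ g ∈ G, g ∈ V) → x ∈ V) :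
    IsIntegral (Algebra.adjoin k G) x := by
  have key : x ∈ integralClosure (Subring.closure (Set.range (algebraMap k K) ∪ G)) K := by
    rw [← Subalgebra.mem_toSubring, ← iInf_valuationSubring_superset, Subring.mem_iInf]
    rintro ⟨V, hV⟩
    exact h V (fun a => hV (Set.mem_union_left _ ⟨a, rfl⟩)) (fun g hg => hV (Set.mem_union_right _ hg))
  rw [← Algebra.adjoin_eq_ring_closure (R := k) (s := G)] at key
  exact key

/-- Two elements over which a field containing the plane is algebraic are independent. -/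
theorem indep_of_isAlgebraic {k K : Type} [Field k] [Field K] [Algebra k K] {η ζ : K}
    (f : MvPolynomial (Fin 2) k →ₐ[k] K) (hf : Function.Injective f)
    [Algebra.IsAlgebraic (ratField k η ζ) K] : AlgebraicIndependent k ![η, ζ] := by
  have hr : Set.range ![η, ζ] = ({η, ζ} : Set K) := by
    simp [Matrix.range_cons, Set.pair_comm]
  haveI : Algebra.IsAlgebraic (Algebra.adjoin k (Set.range ![η, ζ])) K := by
    rw [hr]
    exact IntermediateField.isAlgebraic_adjoin_iff_top.mp ‹Algebra.IsAlgebraic (ratField k η ζ) K›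
  refine (Algebra.IsAlgebraic.isTranscendenceBasis_of_le_trdeg_of_finite (R := k) ![η, ζ] ?_).1
  have := trdeg_le_of_injective f hf
  rw [MvPolynomial.trdeg_of_isDomain] at this
  simpa using this

variable {k : Type} [Field k] [Infinite k] (D : Par k) {s : k}

namespace Par

/-- Each valuation is bounded on degree `n` by the `n`-th power of its bound on the parameters. -/
theorem val_le (hs : D.Good s) (V : ValuationSubring D.K)
    (hk : ∀ a : k, algebraMap k D.K a ∈ V) {g : ValuationSubring.ValueGroup V}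
    (hT : ∀ i, V.valuation (D.TK s i) ≤ g) {n : ℕ} {z : D.K} (hz : (z : M2 k) ∈ D.grad.Sec n) :
    V.valuation z ≤ g ^ n := by
  let f : P2 k →+* D.K := (algebraMap (L2 k) D.K).comp (algebraMap (P2 k) (L2 k))
  have hf : ∀ p, ((f p : D.K) : M2 k) = algebraMap (L2 k) (M2 k) (algebraMap (P2 k) (L2 k) p) :=
    fun p => rfl
  let w : Valuation (P2 k) (ValuationSubring.ValueGroup V) := V.valuation.comap f
  have hC : ∀ a : k, w (C a) ≤ 1 := fun a => by
    have : f (C a) = algebraMap k D.K a := by
      simp only [f, RingHom.comp_apply]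
      rw [← MvPolynomial.algebraMap_eq, ← IsScalarTower.algebraMap_apply k (P2 k) (L2 k),
        ← IsScalarTower.algebraMap_apply]
    show V.valuation (f (C a)) ≤ 1
    rw [this]; exact (V.valuation_le_one_iff _).mpr (hk a)
  have hμ : ∀ i : Fin 3, w (D.cpol i) * w (Par.conic s i) ^ D.m ≤ g ^ D.m := fun i => by
    have h := pow_le_pow_left' (hT i) D.m
    have e : D.TK s i ^ D.m = f (D.cpol i * Par.conic s i ^ D.m) := Subtype.ext <| by
      rw [IntermediateField.coe_pow, hf, ← IsScalarTower.algebraMap_apply (P2 k) (L2 k) (M2 k)]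
      exact D.T_pow s i
    rw [← map_pow, e, map_mul, map_pow, map_mul, map_pow] at h
    exact h
  have hmono : ∀ χ φ, φ ∈ D.grad.block χ n →
      V.valuation ⟨_, D.monomial_mem χ φ⟩ ≤ g ^ n := by
    intro χ φ hφ
    obtain ⟨p, hp, hadm⟩ := hφ
    have h := Val.adm_le w hC hs hμ hadm
    refine le_of_pow_le_pow_left₀ D.m_pos.ne' zero_le ?_
    have e : (⟨_, D.monomial_mem χ φ⟩ : D.K) ^ D.m = f p := Subtype.ext <| by
      rw [IntermediateField.coe_pow, hf, hp]
      exact D.kum.monomial_pow χ φ
    rw [← map_pow, e, ← pow_mul, mul_comm, pow_mul]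
    exact h
  obtain ⟨c, hc, hcz⟩ := D.grad.mem_Sec.mp hz
  have : z = ∑ χ, (⟨_, D.monomial_mem χ (c χ)⟩ : D.K) := Subtype.ext <| by
    rw [← hcz, Kummer.Φ_apply]
    simp
  rw [this]
  exact Valuation.map_sum_le _ fun χ _ => hmono χ _ (hc χ)

theorem coe_eta (s : k) : ((D.eta s : D.K) : M2 k) = D.T s 1 / D.T s 0 := by
  rw [eta, IntermediateField.coe_div]; rfl

theorem coe_zeta (s : k) : ((D.zeta s : D.K) : M2 k) = D.T s 2 / D.T s 0 := by
  rw [zeta, IntermediateField.coe_div]; rfl

/-- In the chart where `T i` is largest, the pieces are integral. -/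
theorem isIntegral_chart (hs : D.Good s) (i : Fin 3) {n : ℕ} {q : D.K} (hq : q ∈ D.R s n) :
    IsIntegral (Algebra.adjoin k (Set.range fun l => D.TK s l / D.TK s i))
      (q * (D.TK s 0 / D.TK s i) ^ n) := by
  refine isIntegral_adjoin_of_valuation _ _ fun V hk hW => ?_
  have h0 : V.valuation (D.TK s i) ≠ 0 := by simp [D.TK_ne]
  have hT : ∀ l, V.valuation (D.TK s l) ≤ V.valuation (D.TK s i) := fun l => by
    have h1 : V.valuation (D.TK s l / D.TK s i) ≤ 1 :=
      (V.valuation_le_one_iff _).mpr (hW _ ⟨l, rfl⟩)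
    rwa [map_div₀, div_le_one₀ (zero_lt_iff.mpr h0)] at h1
  have h := D.val_le hs V hk hT (z := q * D.TK s 0 ^ n) (by
    rw [IntermediateField.coe_mul, IntermediateField.coe_pow]; exact D.mem_R.mp hq)
  rw [← V.valuation_le_one_iff, map_mul, map_pow, map_div₀, div_pow, ← mul_div_assoc,
    div_le_one₀ (pow_pos (zero_lt_iff.mpr h0) n)]
  rw [map_mul, map_pow] at h
  exact h

theorem range_chart0 (s : k) :
    Algebra.adjoin k (Set.range fun l => D.TK s l / D.TK s 0) =
      Algebra.adjoin k ({D.eta s, D.zeta s} : Set D.K) := by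
  refine le_antisymm (Algebra.adjoin_le ?_) (Algebra.adjoin_mono ?_)
  · rintro _ ⟨l, rfl⟩
    fin_cases l
    · simp [D.TK_ne]
    · exact Algebra.subset_adjoin (Or.inl rfl)
    · exact Algebra.subset_adjoin (Or.inr rfl)
  · rintro _ (rfl | rfl)
    exacts [⟨1, rfl⟩, ⟨2, rfl⟩]

/-- The pieces are integral over `k[η, ζ]`. -/
theorem isIntegral_R (hs : D.Good s) {n : ℕ} {q : D.K} (hq : q ∈ D.R s n) :
    IsIntegral (Algebra.adjoin k ({D.eta s, D.zeta s} : Set D.K)) q := by
  have h := D.isIntegral_chart hs 0 hq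
  rw [div_self (D.TK_ne s 0), one_pow, mul_one] at h
  rwa [D.range_chart0] at h

theorem isAlgebraic_K (hs : D.Good s) :
    Algebra.IsAlgebraic (ratField k (D.eta s) (D.zeta s)) D.K := by
  let F := ratField k (D.eta s) (D.zeta s)
  have hA : ∀ q ∈ D.R s D.n0, IsAlgebraic F q := fun q hq => by
    have h := D.isIntegral_R hs (n := D.n0) hq
    have hle : Algebra.adjoin k ({D.eta s, D.zeta s} : Set D.K) ≤ F.toSubalgebra :=
      IntermediateField.algebra_adjoin_le_adjoin k _
    obtain ⟨p, hp, hpq⟩ := h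
    let incl := (Subalgebra.inclusion hle).toRingHom
    exact IsIntegral.isAlgebraic ⟨p.map incl, hp.map incl, by rw [Polynomial.eval₂_map]; exact hpq⟩
  have hgen := D.field_gen s ((algebraicClosure F D.K).restrictScalars k) fun q hq =>
    mem_algebraicClosure_iff.mpr (hA q hq)
  refine ⟨fun z => mem_algebraicClosure_iff.mp ?_⟩
  have : z ∈ (algebraicClosure F D.K).restrictScalars k := hgen ▸ IntermediateField.mem_top
  exact this

theorem indep (hs : D.Good s) : AlgebraicIndependent k ![D.eta s, D.zeta s] := by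
  haveI := D.isAlgebraic_K hs
  let f : P2 k →ₐ[k] D.K :=
    (IsScalarTower.toAlgHom k (L2 k) D.K).comp (IsScalarTower.toAlgHom k (P2 k) (L2 k))
  exact indep_of_isAlgebraic f
    ((algebraMap (L2 k) D.K).injective.comp (IsFractionRing.injective (P2 k) (L2 k)))

end Par

end Vale.Agent.P190.Example
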