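import Vale.Agent.P190.Example.Model

/-!
# P190 Module 6: jets at the grid points

The polynomials `∑ g X^r Y^r' A^q B^q'` (`A = X^m-1`, `B = Y^m-1`, `r,r' < m`, `q+q' < e`) give
every family of jets of order `< e` at the grid exactly once.
-/

namespace Vale.Agent.P190.Example

open MvPolynomial

set_option linter.unusedSectionVars false

variable {k : Type} [Field k] [Infinite k] (D : Par k)

/-- An exponent of the plane. -/
noncomputable def ex (q : ℕ × ℕ) : Fin 2 →₀ ℕ := Finsupp.single 0 q.1 + Finsupp.single 1 q.2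

theorem ex_inj {q q' : ℕ × ℕ} (h : ex q = ex q') : q = q' :=
  Prod.ext (by simpa [ex] using DFunLike.congr_fun h 0) (by simpa [ex] using DFunLike.congr_fun h 1)

theorem degree_ex (q : ℕ × ℕ) : (ex q).degree = q.1 + q.2 := by simp [ex, map_add]

theorem eq_ex (d : Fin 2 →₀ ℕ) : d = ex (d 0, d 1) := by
  ext i
  fin_cases i <;> simp [ex]

/-- The pairs of total size `< e`. -/
def tri (e : ℕ) : Finset (ℕ × ℕ) :=
  (Finset.range e ×ˢ Finset.range e).filter fun q => q.1 + q.2 < e

theorem mem_tri {e : ℕ} {q : ℕ × ℕ} : q ∈ tri e ↔ q.1 + q.2 < e := by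
  simp [tri]; omega

theorem card_tri (e : ℕ) : 2 * (tri e).card = e * (e + 1) := by
  induction e with
  | zero => simp [tri]
  | succ e ih =>
    have h : tri (e + 1) = tri e ∪ Finset.HasAntidiagonal.antidiagonal e := by
      ext q; simp [mem_tri, Finset.HasAntidiagonal.mem_antidiagonal]; omega
    have hd : Disjoint (tri e) (Finset.HasAntidiagonal.antidiagonal e) := Finset.disjoint_left.mpr fun q hq hq' => by
      simp [mem_tri, Finset.HasAntidiagonal.mem_antidiagonal] at hq hq'; omega
    rw [h, Finset.card_union_of_disjoint hd, Finset.Nat.card_antidiagonal]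
    linarith

namespace Par

/-- `X^m - 1` and `Y^m - 1`. -/
noncomputable def vp (i : Fin 2) : P2 k := X i ^ D.m - 1

theorem eval_vp_grid (g : Fin D.m × Fin D.m) (i : Fin 2) : eval (D.grid g) (D.vp i) = 0 := by
  fin_cases i <;> simp [vp, grid, pow_grid]

theorem one_le_ordAt_vp (g : Fin D.m × Fin D.m) (i : Fin 2) :
    1 ≤ ordAt (D.grid g) (D.vp i) := by
  rw [← Nat.cast_one, le_ordAt]
  intro d hd
  rw [Nat.lt_one_iff, Finsupp.degree_eq_zero_iff] at hd
  rw [hd, coeff_zero_shift, eval_vp_grid]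

/-- The polynomials of order `≥ e` at every grid point. -/
def van (e : ℕ) : Submodule k (P2 k) where
  carrier := {p | ∀ g, (e : ℕ∞) ≤ ordAt (D.grid g) p}
  zero_mem' g := by simp
  add_mem' hp hq g := le_ordAt_add (hp g) (hq g)
  smul_mem' a _ hp g := le_ordAt_smul a (hp g)

theorem mem_van {e : ℕ} {p : P2 k} : p ∈ D.van e ↔ ∀ g, (e : ℕ∞) ≤ ordAt (D.grid g) p := Iff.rfl

theorem van_zero (p : P2 k) : p ∈ D.van 0 := fun g => by simp

theorem van_anti {e e' : ℕ} (h : e ≤ e') {p : P2 k} (hp : p ∈ D.van e') : p ∈ D.van e :=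
  fun g => le_trans (Nat.cast_le.mpr h) (hp g)

theorem mul_mem_van {e e' : ℕ} {p q : P2 k} (hp : p ∈ D.van e) (hq : q ∈ D.van e') :
    p * q ∈ D.van (e + e') := fun g => by
  rw [ordAt_mul, Nat.cast_add]; exact add_le_add (hp g) (hq g)

theorem vp_mem_van (i : Fin 2) : D.vp i ∈ D.van 1 := fun g => by
  simpa using D.one_le_ordAt_vp g i

theorem pow_vp_mem_van (i : Fin 2) (n : ℕ) : D.vp i ^ n ∈ D.van n := by
  induction n with
  | zero => exact D.van_zero _
  | succ n ih => rw [pow_succ]; exact D.mul_mem_van ih (D.vp_mem_van i)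

/-- The index set of the jets of order `< e`. -/
abbrev JIdx (e : ℕ) : Type := (Fin D.m × Fin D.m) × tri e

/-- The jets of order `< e`. -/
noncomputable def jets (e : ℕ) : P2 k →ₗ[k] (D.JIdx e → k) :=
  LinearMap.pi fun i => (lcoeff k (ex i.2.1)).comp (shift (D.grid i.1)).toLinearMap

theorem jets_apply (e : ℕ) (p : P2 k) (i : D.JIdx e) :
    D.jets e p i = coeff (ex i.2.1) (shift (D.grid i.1) p) := rfl

theorem jets_eq_zero_iff {e : ℕ} {p : P2 k} : D.jets e p = 0 ↔ p ∈ D.van e := by
  rw [mem_van]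
  simp only [le_ordAt, funext_iff, jets_apply, Pi.zero_apply]
  constructor
  · intro h g d hd
    rw [eq_ex d] at hd ⊢
    rw [degree_ex] at hd
    exact h (g, ⟨_, mem_tri.mpr hd⟩)
  · intro h i
    exact h i.1 _ (by rw [degree_ex]; exact mem_tri.mp i.2.2)

/-- The polynomial with the given coefficients of `X^r Y^r'`, `r, r' < m`. -/
noncomputable def low : (Fin D.m × Fin D.m → k) →ₗ[k] P2 k :=
  Fintype.linearCombination k fun r => X 0 ^ (r.1 : ℕ) * X 1 ^ (r.2 : ℕ)

theorem low_apply (c : Fin D.m × Fin D.m → k) :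
    D.low c = ∑ r, c r • (X 0 ^ (r.1 : ℕ) * X 1 ^ (r.2 : ℕ) : P2 k) := rfl

theorem low_eq_zero {c : Fin D.m × Fin D.m → k} (h : ∀ g, eval (D.grid g) (D.low c) = 0) :
    c = 0 := by
  classical
  have hzero : D.low c = 0 := by
    refine eq_zero_of_eval_zero_at_prod_finset _
      (fun _ => (Finset.range D.m).image (fun i => D.μ ^ i)) (fun i => ?_) (fun x hx => ?_)
    · rw [Finset.card_image_of_injOn (fun a ha b hb hab =>
        D.hμ.pow_inj (Finset.mem_range.mp ha) (Finset.mem_range.mp hb) hab), Finset.card_range]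
      refine lt_of_le_of_lt (b := D.m - 1) ?_ (by have := D.m_pos; omega)
      rw [low_apply, degreeOf_eq_sup, Finset.sup_le_iff]
      intro d hd
      obtain ⟨r, -, hr⟩ := Finset.mem_biUnion.mp (support_sum hd)
      have hrd := support_smul hr
      rw [X_pow_eq_monomial, X_pow_eq_monomial, monomial_mul, one_mul, support_monomial,
        if_neg one_ne_zero, Finset.mem_singleton] at hrd
      subst hrd
      fin_cases i <;> simp <;> have := r.1.isLt <;> have := r.2.isLt <;> omega
    · obtain ⟨a, ha, ha'⟩ := Finset.mem_image.mp (hx 0)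
      obtain ⟨b, hb, hb'⟩ := Finset.mem_image.mp (hx 1)
      have : x = D.grid (⟨a, Finset.mem_range.mp ha⟩, ⟨b, Finset.mem_range.mp hb⟩) := by
        funext i; fin_cases i <;> simp [grid, ha', hb']
      rw [this]; exact h _
  funext r
  have := congrArg (coeff (ex ((r.1 : ℕ), (r.2 : ℕ)))) hzero
  rw [low_apply, coeff_sum, Finset.sum_eq_single r] at this
  · simpa [X_pow_eq_monomial, monomial_mul, ex] using this
  · intro r' _ hr'
    rw [coeff_smul, X_pow_eq_monomial, X_pow_eq_monomial, monomial_mul, one_mul, coeff_monomial,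
      if_neg (fun h' => hr' (by
        have h'' := ex_inj (q := ((r'.1 : ℕ), (r'.2 : ℕ))) (q' := ((r.1 : ℕ), (r.2 : ℕ))) h'
        simp only [Prod.mk.injEq] at h''
        exact Prod.ext (Fin.ext h''.1) (Fin.ext h''.2))), smul_zero]
  · simp

/-- `∑ low(f q) A^q B^q'`. -/
noncomputable def fam (e : ℕ) : (tri e → Fin D.m × Fin D.m → k) →ₗ[k] P2 k :=
  ∑ q : tri e, ((LinearMap.mulRight k (D.vp 0 ^ q.1.1 * D.vp 1 ^ q.1.2)).comp D.low).comp
    (LinearMap.proj q)

theorem fam_apply (e : ℕ) (f : tri e → Fin D.m × Fin D.m → k) :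
    D.fam e f = ∑ q : tri e, D.low (f q) * (D.vp 0 ^ q.1.1 * D.vp 1 ^ q.1.2) := by
  simp [fam, mul_assoc]

/-- The derivative of `vp i` at a grid point. -/
noncomputable def slope (g : Fin D.m × Fin D.m) (i : Fin 2) : k :=
  (D.m : k) * D.grid g i ^ (D.m - 1)

theorem slope_ne (g : Fin D.m × Fin D.m) (i : Fin 2) : D.slope g i ≠ 0 :=
  mul_ne_zero D.hmk (pow_ne_zero _ (by fin_cases i <;> simpa [grid] using D.μ_ne _))

/-- The lowest jet of a product is the product of the lowest jets. -/
theorem coeff_shift_fam (g : Fin D.m × Fin D.m) (l : ℕ) (a : P2 k) (q q' : ℕ × ℕ)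
    (hq : q.1 + q.2 = l) (hq' : q'.1 + q'.2 = l) :
    coeff (ex q') (shift (D.grid g) (a * (D.vp 0 ^ q.1 * D.vp 1 ^ q.2))) =
      if q = q' then eval (D.grid g) a * D.slope g 0 ^ q.1 * D.slope g 1 ^ q.2 else 0 := by
  classical
  have hlin : ∀ i, MvPowerSeries.homogeneousComponent 1
      (shift (D.grid g) (D.vp i) : MvPowerSeries (Fin 2) k) =
      MvPowerSeries.monomial (Finsupp.single i 1) (D.slope g i) := by
    intro i
    ext d
    rw [MvPowerSeries.coeff_homogeneousComponent, MvPowerSeries.coeff_monomial, coeff_coe]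
    by_cases hd : d.degree = 1
    · rw [if_pos hd]
      obtain ⟨j, rfl⟩ : ∃ j, d = Finsupp.single j 1 := by
        rw [eq_ex d, degree_ex] at hd
        rcases Nat.eq_zero_or_pos (d 0) with h | h
        · exact ⟨1, by rw [eq_ex d, h, show d 1 = 1 by omega]; simp [ex]⟩
        · exact ⟨0, by rw [eq_ex d, show d 0 = 1 by omega, show d 1 = 0 by omega]; simp [ex]⟩
      have hc := coeff_pderiv (i := j) (shift (D.grid g) (D.vp i)) 0
      rw [shift_pderiv, coeff_zero_shift, zero_add] at hc
      simp only [Finsupp.coe_zero, Pi.zero_apply, Nat.cast_zero, zero_add, mul_one] at hc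
      rw [← hc]
      by_cases hij : i = j
      · subst hij; simp [vp, slope, pderiv_pow]
      · rw [if_neg (fun h => hij ((Finsupp.single_left_inj one_ne_zero).mp h).symm)]
        simp [vp, pderiv_pow, Pi.single_eq_of_ne hij]
    · rw [if_neg hd, if_neg]
      rintro rfl
      simp at hd
  have hpow : ∀ (i : Fin 2) (n : ℕ), MvPowerSeries.homogeneousComponent n
      (shift (D.grid g) (D.vp i ^ n) : MvPowerSeries (Fin 2) k) =
      MvPowerSeries.monomial (Finsupp.single i n) (D.slope g i ^ n) := by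
    intro i n
    induction n with
    | zero =>
      ext d
      rw [MvPowerSeries.coeff_homogeneousComponent, MvPowerSeries.coeff_monomial]
      by_cases hd : d = 0
      · subst hd; simp
      · simp [hd, Finsupp.degree_eq_zero_iff]
    | succ n ih =>
      have h1 := D.pow_vp_mem_van i n g
      have h2 := D.one_le_ordAt_vp g i
      rw [← Nat.cast_one] at h2
      rw [pow_succ, map_mul, MvPolynomial.coe_mul,
        MvPowerSeries.homogeneousComponent_mul_of_le_order h1 h2, ih, hlin,
        MvPowerSeries.monomial_mul_monomial, ← Finsupp.single_add, pow_succ]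
  have ha0 : ((0 : ℕ) : ℕ∞) ≤ ordAt (D.grid g) a := by simp
  have h0 : MvPowerSeries.homogeneousComponent 0 (shift (D.grid g) a : MvPowerSeries (Fin 2) k) =
      MvPowerSeries.monomial 0 (eval (D.grid g) a) := by
    ext d
    rw [MvPowerSeries.coeff_homogeneousComponent, MvPowerSeries.coeff_monomial]
    by_cases hd : d = 0
    · subst hd; rw [if_pos (map_zero _), if_pos rfl, coeff_coe, coeff_zero_shift]
    · simp [hd, Finsupp.degree_eq_zero_iff]
  have hq12 : (l : ℕ∞) ≤ ordAt (D.grid g) (D.vp 0 ^ q.1 * D.vp 1 ^ q.2) := by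
    rw [← hq]; exact D.mul_mem_van (D.pow_vp_mem_van 0 q.1) (D.pow_vp_mem_van 1 q.2) g
  have key : MvPowerSeries.homogeneousComponent l
      (shift (D.grid g) (a * (D.vp 0 ^ q.1 * D.vp 1 ^ q.2)) : MvPowerSeries (Fin 2) k) =
      MvPowerSeries.monomial (ex q)
        (eval (D.grid g) a * D.slope g 0 ^ q.1 * D.slope g 1 ^ q.2) := by
    rw [map_mul, MvPolynomial.coe_mul]
    have := MvPowerSeries.homogeneousComponent_mul_of_le_order (f := (shift (D.grid g) a :
      MvPowerSeries (Fin 2) k)) (p := 0) ha0 (q := l) hq12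
    rw [zero_add] at this
    rw [this, h0, map_mul, MvPolynomial.coe_mul, ← hq,
      MvPowerSeries.homogeneousComponent_mul_of_le_order
        (D.pow_vp_mem_van 0 q.1 g) (D.pow_vp_mem_van 1 q.2 g),
      hpow, hpow, MvPowerSeries.monomial_mul_monomial, MvPowerSeries.monomial_mul_monomial,
      zero_add, ← mul_assoc, ex]
  have := congrArg (MvPowerSeries.coeff (ex q')) key
  rw [MvPowerSeries.coeff_homogeneousComponent, degree_ex, if_pos hq', coeff_coe,
    MvPowerSeries.coeff_monomial] at this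
  rw [this]
  by_cases h : q = q'
  · subst h; simp
  · rw [if_neg h, if_neg (fun hh => h (ex_inj hh).symm)]

theorem fam_inj {e : ℕ} {f : tri e → Fin D.m × Fin D.m → k} (h : D.fam e f ∈ D.van e) :
    f = 0 := by
  classical
  by_contra hf
  obtain ⟨q₀, hq₀⟩ := Function.ne_iff.mp hf
  let s := Finset.univ.filter fun q : tri e => f q ≠ 0
  have hs : s.Nonempty := ⟨q₀, by simpa [s] using hq₀⟩
  obtain ⟨q, hq, hmin⟩ := s.exists_min_image (fun q => q.1.1 + q.1.2) hs
  simp only [s, Finset.mem_filter, Finset.mem_univ, true_and] at hq hmin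
  refine hq (D.low_eq_zero fun g => ?_)
  have hlt : q.1.1 + q.1.2 < e := mem_tri.mp q.2
  have h0 := le_ordAt.mp (h g) (ex q.1) (by rwa [degree_ex])
  rw [fam_apply, map_sum, coeff_sum, Finset.sum_eq_single q] at h0
  · rw [D.coeff_shift_fam g _ _ q.1 q.1 rfl rfl, if_pos rfl] at h0
    simpa [D.slope_ne] using h0
  · intro q' _ hne
    by_cases hf' : f q' = 0
    · simp [hf']
    rcases lt_or_eq_of_le (hmin q' hf') with hlt' | heq
    · have hv := D.mul_mem_van (e := 0) (D.van_zero (D.low (f q')))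
        (D.mul_mem_van (D.pow_vp_mem_van 0 q'.1.1) (D.pow_vp_mem_van 1 q'.1.2)) g
      exact le_ordAt.mp hv _ (by rw [degree_ex]; omega)
    · rw [D.coeff_shift_fam g _ _ q'.1 q.1 heq.symm rfl, if_neg (fun hh => hne (Subtype.ext hh))]
  · simp

theorem fam_jets_bijective (e : ℕ) : Function.Bijective ((D.jets e).comp (D.fam e)) := by
  have hinj : Function.Injective ((D.jets e).comp (D.fam e)) := by
    rw [injective_iff_map_eq_zero]
    intro f hf
    exact D.fam_inj (D.jets_eq_zero_iff.mp hf)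
  refine ⟨hinj, (LinearMap.injective_iff_surjective_of_finrank_eq_finrank ?_).mp hinj⟩
  rw [Module.finrank_pi_fintype, Module.finrank_fintype_fun_eq_card]
  simp [mul_comm]

theorem exists_fam (e : ℕ) (p : P2 k) : ∃ f, p - D.fam e f ∈ D.van e := by
  obtain ⟨f, hf⟩ := (D.fam_jets_bijective e).2 (D.jets e p)
  refine ⟨f, D.jets_eq_zero_iff.mp ?_⟩
  rw [map_sub, ← hf]
  simp

end Par

end Vale.Agent.P190.Example
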