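import Mathlib

/-!
# P190 Module 6: the Kummer layer

`M/L` Galois, `rt i ^ m = c i` with the `c i` independent modulo `m`-th powers of `L`.
Everything about the example ring is reduced to the monomials `φ • ∏ rt i ^ χ i`.
-/

namespace Vale.Agent.P190.Example

open Polynomial

set_option linter.unusedSectionVars false

variable (k L M ι : Type*) [Field k] [Field L] [Field M] [Algebra k L] [Algebra k M]
  [Algebra L M] [IsScalarTower k L M] [IsGalois L M] [Fintype ι] [DecidableEq ι]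

/-- Radicals of an abelian extension of exponent `m`. -/
structure Kummer where
  m : ℕ
  hm : 0 < m
  ζ : k
  hζ : IsPrimitiveRoot ζ m
  c : ι → L
  hc : ∀ i, c i ≠ 0
  rt : ι → M
  hrt : ∀ i, rt i ^ m = algebraMap L M (c i)
  indep : ∀ χ : ι → Fin m, (∃ φ : L, φ ^ m = ∏ i, c i ^ (χ i : ℕ)) → ∀ i, (χ i : ℕ) = 0

variable {k L M ι}

/-- An element of a Galois extension fixed by all automorphisms comes from the base. -/
theorem mem_range_of_fixed (x : M) (h : ∀ σ : M ≃ₐ[L] M, σ x = x) :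
    ∃ φ : L, algebraMap L M φ = x := by
  classical
  have hx : IsIntegral L x := (Algebra.IsSeparable.isSeparable L x).isIntegral
  have hsub : (minpoly L x).rootSet M ⊆ {x} := by
    intro y hy
    rw [mem_rootSet] at hy
    obtain ⟨σ, hσ⟩ := minpoly.exists_algEquiv_of_root' (x := y) hx.isAlgebraic hy.2
    rw [h σ] at hσ
    exact hσ ▸ Set.mem_singleton _
  have hcard := card_rootSet_eq_natDegree (Algebra.IsSeparable.isSeparable L x)
    (Normal.splits (inferInstance : Normal L M) x)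
  have hle : (minpoly L x).natDegree ≤ 1 := by
    rw [← hcard]
    exact le_trans (Set.card_le_card hsub) (by simp)
  have hd : (minpoly L x).natDegree = 1 :=
    le_antisymm hle (minpoly.natDegree_pos hx)
  exact minpoly.natDegree_eq_one_iff.mp hd

namespace Kummer

variable (K : Kummer k L M ι)

/-- The exponent vectors. -/
abbrev Idx : Type _ := ι → Fin K.m

/-- `c^χ`. -/
def cx (χ : K.Idx) : L := ∏ i, K.c i ^ (χ i : ℕ)

/-- `rt^χ`. -/
def rx (χ : K.Idx) : M := ∏ i, K.rt i ^ (χ i : ℕ)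

theorem rx_pow (χ : K.Idx) : K.rx χ ^ K.m = algebraMap L M (K.cx χ) := by
  rw [rx, cx, map_prod, ← Finset.prod_pow]
  refine Finset.prod_congr rfl fun i _ => ?_
  rw [← pow_mul, mul_comm, pow_mul, K.hrt, map_pow]

theorem cx_ne (χ : K.Idx) : K.cx χ ≠ 0 :=
  Finset.prod_ne_zero_iff.mpr fun i _ => pow_ne_zero _ (K.hc i)

theorem rx_ne (χ : K.Idx) : K.rx χ ≠ 0 := by
  intro h
  have := K.rx_pow χ
  rw [h, zero_pow K.hm.ne'] at this
  exact K.cx_ne χ ((map_eq_zero _).mp this.symm)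

theorem exists_scalar (σ : M ≃ₐ[L] M) (χ : K.Idx) :
    ∃ ξ : k, σ (K.rx χ) = algebraMap k M ξ * K.rx χ := by
  have h1 : (σ (K.rx χ) / K.rx χ) ^ K.m = 1 := by
    rw [div_pow, ← map_pow, K.rx_pow, σ.commutes, div_self]
    exact (_root_.map_ne_zero _).mpr (K.cx_ne χ)
  have : NeZero K.m := ⟨K.hm.ne'⟩
  obtain ⟨i, _, hi⟩ :=
    ((K.hζ.map_of_injective (algebraMap k M).injective).eq_pow_of_pow_eq_one h1)
  refine ⟨K.ζ ^ i, ?_⟩
  rw [map_pow, hi, div_mul_cancel₀ _ (K.rx_ne χ)]

/-- The eigenvalue of `σ` on `rt^χ`. -/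
noncomputable def eig (σ : M ≃ₐ[L] M) (χ : K.Idx) : k := (K.exists_scalar σ χ).choose

theorem apply_rx (σ : M ≃ₐ[L] M) (χ : K.Idx) :
    σ (K.rx χ) = algebraMap k M (K.eig σ χ) * K.rx χ :=
  (K.exists_scalar σ χ).choose_spec

theorem exists_eig_ne {χ χ' : K.Idx} (hne : χ ≠ χ') : ∃ σ, K.eig σ χ ≠ K.eig σ χ' := by
  by_contra! hall
  obtain ⟨φ, hφ⟩ := mem_range_of_fixed (K.rx χ / K.rx χ') fun σ => by
    have he : algebraMap k M (K.eig σ χ') ≠ 0 := by
      intro h0
      have := K.apply_rx σ χ'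
      rw [h0, zero_mul] at this
      exact K.rx_ne χ' ((map_eq_zero σ).mp this)
    rw [map_div₀, K.apply_rx, K.apply_rx, hall σ, mul_div_mul_left _ _ he]
  have h2 : φ ^ K.m * K.cx χ' = K.cx χ := by
    apply (algebraMap L M).injective
    rw [map_mul, map_pow, hφ, ← K.rx_pow χ', ← K.rx_pow χ, ← mul_pow,
      div_mul_cancel₀ _ (K.rx_ne χ')]
  let e : ι → ℕ := fun i => if (χ i : ℕ) < (χ' i : ℕ) then 1 else 0
  let d : K.Idx := fun i => ⟨(χ i : ℕ) + K.m * e i - (χ' i : ℕ), by
    have := (χ i).isLt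
    have := (χ' i).isLt
    simp only [e]
    split <;> simp <;> omega⟩
  have key := K.indep d ⟨φ * ∏ i, K.c i ^ e i, by
    apply mul_right_cancel₀ (K.cx_ne χ')
    rw [mul_pow, mul_right_comm, h2, ← Finset.prod_pow, cx, cx, ← Finset.prod_mul_distrib,
      ← Finset.prod_mul_distrib]
    refine Finset.prod_congr rfl fun i _ => ?_
    rw [← pow_mul, ← pow_add, ← pow_add]
    congr 1
    have := (χ i).isLt
    have := (χ' i).isLt
    simp only [d, e]
    split <;> simp <;> omega⟩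
  refine hne (funext fun i => Fin.ext ?_)
  have h3 := key i
  have := (χ i).isLt
  have := (χ' i).isLt
  by_cases hlt : (χ i : ℕ) < (χ' i : ℕ)
  · simp only [d, e, if_pos hlt] at h3
    omega
  · simp only [d, e, if_neg hlt] at h3
    omega

/-- The monomial expansion. -/
noncomputable def Φ : (K.Idx → L) →ₗ[L] M where
  toFun f := ∑ χ, algebraMap L M (f χ) * K.rx χ
  map_add' f g := by simp [add_mul, Finset.sum_add_distrib]
  map_smul' a f := by simp [Finset.mul_sum, mul_assoc, Algebra.smul_def]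

theorem Φ_apply (f : K.Idx → L) : K.Φ f = ∑ χ, algebraMap L M (f χ) * K.rx χ := rfl

theorem apply_Φ (σ : M ≃ₐ[L] M) (f : K.Idx → L) :
    σ (K.Φ f) = K.Φ (fun χ => K.eig σ χ • f χ) := by
  simp only [Φ_apply, map_sum, map_mul, σ.commutes, apply_rx, Algebra.smul_def,
    ← IsScalarTower.algebraMap_apply]
  exact Finset.sum_congr rfl fun χ _ => by ring

theorem Φ_smul (a : k) (f : K.Idx → L) : K.Φ (a • f) = a • K.Φ f :=
  K.Φ.map_smul_of_tower a f

/-- Anything stable under differences, scalars and the Galois group is stable under taking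
monomial components. -/
theorem component {P : M → Prop} (hsub : ∀ a b, P a → P b → P (a - b))
    (hsmul : ∀ (a : k) x, P x → P (a • x)) (hgal : ∀ (σ : M ≃ₐ[L] M) x, P x → P (σ x))
    (f : K.Idx → L) (hf : P (K.Φ f)) (χ : K.Idx) :
    P (algebraMap L M (f χ) * K.rx χ) := by
  classical
  suffices H : ∀ (s : Finset K.Idx) (f : K.Idx → L), (∀ ρ ∉ s, ρ ≠ χ → f ρ = 0) → P (K.Φ f) →
      P (algebraMap L M (f χ) * K.rx χ) from
    H Finset.univ f (fun ρ h _ => absurd (Finset.mem_univ ρ) h) hf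
  intro s
  induction s using Finset.induction with
  | empty =>
    intro f h hf
    rwa [Φ_apply, Finset.sum_eq_single χ (fun ρ _ hρ => by simp [h ρ (by simp) hρ])
      (by simp)] at hf
  | @insert ρ s hρs ih =>
    intro f h hf
    by_cases hρ : ρ = χ
    · exact ih f (fun τ hτ hne => h τ (by simp [hτ, hρ ▸ hne]) hne) hf
    · obtain ⟨σ, hσ⟩ := K.exists_eig_ne (Ne.symm hρ)
      let g : K.Idx → L := fun τ => (K.eig σ τ - K.eig σ ρ) • f τ
      have hg : P (K.Φ g) := by
        have : K.Φ g = σ (K.Φ f) - K.eig σ ρ • K.Φ f := by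
          rw [apply_Φ, ← Φ_smul, ← map_sub]
          exact congrArg _ (funext fun τ => by simp [g, sub_smul])
        rw [this]
        exact hsub _ _ (hgal σ _ hf) (hsmul _ _ hf)
      have hgs := ih g (fun τ hτ hne => by
        by_cases hτρ : τ = ρ
        · simp [g, hτρ]
        · simp [g, h τ (by simp [hτ, hτρ]) hne]) hg
      have := hsmul (K.eig σ χ - K.eig σ ρ)⁻¹ _ hgs
      have e : algebraMap L M (g χ) = (K.eig σ χ - K.eig σ ρ) • algebraMap L M (f χ) :=
        map_smul (IsScalarTower.toAlgHom k L M) _ _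
      rwa [e, smul_mul_assoc, inv_smul_smul₀ (sub_ne_zero.mpr hσ)] at this

theorem Φ_injective : Function.Injective K.Φ := by
  rw [injective_iff_map_eq_zero]
  intro f hf
  funext χ
  have := K.component (P := fun x => x = 0) (fun a b ha hb => by simp [ha, hb])
    (fun a x hx => by simp [hx]) (fun σ x hx => by simp [hx]) f hf χ
  simpa [K.rx_ne χ] using this

/-- Sum of exponent vectors. -/
def add (χ χ' : K.Idx) : K.Idx := fun i =>
  ⟨((χ i : ℕ) + χ' i) % K.m, Nat.mod_lt _ K.hm⟩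

/-- Carry. -/
def carry (χ χ' : K.Idx) : L := ∏ i, K.c i ^ (((χ i : ℕ) + χ' i) / K.m)

theorem rx_mul (χ χ' : K.Idx) :
    K.rx χ * K.rx χ' = algebraMap L M (K.carry χ χ') * K.rx (K.add χ χ') := by
  simp only [rx, carry, add, map_prod, map_pow, ← Finset.prod_mul_distrib]
  refine Finset.prod_congr rfl fun i _ => ?_
  rw [← pow_add, ← K.hrt i, ← pow_mul, ← pow_add, Nat.div_add_mod]

theorem cx_mul (χ χ' : K.Idx) :
    K.cx χ * K.cx χ' = K.carry χ χ' ^ K.m * K.cx (K.add χ χ') := by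
  apply (algebraMap L M).injective
  simp only [map_mul, map_pow, ← K.rx_pow, ← mul_pow, K.rx_mul]

/-- The zero exponent. -/
def zeroIdx : K.Idx := fun _ => ⟨0, K.hm⟩

@[simp] theorem rx_zeroIdx : K.rx K.zeroIdx = 1 := by simp [rx, zeroIdx]
@[simp] theorem cx_zeroIdx : K.cx K.zeroIdx = 1 := by simp [cx, zeroIdx]

/-- The `m`-th power of the monomial `φ rt^χ`. -/
def Z (χ : K.Idx) (φ : L) : L := φ ^ K.m * K.cx χ

theorem Z_mul (χ χ' : K.Idx) (φ φ' : L) :
    K.Z χ φ * K.Z χ' φ' = K.Z (K.add χ χ') (φ * φ' * K.carry χ χ') := by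
  simp only [Z, mul_pow]
  calc φ ^ K.m * K.cx χ * (φ' ^ K.m * K.cx χ')
      = φ ^ K.m * φ' ^ K.m * (K.cx χ * K.cx χ') := by ring
    _ = _ := by rw [K.cx_mul]; ring

theorem monomial_pow (χ : K.Idx) (φ : L) :
    (algebraMap L M φ * K.rx χ) ^ K.m = algebraMap L M (K.Z χ φ) := by
  rw [mul_pow, K.rx_pow, Z, map_mul, map_pow]

end Kummer

end Vale.Agent.P190.Example
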