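import Mathlib

/-!
P190: local calculus at a rational point of an affine chart inside a field.

`χ` is a point of the subalgebra `B`.  `Val χ e c`: `e` is regular at the point, with value `c`.
`Cong χ u v e c`: moreover `e - c` is in the ideal of the two elements `u, v` in the local ring.
-/

namespace Vale.Agent.P190.Example

variable {k K : Type*} [Field k] [Field K] [Algebra k K] {B : Subalgebra k K}

/-- Regular at the point with the given value. -/
def Val (χ : B →ₐ[k] k) (e : K) (c : k) : Prop :=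
  ∃ d a : B, χ d ≠ 0 ∧ e * d = a ∧ χ a = c * χ d

/-- Regular at the point. -/
def Reg (χ : B →ₐ[k] k) (e : K) : Prop := ∃ c, Val χ e c

/-- Congruent to the value modulo two elements. -/
def Cong (χ : B →ₐ[k] k) (u v e : K) (c : k) : Prop :=
  ∃ a b : K, Reg χ a ∧ Reg χ b ∧ e - algebraMap k K c = a * u + b * v

variable {χ : B →ₐ[k] k} {e f u v : K} {c c' : k}

theorem val_mem (b : B) : Val χ (b : K) (χ b) := ⟨1, b, by simp, by simp, by simp⟩

theorem val_algebraMap (c : k) : Val χ (algebraMap k K c) c :=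
  ⟨1, algebraMap k B c, by simp, by simp, by simp⟩

theorem val_zero : Val χ (0 : K) 0 := by simpa using val_algebraMap (χ := χ) 0

theorem val_one : Val χ (1 : K) 1 := by simpa using val_algebraMap (χ := χ) 1

theorem Val.add (h : Val χ e c) (h' : Val χ f c') : Val χ (e + f) (c + c') := by
  obtain ⟨d, a, hd, he, ha⟩ := h
  obtain ⟨d', a', hd', he', ha'⟩ := h'
  refine ⟨d * d', a * d' + a' * d, by simp [hd, hd'], ?_, by simp [ha, ha']; ring⟩
  push_cast
  rw [← he, ← he']
  ring

theorem Val.mul (h : Val χ e c) (h' : Val χ f c') : Val χ (e * f) (c * c') := by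
  obtain ⟨d, a, hd, he, ha⟩ := h
  obtain ⟨d', a', hd', he', ha'⟩ := h'
  refine ⟨d * d', a * a', by simp [hd, hd'], ?_, by simp [ha, ha']; ring⟩
  push_cast
  rw [← he, ← he']
  ring

theorem Val.neg (h : Val χ e c) : Val χ (-e) (-c) := by
  simpa using (val_algebraMap (χ := χ) (-1)).mul h

theorem Val.sub (h : Val χ e c) (h' : Val χ f c') : Val χ (e - f) (c - c') := by
  simpa [sub_eq_add_neg] using h.add h'.neg

theorem Val.pow (h : Val χ e c) : ∀ n : ℕ, Val χ (e ^ n) (c ^ n)
  | 0 => by simpa using val_one (χ := χ)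
  | n + 1 => by simpa [pow_succ] using (h.pow n).mul h

theorem Val.inv (h : Val χ e c) (hc : c ≠ 0) : Val χ e⁻¹ c⁻¹ := by
  obtain ⟨d, a, hd, he, ha⟩ := h
  have hne : χ a ≠ 0 := by rw [ha]; exact mul_ne_zero hc hd
  refine ⟨a, d, hne, ?_, by rw [ha]; field_simp⟩
  have he0 : e ≠ 0 := fun h0 => hne (by
    rw [show a = 0 from Subtype.ext (by rw [← he, h0, zero_mul]; rfl), map_zero])
  rw [← he]
  field_simp

theorem Val.div (h : Val χ e c) (h' : Val χ f c') (hc : c' ≠ 0) : Val χ (e / f) (c / c') := by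
  simpa [div_eq_mul_inv] using h.mul (h'.inv hc)

theorem Val.unique (h : Val χ e c) (h' : Val χ e c') : c = c' := by
  obtain ⟨d, a, hd, he, ha⟩ := h
  obtain ⟨d', a', hd', he', ha'⟩ := h'
  have h1 : a * d' = a' * d := Subtype.ext (by push_cast; rw [← he, ← he']; ring)
  have h2 := congrArg χ h1
  rw [map_mul, map_mul, ha, ha'] at h2
  exact mul_right_cancel₀ (mul_ne_zero hd hd') (by linear_combination h2)

theorem Val.sum {ι : Type*} (s : Finset ι) {g : ι → K} {d : ι → k}
    (h : ∀ i ∈ s, Val χ (g i) (d i)) : Val χ (∑ i ∈ s, g i) (∑ i ∈ s, d i) := by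
  classical
  induction s using Finset.induction_on with
  | empty => simpa using val_zero (χ := χ)
  | insert a s ha ih =>
    rw [Finset.sum_insert ha, Finset.sum_insert ha]
    exact (h a (Finset.mem_insert_self a s)).add (ih fun i hi => h i (Finset.mem_insert_of_mem hi))

theorem Val.prod {ι : Type*} (s : Finset ι) {g : ι → K} {d : ι → k}
    (h : ∀ i ∈ s, Val χ (g i) (d i)) : Val χ (∏ i ∈ s, g i) (∏ i ∈ s, d i) := by
  classical
  induction s using Finset.induction_on with
  | empty => simpa using val_one (χ := χ)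
  | insert a s ha ih =>
    rw [Finset.prod_insert ha, Finset.prod_insert ha]
    exact (h a (Finset.mem_insert_self a s)).mul (ih fun i hi => h i (Finset.mem_insert_of_mem hi))

theorem Val.reg (h : Val χ e c) : Reg χ e := ⟨c, h⟩

theorem reg_algebraMap (c : k) : Reg χ (algebraMap k K c) := (val_algebraMap c).reg

theorem Reg.add : Reg χ e → Reg χ f → Reg χ (e + f) := fun ⟨_, h⟩ ⟨_, h'⟩ => (h.add h').reg

theorem Reg.mul : Reg χ e → Reg χ f → Reg χ (e * f) := fun ⟨_, h⟩ ⟨_, h'⟩ => (h.mul h').reg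

/-- The regular elements. -/
def regAlgebra (χ : B →ₐ[k] k) : Subalgebra k K where
  carrier := {e | Reg χ e}
  mul_mem' := Reg.mul
  add_mem' := Reg.add
  algebraMap_mem' := reg_algebraMap

theorem mem_regAlgebra : e ∈ regAlgebra χ ↔ Reg χ e := Iff.rfl

/-! ### Congruences -/

variable (hu : Val χ u 0) (hv : Val χ v 0)

theorem cong_left : Cong χ u v u 0 :=
  ⟨1, 0, val_one.reg, val_zero.reg, by simp⟩

theorem cong_right : Cong χ u v v 0 :=
  ⟨0, 1, val_zero.reg, val_one.reg, by simp⟩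

theorem cong_algebraMap (c : k) : Cong χ u v (algebraMap k K c) c :=
  ⟨0, 0, val_zero.reg, val_zero.reg, by simp⟩

include hu hv in
theorem Cong.val (h : Cong χ u v e c) : Val χ e c := by
  obtain ⟨a, b, ⟨_, ha⟩, ⟨_, hb⟩, hab⟩ := h
  have h1 := ((ha.mul hu).add (hb.mul hv)).add (val_algebraMap c)
  rwa [mul_zero, mul_zero, zero_add, zero_add, ← hab, sub_add_cancel] at h1

theorem Cong.add (h : Cong χ u v e c) (h' : Cong χ u v f c') : Cong χ u v (e + f) (c + c') := by
  obtain ⟨a, b, ha, hb, hab⟩ := h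
  obtain ⟨a', b', ha', hb', hab'⟩ := h'
  exact ⟨a + a', b + b', ha.add ha', hb.add hb', by rw [map_add]; linear_combination hab + hab'⟩

include hu hv in
theorem Cong.mul (h : Cong χ u v e c) (h' : Cong χ u v f c') : Cong χ u v (e * f) (c * c') := by
  have hf : Reg χ f := (h'.val hu hv).reg
  obtain ⟨a, b, ha, hb, hab⟩ := h
  obtain ⟨a', b', ha', hb', hab'⟩ := h'
  exact ⟨a * f + algebraMap k K c * a', b * f + algebraMap k K c * b',
    (ha.mul hf).add ((reg_algebraMap c).mul ha'), (hb.mul hf).add ((reg_algebraMap c).mul hb'),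
    by rw [map_mul]; linear_combination f * hab + algebraMap k K c * hab'⟩

/-- A regular multiple of an element of the ideal is in the ideal. -/
theorem Cong.reg_mul (h : Cong χ u v e 0) (hf : Reg χ f) : Cong χ u v (f * e) 0 := by
  obtain ⟨a, b, ha, hb, hab⟩ := h
  rw [map_zero, sub_zero] at hab
  exact ⟨f * a, f * b, hf.mul ha, hf.mul hb, by rw [map_zero, hab]; ring⟩

include hu hv in
theorem Cong.inv (h : Cong χ u v e c) (hc : c ≠ 0) : Cong χ u v e⁻¹ c⁻¹ := by
  have hi := (h.val hu hv).inv hc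
  have he0 : e ≠ 0 := fun h0 => hc ((h.val hu hv).unique (h0 ▸ val_zero))
  obtain ⟨a, b, ha, hb, hab⟩ := h
  refine ⟨-(algebraMap k K c)⁻¹ * e⁻¹ * a, -(algebraMap k K c)⁻¹ * e⁻¹ * b,
    (Reg.mul ?_ hi.reg).mul ha, (Reg.mul ?_ hi.reg).mul hb, ?_⟩
  · rw [← map_inv₀, ← map_neg]; exact reg_algebraMap _
  · rw [← map_inv₀, ← map_neg]; exact reg_algebraMap _
  · have hK : algebraMap k K c ≠ 0 := (map_ne_zero _).2 hc
    rw [map_inv₀]
    field_simp
    linear_combination -hab

include hu hv in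
theorem Cong.pow (h : Cong χ u v e c) : ∀ n : ℕ, Cong χ u v (e ^ n) (c ^ n)
  | 0 => by simpa using cong_algebraMap (χ := χ) (u := u) (v := v) 1
  | n + 1 => by simpa [pow_succ] using (h.pow n).mul hu hv h

/-- An element whose power is congruent to a nonzero constant is congruent to its value. -/
theorem cong_of_pow {n : ℕ} (hn : (n : k) ≠ 0) (he : Val χ e c) (hc : c ≠ 0)
    (h : Cong χ u v (e ^ n) (c ^ n)) : Cong χ u v e c := by
  set C := algebraMap k K c with hC
  have hn0 : n ≠ 0 := fun h0 => hn (by simp [h0])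
  have hs : Val χ (∑ i ∈ Finset.range n, e ^ i * C ^ (n - 1 - i)) ((n : k) * c ^ (n - 1)) := by
    have h1 := Val.sum (χ := χ) (Finset.range n) fun i _ =>
      (he.pow i).mul ((val_algebraMap c).pow (n - 1 - i))
    have h2 : ∑ i ∈ Finset.range n, c ^ i * c ^ (n - 1 - i) = (n : k) * c ^ (n - 1) := by
      rw [Finset.sum_congr rfl fun i hi => show c ^ i * c ^ (n - 1 - i) = c ^ (n - 1) by
        rw [← pow_add, Nat.add_sub_cancel' (by have := Finset.mem_range.1 hi; omega)],
        Finset.sum_const, Finset.card_range, nsmul_eq_mul]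
    rwa [h2] at h1
  have hne : (n : k) * c ^ (n - 1) ≠ 0 := mul_ne_zero hn (pow_ne_zero _ hc)
  set S := ∑ i ∈ Finset.range n, e ^ i * C ^ (n - 1 - i)
  have hS0 : S ≠ 0 := fun h0 => hne (hs.unique (h0 ▸ val_zero))
  obtain ⟨a, b, ha, hb, hab⟩ := h
  refine ⟨S⁻¹ * a, S⁻¹ * b, (hs.inv hne).reg.mul ha, (hs.inv hne).reg.mul hb, ?_⟩
  rw [map_pow, ← geom_sum₂_mul] at hab
  field_simp
  linear_combination hab

/-- If the generators of `B` are congruent to constants, the maximal ideal of the point is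
generated by two elements after localisation. -/
theorem two_generated {s : Set K} (hB : B = Algebra.adjoin k s) (hu : Val χ u 0) (hv : Val χ v 0)
    (hs : ∀ e ∈ s, ∃ c, Cong χ u v e c) :
    ∃ u' ∈ RingHom.ker χ, ∃ v' ∈ RingHom.ker χ, ∀ w ∈ RingHom.ker χ,
      ∃ t ∉ RingHom.ker χ, t * w ∈ Ideal.span {u', v'} := by
  obtain ⟨du, au, hdu, heu, hau⟩ := hu
  obtain ⟨dv, av, hdv, hev, hav⟩ := hv
  have hu : Val χ u 0 := ⟨du, au, hdu, heu, hau⟩
  have hv : Val χ v 0 := ⟨dv, av, hdv, hev, hav⟩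
  have hcong : ∀ x ∈ B, ∃ c, Cong χ u v x c := by
    intro x hx
    rw [hB] at hx
    induction hx using Algebra.adjoin_induction with
    | mem y hy => exact hs y hy
    | algebraMap r => exact ⟨r, cong_algebraMap r⟩
    | add y z _ _ hy hz =>
      obtain ⟨a, ha⟩ := hy
      obtain ⟨b, hb⟩ := hz
      exact ⟨_, ha.add hb⟩
    | mul y z _ _ hy hz =>
      obtain ⟨a, ha⟩ := hy
      obtain ⟨b, hb⟩ := hz
      exact ⟨_, ha.mul hu hv hb⟩
  refine ⟨au, by simp [hau], av, by simp [hav], fun w hw => ?_⟩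
  obtain ⟨c, hc⟩ := hcong _ w.2
  have hc0 : c = 0 := ((hc.val hu hv).unique (val_mem w)).trans (RingHom.mem_ker.1 hw)
  obtain ⟨a, b, ⟨ca, da, aa, hda, hea, -⟩, ⟨cb, db, ab, hdb, heb, -⟩, hab⟩ := hc
  refine ⟨du * dv * (da * db), by simp [hdu, hdv, hda, hdb], Ideal.mem_span_pair.2 ?_⟩
  refine ⟨aa * db * dv, ab * da * du, Subtype.ext ?_⟩
  rw [hc0, map_zero, sub_zero] at hab
  push_cast
  rw [hab, ← heu, ← hev, ← hea, ← heb]
  ring

end Vale.Agent.P190.Example
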