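import Vale.Agent.P190.Example.PoleModel

/-!
P190: in degrees `≥ 0` the canonical module of the example lies in the ring shifted by `m - 2`.
-/

open MvPolynomial Module

namespace Vale.Agent.P190.Example

set_option linter.unusedSectionVars false

variable {k : Type} [Field k] [Infinite k] (D : Par k)

theorem degPlace_δ : (D.degPlace).δ = -2 := by
  simp only [Place.δ, Par.degPlace, Matrix.cons_val_zero, Matrix.cons_val_one, mul_zero, sub_zero]
  rw [degOrd.f_one, degOrd.f_mul _ _ (X_ne_zero _) (X_ne_zero _)]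
  simp [degOrd]

theorem varPlace_δ (i j : Fin 2) (hij : i ≠ j) : (D.varPlace i j hij).δ = -1 := by
  obtain ⟨rfl, rfl⟩ | ⟨rfl, rfl⟩ : (i = 0 ∧ j = 1) ∨ (i = 1 ∧ j = 0) := by omega
  all_goals simp [Place.δ, Par.varPlace, degVarOrd]

theorem gridPlace_δ (g : Fin D.m × Fin D.m) : (D.gridPlace g).δ = 2 := by
  simp only [Place.δ, Par.gridPlace, Matrix.cons_val_zero, Matrix.cons_val_one, mul_zero, sub_zero]
  rw [(pointOrd _).f_one, (pointOrd _).f_mul _ _ (Par.lin_ne _ _) (Par.lin_ne _ _), Par.pointOrd_lin]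
  norm_num

theorem originPlace_δ : (D.originPlace).δ = 2 := by
  simp only [Place.δ, Par.originPlace, Matrix.cons_val_zero, Matrix.cons_val_one, mul_zero, sub_zero,
    Pi.zero_apply, map_zero]
  rw [(pointOrd _).f_one, (pointOrd _).f_mul _ _ (X_ne_zero _) (X_ne_zero _)]
  simp [pointOrd, Par.ordAt_X_origin]

theorem curvePlace_δ {π : P2 k} (hπ : Prime π) (i j : Fin 2) (hij : i ≠ j)
    (hi : ¬ π ∣ pderiv i π) : (D.curvePlace hπ i j hij hi).δ = 1 := by
  have hd : pderiv i π ≠ 0 := fun h0 => hi (h0 ▸ dvd_zero π)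
  have h1 : (curveOrd hπ).f (pderiv i π) = 0 := by
    show (multiplicity π (pderiv i π) : ℤ) = 0
    rw [multiplicity_eq_zero.2 hi]; rfl
  have h2 : (curveOrd hπ).f π = 1 := by
    show (multiplicity π π : ℤ) = 1
    rw [multiplicity_self]; rfl
  obtain ⟨ε, hε, h⟩ := Par.curve_det i j hij π
  simp only [Place.δ, Par.curvePlace, Par.curveFrame, Pi.add_apply]
  rw [h, (curveOrd hπ).f_mul _ _ (by simpa using hε) (mul_ne_zero hπ.ne_zero hd),
    (curveOrd hπ).f_mul _ _ hπ.ne_zero hd, h1, h2, Par.const_curve hπ _ hε]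
  norm_num

/-- Two elements over which a field is separably algebraic have nonzero Jacobian. -/
theorem jac_ne {K : Type} [Field K] [Algebra k K] [Algebra (L2 k) K] [Algebra (P2 k) K]
    [IsScalarTower k (P2 k) K] [IsScalarTower (P2 k) (L2 k) K] [IsScalarTower k (L2 k) K]
    [FiniteDimensional (L2 k) K] [Algebra.IsSeparable (L2 k) K] (η ζ : K)
    [Algebra.IsSeparable (ratField k η ζ) K] :
    pdK (k := k) 0 η * pdK (k := k) 1 ζ - pdK (k := k) 1 η * pdK (k := k) 0 ζ ≠ 0 := by
  intro hJ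
  set F := ratField k η ζ
  -- a combination of the two partial derivatives which kills both fractions
  suffices key : ∀ c₀ c₁ : K,
      c₀ * pdK (k := k) 0 η + c₁ * pdK (k := k) 1 η = 0 →
      c₀ * pdK (k := k) 0 ζ + c₁ * pdK (k := k) 1 ζ = 0 → c₀ = 0 ∧ c₁ = 0 by
    obtain ⟨e₁, e₀⟩ := key (pdK (k := k) 1 η) (-pdK (k := k) 0 η) (by ring)
      (by linear_combination -hJ)
    rw [neg_eq_zero] at e₀
    obtain ⟨z₁, z₀⟩ := key (pdK (k := k) 1 ζ) (-pdK (k := k) 0 ζ)
      (by linear_combination hJ) (by ring)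
    rw [neg_eq_zero] at z₀
    exact one_ne_zero (key 1 0 (by simp [e₀]) (by simp [z₀])).1
  intro c₀ c₁ hη hζ
  set δ : Derivation k K K := c₀ • pdK (k := k) (K := K) 0 + c₁ • pdK (k := k) (K := K) 1 with hδ
  have hF : ∀ x ∈ F, δ x = 0 := fun x hx => by
    induction hx using IntermediateField.adjoin_induction with
    | mem y hy => rcases hy with rfl | rfl <;> simp [hδ, hη, hζ]
    | algebraMap r => exact δ.map_algebraMap r
    | add y z _ _ h h' => rw [map_add, h, h', add_zero]
    | inv y _ h => rw [Derivation.leibniz_inv, h, smul_zero]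
    | mul y z _ _ h h' => rw [Derivation.leibniz, h, h', smul_zero, smul_zero, add_zero]
  let δF : Derivation F K K := Derivation.mk'
    { toFun := δ
      map_add' := map_add δ
      map_smul' := fun c x => by
        rw [RingHom.id_apply, Algebra.smul_def, Derivation.leibniz,
          hF _ (show algebraMap F K c ∈ F from c.2), smul_zero, add_zero, smul_eq_mul,
          ← Algebra.smul_def] }
    fun a b => δ.leibniz a b
  have : Algebra.FormallyUnramified F K := Algebra.FormallyUnramified.of_isSeparable F K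
  have h0 : ∀ x, δ x = 0 := fun x => by
    have e : δF.liftKaehlerDifferential (KaehlerDifferential.D F K x) = δF x :=
      Derivation.liftKaehlerDifferential_comp_D δF x
    rw [show KaehlerDifferential.D F K x = 0 from Subsingleton.elim _ _, map_zero] at e
    exact e.symm
  refine ⟨?_, ?_⟩
  · have := h0 (algebraMap (P2 k) K (MvPolynomial.X 0))
    simpa [hδ, pdK_algebraMap] using this
  · have := h0 (algebraMap (P2 k) K (MvPolynomial.X 1))
    simpa [hδ, pdK_algebraMap] using this

/-- Containment in a multiple of a piece, by membership. -/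
theorem le_map_of_mem {K : Type} [Field K] [Algebra k K] {N : Submodule k (Fin 1 → K)}
    {S : ℤ → Submodule k K} {m : ℤ} {θ : K} (hθ : θ ≠ 0)
    (h : ∀ w : K, (fun _ : Fin 1 => w) ∈ N → w * θ ∈ S m) :
    N ≤ (one1 S m).map (DistribSMul.toLinearMap k (Fin 1 → K) θ⁻¹) := fun v hvN => by
  have hv : v = fun _ => v 0 := funext fun i => by rw [Subsingleton.elim i 0]
  rw [hv] at hvN
  refine ⟨fun _ => v 0 * θ, h _ hvN, ?_⟩
  rw [hv]
  funext i
  show θ⁻¹ * (v 0 * θ) = v 0
  rw [mul_comm (v 0), inv_mul_cancel_left₀ hθ]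

namespace Par

variable {s : k}

theorem finrank_K_lt {p : ℕ} (hp : D.deg < p) : finrank (L2 k) D.K < p := by
  refine lt_of_le_of_lt ?_ hp
  refine le_trans (LinearMap.finrank_range_le D.kum.Φ) ?_
  rw [Module.finrank_fintype_fun_eq_card, Fintype.card_fun, Fintype.card_fin, Fintype.card_fin,
    kum_m, deg]
  exact Nat.le_mul_of_pos_left _ (by norm_num)

/-- The Jacobian is not zero. -/
theorem J_ne (hs : D.Good s) (p : ℕ) [CharP k p] (hp : D.deg < p) : D.J s ≠ 0 :=
  haveI := D.sep hs p hp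
  jac_ne (D.eta s) (D.zeta s)

/-- The inverse of the generator of the canonical module. -/
noncomputable def θinv (s : k) : D.K :=
  D.J s * D.mon D.topIdx 1 / D.TK s 0 ^ (D.m - 2)

theorem θinv_ne (hs : D.Good s) (p : ℕ) [CharP k p] (hp : D.deg < p) : D.θinv s ≠ 0 :=
  div_ne_zero (mul_ne_zero (D.J_ne hs p hp) (D.mon_ne _ one_ne_zero)) (pow_ne_zero _ (D.TK_ne s 0))

theorem mon_mul_mem {χ χ' : D.kum.Idx} {φ ψ : L2 k} {j : ℕ}
    (h : D.Adm j (D.kum.Z χ φ * D.kum.Z χ' ψ)) :
    ((D.mon χ φ * D.mon χ' ψ : D.K) : M2 k) ∈ D.grad.Sec j := by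
  have e : ((D.mon χ φ * D.mon χ' ψ : D.K) : M2 k)
      = algebraMap (L2 k) (M2 k) (φ * ψ * D.kum.carry χ χ') * D.kum.rx (D.kum.add χ χ') := by
    show algebraMap (L2 k) (M2 k) φ * D.kum.rx χ * (algebraMap (L2 k) (M2 k) ψ * D.kum.rx χ') = _
    rw [mul_mul_mul_comm, D.kum.rx_mul, map_mul, map_mul]; ring
  rw [e, D.grad.monomial_mem_Sec, Grad.mem_block, ← D.kum.Z_mul]
  exact h

theorem omega_le_nat [IsAlgClosed k] (hs : D.Good s) (p : ℕ) [CharP k p] (hp : D.deg < p) {n : ℕ}
    {w : D.K} (hw : (fun _ : Fin 1 => w) ∈ (D.cone hs p hp).omega n) :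
    w * D.θinv s ∈ D.R s ((n + (D.m - 2) : ℕ) : ℤ) := by
  have hpp : p.Prime := (CharP.char_is_prime_or_zero k p).resolve_right (by omega)
  have hdim := D.finrank_K_lt hp
  set z := w * D.J s * D.TK s 0 ^ n with hz
  obtain ⟨f, hf⟩ := D.mem_field.mp z.2
  rw [mem_R]
  have e : ((w * D.θinv s : D.K) : M2 k) * D.T s 0 ^ (n + (D.m - 2))
      = ((z * D.mon D.topIdx 1 : D.K) : M2 k) := by
    have h : w * D.θinv s * D.TK s 0 ^ (n + (D.m - 2)) = z * D.mon D.topIdx 1 := by
      have := pow_ne_zero (D.m - 2) (D.TK_ne s 0)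
      rw [hz, θinv, pow_add]
      field_simp
    exact congrArg Subtype.val h
  rw [e, D.sum_mon f z hf, Finset.sum_mul, IntermediateField.coe_sum]
  refine sum_mem fun χ _ => ?_
  rcases eq_or_ne (f χ) 0 with h0 | h0
  · rw [h0]
    simp [mon]
  obtain ⟨a, b, hb, hab⟩ := IsFractionRing.div_surjective (A := P2 k) (f χ)
  have hb0 := nonZeroDivisors.ne_zero hb
  have ha0 : a ≠ 0 := fun h => h0 (by rw [← hab, h, map_zero, zero_div])
  have bound : ∀ v : Place D,
      (n * v.β : ℤ) - D.m * v.δ < D.m * (v.o.f a - v.o.f b) + v.o.f (D.cχ χ) := fun v =>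
    v.omega_bound hs p hp hdim hw hf ha0 hb0 hab.symm
  obtain ⟨y, hy, hadm⟩ := D.adm_shift (n := n) (χ := χ) ha0 hb0
    (fun π hπ => by
      obtain ⟨i, hi⟩ := exists_not_dvd_pderiv hpp hπ
      obtain ⟨j, hij⟩ : ∃ j, i ≠ j := ⟨i + 1, by omega⟩
      have h := bound (D.curvePlace hπ i j hij hi)
      rw [curvePlace_δ] at h
      simp only [curvePlace] at h
      linarith)
    (by
      have h := bound D.degPlace
      rw [degPlace_δ] at h
      simp only [degPlace] at h
      linarith)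
    (Fin.forall_fin_two.2 ⟨by
      have h := bound (D.varPlace 0 1 (by decide))
      rw [varPlace_δ] at h
      simp only [varPlace] at h
      linarith, by
      have h := bound (D.varPlace 1 0 (by decide))
      rw [varPlace_δ] at h
      simp only [varPlace] at h
      linarith⟩)
    (by
      have h := bound D.originPlace
      rw [originPlace_δ] at h
      simp only [originPlace] at h
      linarith)
    (fun g => by
      have h := bound (D.gridPlace g)
      rw [gridPlace_δ] at h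
      simp only [gridPlace] at h
      linarith)
  refine D.mon_mul_mem ?_
  refine ⟨y, ?_, hadm⟩
  have h1 : D.kum.Z χ (f χ) = algebraMap (P2 k) (L2 k) (a ^ D.m * D.cχ χ)
      / algebraMap (P2 k) (L2 k) (b ^ D.m) := by
    show f χ ^ D.m * D.kum.cx χ = _
    rw [← hab, D.cx_eq, map_mul, map_pow, map_pow, div_pow]; ring
  have h2 : D.kum.Z D.topIdx 1 = algebraMap (P2 k) (L2 k) (D.cχ D.topIdx) := by
    show (1 : L2 k) ^ D.m * D.kum.cx D.topIdx = _
    rw [one_pow, one_mul, D.cx_eq]
  rw [h1, h2, div_mul_eq_mul_div, eq_div_iff ((map_ne_zero_iff _ (IsFractionRing.injective _ _)).2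
    (pow_ne_zero _ hb0)), ← map_mul, ← map_mul, hy]

end Par

end Vale.Agent.P190.Example
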