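import Vale.Agent.P190.Example.OmegaEq
import Vale.Agent.P190.Example.Omega

/-!
P190: Module 6, the example.
-/

namespace Vale.Agent.P190.Example

open Filter

/-- Cones of one shape over the algebraic closures of the prime fields, smooth, with
`K² - 8χ > 10 d`. -/
theorem exampleModule : ExampleModule :=
  exampleModule_of_le fun _ _ _ _ D s hs p _ hp =>
    ⟨_, inv_ne_zero (D.θinv_ne hs p hp), eventually_atTop.mpr ⟨0, fun n hn => by
      obtain ⟨l, rfl⟩ : ∃ l : ℕ, n = l := ⟨n.toNat, by omega⟩
      refine le_map_of_mem (D.θinv_ne hs p hp) fun w hw => ?_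
      rw [← Nat.cast_add]
      exact D.omega_le_nat hs p hp hw⟩⟩

end Vale.Agent.P190.Example
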