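import Vale.Agent.P190.Example.Data

/-!
# P190 Module 6: the example as a Kummer model; monomial admissibility in closed form
-/

namespace Vale.Agent.P190.Example

open MvPolynomial

set_option linter.unusedSectionVars false

variable {k : Type} [Field k] [Infinite k] (D : Par k)

namespace Par

instance neZero_M2 [NeZero (D.m : k)] : NeZero (D.m : M2 k) :=
  NeZero.nat_of_injective (f := algebraMap k (M2 k)) (algebraMap k (M2 k)).injective

theorem exists_root (i : Fin 3) :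
    ∃ z : M2 k, z ^ D.m = algebraMap (L2 k) (M2 k) (algebraMap (P2 k) (L2 k) (D.cpol i)) :=
  haveI : NeZero (D.m : k) := ⟨D.hmk⟩
  IsSepClosed.exists_pow_nat_eq _ D.m

/-- The Kummer data `u, v, w`. -/
noncomputable def kum : Kummer k (L2 k) (M2 k) (Fin 3) where
  m := D.m
  hm := D.m_pos
  ζ := D.μ
  hζ := D.hμ
  c i := algebraMap (P2 k) (L2 k) (D.cpol i)
  hc i := fun h => D.cpol_ne i ((map_eq_zero_iff _ (IsFractionRing.injective (P2 k) (L2 k))).mp h)
  rt i := (D.exists_root i).choose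
  hrt i := (D.exists_root i).choose_spec
  indep := by
    intro χ ⟨φ, hφ⟩ i
    by_contra hi
    let z0 : D.Ix := fun _ => ⟨0, D.m_pos⟩
    have hz0 : D.cχ z0 = 1 := by simp [cχ, z0]
    obtain ⟨p, rfl⟩ := D.exists_poly (χ := z0) (φ := φ) (z := D.cχ χ) (by
      rw [hz0, map_one, mul_one, hφ, cχ, map_prod]
      simp)
    have he : p ^ D.m = D.cχ χ := by
      apply IsFractionRing.injective (P2 k) (L2 k)
      rw [map_pow, hφ, cχ, map_prod]
      simp
    have hnu : ¬ IsUnit (D.cpol i) := fun hu => by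
      have := hu.map (eval (D.grid (⟨0, D.m_pos⟩, ⟨0, D.m_pos⟩)))
      rw [D.eval_cpol_grid] at this
      exact not_isUnit_zero this
    obtain ⟨π, hπi, hπc⟩ := WfDvdMonoid.exists_irreducible_factor hnu (D.cpol_ne i)
    have hπ : Prime π := irreducible_iff_prime.mp hπi
    have hπp : π ∣ p := hπ.dvd_of_dvd_pow (n := D.m) (he ▸
      (hπc.trans ((dvd_pow_self _ hi).trans
        (Finset.dvd_prod_of_mem (fun j => D.cpol j ^ (χ j : ℕ)) (Finset.mem_univ i)))))
    exact D.not_pow_dvd_cχ hπ χ (he ▸ pow_dvd_pow_of_dvd hπp _)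

@[simp] theorem kum_m : D.kum.m = D.m := rfl

theorem cx_eq (χ : D.Ix) : D.kum.cx χ = algebraMap (P2 k) (L2 k) (D.cχ χ) := by
  simp [Kummer.cx, cχ, kum]

theorem Z_algebraMap (χ : D.Ix) (p : P2 k) :
    D.kum.Z χ (algebraMap (P2 k) (L2 k) p) =
      algebraMap (P2 k) (L2 k) (p ^ D.m * D.cχ χ) := by
  show (algebraMap (P2 k) (L2 k) p) ^ D.m * D.kum.cx χ = _
  rw [cx_eq, map_mul, map_pow]

/-- Admissibility in degree `j`. -/
def Adm (j : ℕ) (z : L2 k) : Prop := ∃ p : P2 k, algebraMap (P2 k) (L2 k) p = z ∧ D.AdmPoly j p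

/-- `a + b + c`. -/
def tot (χ : D.Ix) : ℕ := ∑ i, (χ i : ℕ)

/-- `a + c`. -/
def exX (χ : D.Ix) : ℕ := (χ 0 : ℕ) + χ 2

/-- `a + b`. -/
def exY (χ : D.Ix) : ℕ := (χ 0 : ℕ) + χ 1

theorem degreeOf_cpol (i : Fin 3) :
    degreeOf 0 (D.cpol i) = (if i = 1 then 0 else D.m) ∧
    degreeOf 1 (D.cpol i) = (if i = 2 then 0 else D.m) := by
  have h0 : (0 : Fin 2) ≠ 1 := by decide
  have hm := D.m_pos
  have hle : ∀ l : Fin 2, degreeOf l (D.cpol i) ≤ D.m := fun l => by
    fin_cases i <;> refine (degreeOf_sub_le _ _ _).trans (max_le ?_ ?_) <;>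
      (try simp only [degreeOf_one, zero_le]) <;>
      exact (degreeOf_pow_le _ _ _).trans (by
        by_cases h : l = (0 : Fin 2) <;> by_cases h' : l = (1 : Fin 2) <;>
          simp_all [degreeOf_X])
  have hge : ∀ (l : Fin 2) (a : k), coeff (Finsupp.single l D.m) (D.cpol i) = a → a ≠ 0 →
      D.m ≤ degreeOf l (D.cpol i) := fun l a ha ha0 => by
    have := monomial_le_degreeOf (f := D.cpol i) l
      (mem_support_iff.mpr (show coeff (Finsupp.single l D.m) (D.cpol i) ≠ 0 by rw [ha]; exact ha0))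
    simpa using this
  have hs : Finsupp.single (0 : Fin 2) D.m ≠ Finsupp.single 1 D.m := fun h => by
    simpa [hm.ne'] using DFunLike.congr_fun h 0
  have hne : ∀ l : Fin 2, (0 : Fin 2 →₀ ℕ) ≠ Finsupp.single l D.m := fun l h => by
    simpa [hm.ne] using DFunLike.congr_fun h l
  have c1 : ∀ (l : Fin 2), coeff (Finsupp.single l D.m) (1 : P2 k) = 0 := fun l => by
    rw [coeff_one, if_neg (hne l)]
  fin_cases i
  · exact ⟨le_antisymm (hle 0) (hge 0 1 (by simp [cpol, coeff_X_pow, hs.symm]) one_ne_zero),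
      le_antisymm (hle 1) (hge 1 (-1) (by simp [cpol, coeff_X_pow, hs]) (neg_ne_zero.mpr one_ne_zero))⟩
  · refine ⟨Nat.le_zero.mp ((degreeOf_sub_le _ _ _).trans ?_),
      le_antisymm (hle 1) (hge 1 1 (by simp [cpol, coeff_X_pow, c1]) one_ne_zero)⟩
    simp [degreeOf_X_pow_of_ne, h0]
  · refine ⟨le_antisymm (hle 0)
      (hge 0 (-1) (by simp [cpol, coeff_X_pow, c1]) (neg_ne_zero.mpr one_ne_zero)),
      Nat.le_zero.mp ((degreeOf_sub_le _ _ _).trans ?_)⟩
    simp [degreeOf_X_pow_of_ne, h0.symm]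

theorem totalDegree_cpol (i : Fin 3) : (D.cpol i).totalDegree = D.m := by
  obtain ⟨h0, h1⟩ := D.degreeOf_cpol i
  refine le_antisymm ?_ ?_
  · fin_cases i <;> refine (totalDegree_sub _ _).trans (max_le ?_ ?_) <;>
      simp [totalDegree_X_pow]
  · fin_cases i
    · exact le_of_eq_of_le (by simpa using h0.symm) (degreeOf_le_totalDegree _ _)
    · exact le_of_eq_of_le (by simpa using h1.symm) (degreeOf_le_totalDegree _ _)
    · exact le_of_eq_of_le (by simpa using h0.symm) (degreeOf_le_totalDegree _ _)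

theorem degreeOf_cχ (χ : D.Ix) :
    degreeOf 0 (D.cχ χ) = D.m * D.exX χ ∧ degreeOf 1 (D.cχ χ) = D.m * D.exY χ ∧
      (D.cχ χ).totalDegree = D.m * D.tot χ := by
  have hne : ∀ i, D.cpol i ^ (χ i : ℕ) ≠ 0 := fun i => pow_ne_zero _ (D.cpol_ne i)
  refine ⟨?_, ?_, ?_⟩
  · rw [cχ, degreeOf_prod_eq _ _ (fun i _ => hne i), Fin.sum_univ_three]
    simp only [degreeOf_pow_eq _ _ _ (D.cpol_ne _), (D.degreeOf_cpol _).1, exX]
    simp
    ring
  · rw [cχ, degreeOf_prod_eq _ _ (fun i _ => hne i), Fin.sum_univ_three]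
    simp only [degreeOf_pow_eq _ _ _ (D.cpol_ne _), (D.degreeOf_cpol _).2, exY]
    simp
    ring
  · have hp : ∀ (p : P2 k) (n : ℕ), p ≠ 0 → (p ^ n).totalDegree = n * p.totalDegree := by
      intro p n hp
      induction n with
      | zero => simp
      | succ n ih => rw [pow_succ, totalDegree_mul_of_isDomain (pow_ne_zero _ hp) hp, ih]; ring
    rw [cχ, Fin.prod_univ_three, totalDegree_mul_of_isDomain (mul_ne_zero (hne 0) (hne 1)) (hne 2),
      totalDegree_mul_of_isDomain (hne 0) (hne 1), hp _ _ (D.cpol_ne _), hp _ _ (D.cpol_ne _),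
      hp _ _ (D.cpol_ne _), totalDegree_cpol, totalDegree_cpol, totalDegree_cpol, tot,
      Fin.sum_univ_three]
    ring

theorem ordAt_cχ (χ : D.Ix) :
    ordAt (0 : Fin 2 → k) (D.cχ χ) = ((D.m * (χ 0 : ℕ) : ℕ) : ℕ∞) ∧
    ∀ q, ordAt (D.grid q) (D.cχ χ) = (D.tot χ : ℕ∞) := by
  refine ⟨?_, fun q => ?_⟩
  · rw [cχ, ordAt_prod, Fin.sum_univ_three]
    simp [ordAt_pow, ordAt_cpol_origin, mul_comm]
  · rw [cχ, ordAt_prod, tot]
    simp [ordAt_pow, ordAt_cpol_grid]

/-- The order needed at the grid points in degree `j`. -/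
def gridOrd (χ : D.Ix) (j : ℕ) : ℕ := (j - D.tot χ + (D.m - 1)) / D.m

theorem gridOrd_le_iff (χ : D.Ix) (j n : ℕ) : D.gridOrd χ j ≤ n ↔ j ≤ D.m * n + D.tot χ := by
  have hm := D.m_pos
  rw [gridOrd, ← Nat.lt_succ_iff, Nat.div_lt_iff_lt_mul hm, Nat.succ_mul, mul_comm n]
  omega

/-- The polynomials allowed on `u^a v^b w^c` in degree `j`. -/
structure PBlock (χ : D.Ix) (j : ℕ) (p : P2 k) : Prop where
  degX : degreeOf 0 p + D.exX χ ≤ 2 * j
  degY : degreeOf 1 p + D.exY χ ≤ 2 * j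
  deg : p.totalDegree + D.tot χ ≤ 3 * j
  origin : ((j - (χ 0 : ℕ) : ℕ) : ℕ∞) ≤ ordAt 0 p
  points : ∀ q, (D.gridOrd χ j : ℕ∞) ≤ ordAt (D.grid q) p

theorem admPoly_monomial_iff {χ : D.Ix} {j : ℕ} {p : P2 k} (hp : p ≠ 0) :
    D.AdmPoly j (p ^ D.m * D.cχ χ) ↔ D.PBlock χ j p := by
  have hm := D.m_pos
  have hpm := pow_ne_zero D.m hp
  obtain ⟨e0, e1, e2⟩ := D.degreeOf_cχ χ
  obtain ⟨o0, o1⟩ := D.ordAt_cχ χ
  have tp : (p ^ D.m).totalDegree = D.m * p.totalDegree := by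
    generalize D.m = n
    induction n with
    | zero => simp
    | succ n ih => rw [pow_succ, totalDegree_mul_of_isDomain (pow_ne_zero _ hp) hp, ih]; ring
  have hX : degreeOf 0 (p ^ D.m * D.cχ χ) = D.m * (degreeOf 0 p + D.exX χ) := by
    rw [degreeOf_mul_eq hpm (D.cχ_ne χ), degreeOf_pow_eq _ _ _ hp, e0, mul_add]
  have hY : degreeOf 1 (p ^ D.m * D.cχ χ) = D.m * (degreeOf 1 p + D.exY χ) := by
    rw [degreeOf_mul_eq hpm (D.cχ_ne χ), degreeOf_pow_eq _ _ _ hp, e1, mul_add]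
  have hT : (p ^ D.m * D.cχ χ).totalDegree = D.m * (p.totalDegree + D.tot χ) := by
    rw [totalDegree_mul_of_isDomain hpm (D.cχ_ne χ), tp, e2, mul_add]
  have hO : ∀ n : ℕ, ordAt (0 : Fin 2 → k) p = n →
      ordAt (0 : Fin 2 → k) (p ^ D.m * D.cχ χ) = ((D.m * (n + (χ 0 : ℕ)) : ℕ) : ℕ∞) := fun n hn => by
    rw [ordAt_mul, ordAt_pow, hn, o0]; push_cast; ring
  have hG : ∀ q (n : ℕ), ordAt (D.grid q) p = n →
      ordAt (D.grid q) (p ^ D.m * D.cχ χ) = ((D.m * n + D.tot χ : ℕ) : ℕ∞) := fun q n hn => by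
    rw [ordAt_mul, ordAt_pow, hn, o1]; push_cast; ring
  obtain ⟨n0, hn0⟩ := ENat.ne_top_iff_exists.mp (ordAt_ne_top (P := (0 : Fin 2 → k)) hp)
  constructor
  · intro h
    refine ⟨?_, ?_, ?_, ?_, fun q => ?_⟩
    · have := h.degX; rw [hX, mul_comm 2, mul_assoc] at this
      exact Nat.le_of_mul_le_mul_left this hm
    · have := h.degY; rw [hY, mul_comm 2, mul_assoc] at this
      exact Nat.le_of_mul_le_mul_left this hm
    · have := h.deg; rw [hT, mul_comm 3, mul_assoc] at this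
      exact Nat.le_of_mul_le_mul_left this hm
    · have := h.origin; rw [hO n0 hn0.symm, Nat.cast_le] at this
      rw [← hn0, Nat.cast_le]
      have := Nat.le_of_mul_le_mul_left this hm
      omega
    · obtain ⟨n, hn⟩ := ENat.ne_top_iff_exists.mp (ordAt_ne_top (P := D.grid q) hp)
      have := h.points q; rw [hG q n hn.symm, Nat.cast_le] at this
      rw [← hn, Nat.cast_le, gridOrd_le_iff]
      exact this
  · intro h
    refine ⟨?_, ?_, ?_, ?_, fun q => ?_⟩
    · rw [hX, mul_comm 2, mul_assoc]; exact Nat.mul_le_mul_left _ h.degX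
    · rw [hY, mul_comm 2, mul_assoc]; exact Nat.mul_le_mul_left _ h.degY
    · rw [hT, mul_comm 3, mul_assoc]; exact Nat.mul_le_mul_left _ h.deg
    · rw [hO n0 hn0.symm, Nat.cast_le]
      have := h.origin; rw [← hn0, Nat.cast_le] at this
      exact Nat.mul_le_mul_left _ (by omega)
    · obtain ⟨n, hn⟩ := ENat.ne_top_iff_exists.mp (ordAt_ne_top (P := D.grid q) hp)
      rw [hG q n hn.symm, Nat.cast_le, ← gridOrd_le_iff]
      have := h.points q; rwa [← hn, Nat.cast_le] at this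

theorem adm_Z_iff {χ : D.Ix} {j : ℕ} {φ : L2 k} :
    D.Adm j (D.kum.Z χ φ) ↔
      φ = 0 ∨ ∃ p : P2 k, algebraMap (P2 k) (L2 k) p = φ ∧ D.PBlock χ j p := by
  constructor
  · rintro ⟨z, hz, hadm⟩
    obtain ⟨p, rfl⟩ := D.exists_poly (χ := χ) (φ := φ) (z := z) (by
      rw [hz, ← D.cx_eq χ]
      rfl)
    rw [Z_algebraMap] at hz
    obtain rfl := IsFractionRing.injective (P2 k) (L2 k) hz
    by_cases hp : p = 0
    · exact Or.inl (by simp [hp])
    · exact Or.inr ⟨p, rfl, (D.admPoly_monomial_iff hp).mp hadm⟩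
  · rintro (rfl | ⟨p, rfl, hp⟩)
    · exact ⟨0, by simp [Kummer.Z, zero_pow D.m_pos.ne'], D.admPoly_zero j⟩
    · refine ⟨_, (D.Z_algebraMap χ p).symm, ?_⟩
      by_cases h0 : p = 0
      · simpa [h0, zero_pow D.m_pos.ne'] using D.admPoly_zero j
      · exact (D.admPoly_monomial_iff h0).mpr hp

variable {D}

theorem PBlock.zero {χ : D.Ix} {j : ℕ} {p : P2 k} (h : D.PBlock χ j p) : D.PBlock χ j 0 where
  degX := by simpa using le_trans (Nat.le_add_left _ _) h.degX
  degY := by simpa using le_trans (Nat.le_add_left _ _) h.degY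
  deg := by simpa using le_trans (Nat.le_add_left _ _) h.deg
  origin := by simp
  points q := by simp

theorem PBlock.add {χ : D.Ix} {j : ℕ} {p q : P2 k} (hp : D.PBlock χ j p) (hq : D.PBlock χ j q) :
    D.PBlock χ j (p + q) where
  degX := by have := degreeOf_add_le 0 p q; have := hp.degX; have := hq.degX; omega
  degY := by have := degreeOf_add_le 1 p q; have := hp.degY; have := hq.degY; omega
  deg := by have := totalDegree_add p q; have := hp.deg; have := hq.deg; omega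
  origin := le_ordAt_add hp.origin hq.origin
  points r := le_ordAt_add (hp.points r) (hq.points r)

variable (D)

/-- The graded structure of the example. -/
noncomputable def grad : Grad D.kum where
  adm := D.Adm
  adm_zero j := ⟨0, by simp, D.admPoly_zero j⟩
  adm_one := ⟨1, by simp, D.admPoly_one⟩
  adm_mul := by
    rintro i j _ _ ⟨p, rfl, hp⟩ ⟨q, rfl, hq⟩
    exact ⟨p * q, map_mul _ _ _, hp.mul hq⟩
  adm_add := by
    intro j χ φ ψ hφ hψ
    refine (D.adm_Z_iff (χ := χ) (φ := φ + ψ)).mpr ?_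
    replace hφ := (D.adm_Z_iff (χ := χ) (φ := φ)).mp hφ
    replace hψ := (D.adm_Z_iff (χ := χ) (φ := ψ)).mp hψ
    rcases hφ with rfl | ⟨p, rfl, hp⟩
    · simpa using hψ
    rcases hψ with rfl | ⟨q, rfl, hq⟩
    · exact Or.inr ⟨p, by simp, hp⟩
    exact Or.inr ⟨p + q, map_add _ _ _, hp.add hq⟩
  adm_smul := by
    rintro j a _ ⟨p, rfl, hp⟩
    exact ⟨a • p, map_smul (IsScalarTower.toAlgHom k (P2 k) (L2 k)) a p, hp.smul a⟩

theorem mem_block_iff {χ : D.Ix} {j : ℕ} {φ : L2 k} :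
    φ ∈ D.grad.block χ j ↔
      φ = 0 ∨ ∃ p : P2 k, algebraMap (P2 k) (L2 k) p = φ ∧ D.PBlock χ j p :=
  D.adm_Z_iff

end Par

end Vale.Agent.P190.Example
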