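import Vale.Agent.P190.Example.Family

/-!
# P190 Module 6: the canonical module from its containment in a shift of the ring
-/

namespace Vale.Agent.P190.Example

open Filter Hilb

section Generic

variable {k K : Type} [Field k] [Field K] [Algebra k K] {η ζ : K} {r : ℕ}
  (hind : AlgebraicIndependent k ![η, ζ]) [FiniteDimensional (ratField k η ζ) K]
  [Algebra.IsSeparable (ratField k η ζ) K]

include hind

/-- The dual has at least the reflected polynomial dimension in large degrees. -/
theorem dual_poly_le {N : ℤ → Submodule k (Fin r → K)} (hN : Fam η ζ N) {D e c : ℚ}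
    (hP : HasPoly N D e c) :
    ∀ᶠ m : ℤ in atTop,
      D * ((-(m : ℚ) + 2) * (-(m : ℚ) + 1) / 2) + e * (-(m : ℚ) + 1) + c
        ≤ (Module.finrank k (dualFam η ζ N m) : ℚ) := by
  classical
  obtain ⟨S, g, hexp, hdual⟩ := exists_expansion hind hN
  obtain ⟨n₁, hn₁⟩ := eventually_atTop.mp hP
  set A : ℚ := (∑ a ∈ S, (g a : ℚ)) / 2
  set B : ℚ := ∑ a ∈ S, (g a : ℚ) * ((3 - 2 * (a : ℚ)) / 2)
  set C : ℚ := ∑ a ∈ S, (g a : ℚ) * tpoly (-(a : ℚ))
  have hF : ∀ x : ℚ, ∑ a ∈ S, (g a : ℚ) * tpoly (x - a) = A * x ^ 2 + B * x + C := fun x => by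
    simp only [A, B, C, Finset.sum_div, Finset.sum_mul, ← Finset.sum_add_distrib]
    exact Finset.sum_congr rfl fun a _ => by simp only [tpoly]; ring
  obtain ⟨M, hM1, hM2⟩ : ∃ M : ℤ, n₁ ≤ M ∧ ∀ a ∈ S, a ≤ M ∧ 3 - a ≤ M := by
    obtain ⟨M, hM⟩ := (S ∪ S.image (fun a => 3 - a) ∪ {n₁}).bddAbove
    exact ⟨M, hM (by simp), fun a ha => ⟨hM (by simp [ha]), hM (by
      simp only [Finset.coe_union, Finset.coe_image, Set.mem_union, Set.mem_image]
      exact Or.inl (Or.inr ⟨a, ha, rfl⟩))⟩⟩
  have hbig : ∀ x : ℤ, M ≤ x → A * (x : ℚ) ^ 2 + B * x + C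
      = D * (((x : ℚ) + 2) * ((x : ℚ) + 1) / 2) + e * ((x : ℚ) + 1) + c := fun x hx => by
    rw [← hn₁ x (by omega), ← hF]
    have h := congrArg (fun z : ℤ => (z : ℚ)) (hexp x)
    push_cast at h
    rw [h]
    refine Finset.sum_congr rfl fun a ha => ?_
    have := (hM2 a ha).1
    rw [← Int.cast_sub, tpoly_eq, cpos_of_neg (show -(x - a) - 3 < 0 by omega)]
    simp
  have hall : ∀ x : ℚ, A * x ^ 2 + B * x + C
      = D * ((x + 2) * (x + 1) / 2) + e * (x + 1) + c := fun x => by
    have h0 := hbig M le_rfl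
    have h1 := hbig (M + 1) (by omega)
    have h2 := hbig (M + 2) (by omega)
    push_cast at h1 h2
    linear_combination (x - M - 1) * (x - M - 2) / 2 * h0
      - (x - M) * (x - M - 2) * h1 + (x - M) * (x - M - 1) / 2 * h2
  refine eventually_atTop.mpr ⟨M, fun m hm => ?_⟩
  rw [← hall, ← hF]
  have h : ((∑ a ∈ S, g a * cpos (m - (3 - a)) : ℤ) : ℚ) ≤
      (Module.finrank k (dualFam η ζ N m) : ℚ) := by exact_mod_cast hdual m
  refine le_trans (le_of_eq ?_) h
  push_cast
  refine Finset.sum_congr rfl fun a ha => ?_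
  have := (hM2 a ha).2
  have e := tpoly_eq (m - (3 - a))
  rw [cpos_of_neg (show -(m - (3 - a)) - 3 < 0 by omega)] at e
  push_cast at e
  simp only [tpoly] at e ⊢
  linear_combination (g a : ℚ) * e

end Generic

section Cone

variable {k K : Type} [Field k] [Field K] [Algebra k K]

/-- In large degrees the canonical module is contained in a shift of the ring. -/
def OmegaLE (C : Cone k K) (a : ℕ) (w : K) : Prop :=
  ∀ᶠ n : ℤ in atTop,
    C.omega n ≤ (one1 C.R (n + a)).map (DistribSMul.toLinearMap k (Fin 1 → K) w)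

/-- The canonical module is the shift as soon as it is contained in it in large degrees and the
dimensions are the reflected ones. -/
theorem omegaShift_of_le (C : Cone k K) (hfam : Fam C.η C.ζ (one1 C.R))
    (hsat : ∀ n, ∀ q ∈ C.R (n + 1), C.η * q ∈ C.R (n + 1) → q ∈ C.R n)
    {a : ℕ} {w : K} (hw : w ≠ 0) {e c : ℚ} (hP : HasPoly C.R C.d e c)
    (hsym : ∀ x : ℚ, (C.d : ℚ) * ((-x + 2) * (-x + 1) / 2) + e * (-x + 1) + c
      = (C.d : ℚ) * ((x + a + 2) * (x + a + 1) / 2) + e * (x + a + 1) + c)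
    (hle : OmegaLE C a w) : OmegaShift C := by
  have hsep := C.sep
  have hfd : FiniteDimensional (ratField k C.η C.ζ) K :=
    Module.finite_of_finrank_pos (C.finrank_K ▸ C.d_pos)
  set T := DistribSMul.toLinearMap k (Fin 1 → K) w
  have hTinj : Function.Injective T := smul_right_injective (Fin 1 → K) hw
  have hP' : HasPoly (one1 C.R) C.d e c := hP.mono fun n hn => by rw [finrank_one1]; exact hn
  obtain ⟨n₁, hn₁⟩ := eventually_atTop.mp
    ((hle.and (dual_poly_le C.indep hfam hP')).and
      ((tendsto_atTop_add_const_right atTop (a : ℤ) tendsto_id).eventually hP'))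
  have hbig : ∀ n ≥ n₁, C.omega n = (one1 C.R (n + a)).map T := fun n hn => by
    obtain ⟨⟨hcont, hlow⟩, hR⟩ := hn₁ n hn
    have := hfam.fd (n + a)
    refine Submodule.eq_of_le_of_finrank_le hcont ?_
    rw [← (Submodule.equivMapOfInjective T hTinj _).finrank_eq]
    have h : (Module.finrank k (one1 C.R (n + a)) : ℚ) ≤
        (Module.finrank k (dualFam C.η C.ζ (one1 C.R) n) : ℚ) := by
      refine le_trans (le_of_eq ?_) hlow
      rw [hsym]
      simpa using hR
    exact_mod_cast h
  refine ⟨a, w, hw, ?_⟩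
  suffices hall : ∀ (l : ℕ) (n : ℤ), n₁ ≤ n + l → C.omega n = (one1 C.R (n + a)).map T from
    fun n => hall (n₁ - n).toNat n (by omega)
  intro l
  induction l with
  | zero => exact fun n hn => hbig n (by simpa using hn)
  | succ l ih =>
    intro n hn
    have h1 := ih (n + 1) (by push_cast at hn ⊢; omega)
    rw [show n + 1 + (a : ℤ) = n + a + 1 by ring] at h1
    refine le_antisymm (fun u hu => ?_) ?_
    · have hu1 : u ∈ C.omega (n + 1) := dualFam_mono (by omega) hu
      rw [h1] at hu1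
      obtain ⟨v, hv, rfl⟩ := hu1
      have hu2 : C.η • T v ∈ C.omega (n + 1) := mul_mem_dualFam (Or.inl rfl) hu
      rw [h1] at hu2
      obtain ⟨v', hv', e'⟩ := hu2
      have : v' = C.η • v := hTinj (e'.trans (smul_comm C.η w v))
      exact ⟨v, hsat _ (v 0) hv (by subst this; exact hv'), rfl⟩
    · rintro _ ⟨v, hv, rfl⟩
      refine dualFam_sat C.indep ?_ ?_
      · show T v ∈ C.omega (n + 1)
        rw [h1]
        exact ⟨v, hfam.mono _ hv, rfl⟩
      · show C.η • T v ∈ C.omega (n + 1)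
        rw [h1]
        exact ⟨C.η • v, hfam.eta _ v hv, (smul_comm C.η w v).symm⟩

end Cone

namespace Par

set_option linter.unusedSectionVars false

variable {k : Type} [Field k] [Infinite k] (D : Par k) {s : k}

/-- The canonical module of the cone from its containment in large degrees. -/
theorem omegaShift_cone (hs : D.Good s) (p : ℕ) [CharP k p] (hp : D.deg < p) {w : D.K} (hw : w ≠ 0)
    (hle : OmegaLE (D.cone hs p hp) (D.m - 2) w) :
    OmegaShift (D.cone hs p hp) := by
  haveI := D.sep hs p hp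
  refine omegaShift_of_le _ (D.fam_R hs) (fun n v hv hv' => D.sat_all hs hv hv') hw
    (D.hasPoly_R s) (fun x => ?_) hle
  have h2 : 2 ≤ D.m := by have := D.hm; omega
  show (D.deg : ℚ) * _ + _ + _ = (D.deg : ℚ) * _ + _ + _
  simp only [eCoef, deg, Nat.cast_sub h2]
  push_cast
  ring

end Par

/-- Module 6 from the containment. -/
theorem exampleModule_of_le
    (h : ∀ (k : Type) [Field k] [Infinite k] [IsAlgClosed k] (D : Par k) (s : k) (hs : D.Good s)
      (p : ℕ) [CharP k p] (hp : D.deg < p),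
      ∃ w, w ≠ 0 ∧ OmegaLE (D.cone hs p hp) (D.m - 2) w) :
    ExampleModule :=
  exampleModule_of fun k _ _ _ D s hs p _ hp => by
    obtain ⟨w, hw, hle⟩ := h k D s hs p hp
    exact D.omegaShift_cone hs p hp hw hle

end Vale.Agent.P190.Example
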