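import Vale.Agent.P190.Example.DivVal
import Vale.Agent.P190.Example.Extend

/-!
P190: the valuation rings over a valuation of the plane and the logarithmic derivations on them.
-/

open MvPolynomial WithZero

namespace Vale.Agent.P190.Example

set_option linter.unusedSectionVars false

section Generic

variable {L K Γ : Type*} [Field L] [Field K] [Algebra L K] [LinearOrderedCommGroupWithZero Γ]
  (v : Valuation L Γ)

/-- A valuation ring of the extension lying over a valuation. -/
def Over (B : ValuationSubring K) : Prop := ∀ z : L, algebraMap L K z ∈ B ↔ v z ≤ 1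

theorem exists_over : ∃ B : ValuationSubring K, Over v B := by
  set S : Subring K := v.valuationSubring.toSubring.map (algebraMap L K)
  have hiff : ∀ z, algebraMap L K z ∈ S ↔ v z ≤ 1 := fun z => by
    constructor
    · rintro ⟨z', hz', he⟩
      rwa [← (algebraMap L K).injective he]
    · exact fun h => ⟨z, h, rfl⟩
  have : IsLocalRing S := by
    refine IsLocalRing.of_isUnit_or_isUnit_one_sub_self fun ⟨x, hx⟩ => ?_
    obtain ⟨z, hz, rfl⟩ := hx
    have hu : ∀ y : L, v y = 1 → ∀ hy, IsUnit (⟨algebraMap L K y, hy⟩ : S) := fun y hy hy' =>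
      IsUnit.of_mul_eq_one ⟨algebraMap L K y⁻¹, (hiff _).2 (by rw [map_inv₀, hy, inv_one])⟩
        (Subtype.ext (by
          show algebraMap L K y * algebraMap L K y⁻¹ = 1
          rw [← map_mul, mul_inv_cancel₀ fun h0 => by simp [h0] at hy, map_one]))
    rcases eq_or_lt_of_le (show v z ≤ 1 from hz) with h | h
    · exact Or.inl (hu z h _)
    · refine Or.inr ?_
      convert hu (1 - z) (Valuation.map_one_sub_of_lt v h) ((hiff _).2
        (Valuation.map_one_sub_of_lt v h).le) using 1
      exact Subtype.ext (by simp)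
  obtain ⟨B, hB⟩ := LocalSubring.exists_le_valuationSubring (⟨S⟩ : LocalSubring K)
  refine ⟨B, fun z => ⟨fun hz => ?_, fun hz => hB.1 ((hiff z).2 hz)⟩⟩
  by_contra hlt
  push Not at hlt
  have hz0 : z ≠ 0 := fun h0 => by simp [h0] at hlt
  have hinv : algebraMap L K z⁻¹ ∈ S := (hiff _).2 (by rw [map_inv₀]; exact (inv_lt_one_of_one_lt₀ hlt).le)
  have hu : IsUnit (Subring.inclusion hB.1 ⟨_, hinv⟩) :=
    IsUnit.of_mul_eq_one (⟨algebraMap L K z, hz⟩ : B.toLocalSubring.toSubring) (Subtype.ext (by
      show algebraMap L K z⁻¹ * algebraMap L K z = 1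
      rw [← map_mul, inv_mul_cancel₀ hz0, map_one]))
  obtain ⟨⟨y, hy⟩, hy'⟩ := (hB.2.map_nonunit _ hu).exists_right_inv
  have h1 : algebraMap L K z⁻¹ * y = 1 := congrArg Subtype.val hy'
  obtain ⟨z', hz', rfl⟩ := hy
  rw [← map_mul, ← map_one (algebraMap L K)] at h1
  have h2 : z' = z := by
    have := (algebraMap L K).injective h1
    field_simp at this
    exact this
  exact absurd (show v z' ≤ 1 from hz') (by rw [h2]; exact not_le.2 hlt)

variable {v} {B : ValuationSubring K} (hB : Over v B)

include hB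

theorem Over.le_one_iff (z : L) : B.valuation (algebraMap L K z) ≤ 1 ↔ v z ≤ 1 := by
  rw [B.valuation_le_one_iff]; exact hB z

theorem Over.le_iff (a b : L) :
    B.valuation (algebraMap L K a) ≤ B.valuation (algebraMap L K b) ↔ v a ≤ v b := by
  rcases eq_or_ne b 0 with rfl | hb
  · simp
  have h := hB.le_one_iff (a / b)
  rwa [map_div₀, map_div₀, map_div₀, div_le_one₀ (zero_lt_iff.2 ((Valuation.ne_zero_iff _).2
    ((_root_.map_ne_zero _).2 hb))), div_le_one₀ (zero_lt_iff.2 ((Valuation.ne_zero_iff _).2 hb))] at h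

theorem Over.eq_iff (a b : L) :
    B.valuation (algebraMap L K a) = B.valuation (algebraMap L K b) ↔ v a = v b := by
  rw [le_antisymm_iff, le_antisymm_iff, hB.le_iff, hB.le_iff]

theorem Over.lt_iff (a b : L) :
    B.valuation (algebraMap L K a) < B.valuation (algebraMap L K b) ↔ v a < v b := by
  rw [← not_le, ← not_le, hB.le_iff]

theorem Over.lt_one_iff (z : L) : B.valuation (algebraMap L K z) < 1 ↔ v z < 1 := by
  simpa using hB.lt_iff z 1

theorem Over.eq_one_iff (z : L) : B.valuation (algebraMap L K z) = 1 ↔ v z = 1 := by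
  simpa using hB.eq_iff z 1

/-- Every element of `B` is a fraction of two elements integral at `v`, the denominator of value
zero at `B`. -/
theorem Over.exists_frac [FiniteDimensional L K] {x : K} (hx : x ∈ B) :
    ∃ s : K, B.valuation s = 1 ∧ ∀ B' : ValuationSubring K, Over v B' → s ∈ B' ∧ x * s ∈ B' := by
  classical
  set p := minpoly L x
  have hint : IsIntegral L x := IsIntegral.of_finite L x
  have hn : p.coeff p.natDegree = 1 := (minpoly.monic hint).coeff_natDegree
  obtain ⟨j, hj, hmax⟩ := Finset.exists_max_image (Finset.range (p.natDegree + 1))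
    (fun i => v (p.coeff i)) ⟨0, by simp⟩
  have hj0 : v (p.coeff j) ≠ 0 := fun h0 => by
    have := hmax p.natDegree (by simp)
    simp [hn, h0] at this
  set c : ℕ → L := fun i => p.coeff i / p.coeff j
  have hc : ∀ i, v (c i) ≤ 1 := fun i => by
    rw [map_div₀, div_le_one₀ (zero_lt_iff.2 hj0)]
    rcases lt_or_ge i (p.natDegree + 1) with h | h
    · exact hmax i (Finset.mem_range.2 h)
    · simp [Polynomial.coeff_eq_zero_of_natDegree_lt (show p.natDegree < i by omega)]
  set n := p.natDegree
  -- `s l = c n x ^ l + ... + c (n - l)`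
  let s : ℕ → K := fun l => Nat.rec (algebraMap L K (c n))
    (fun i a => x * a + algebraMap L K (c (n - (i + 1)))) l
  have hs0 : s 0 = algebraMap L K (c n) := rfl
  have hs : ∀ l, s (l + 1) = x * s l + algebraMap L K (c (n - (l + 1))) := fun l => rfl
  have hzero : ∑ i ∈ Finset.range (n + 1), algebraMap L K (c i) * x ^ i = 0 := by
    have h := minpoly.aeval L x
    rw [Polynomial.aeval_eq_sum_range] at h
    have e : ∀ i, algebraMap L K (c i) * x ^ i = (p.coeff j)⁻¹ • (p.coeff i • x ^ i) := fun i => by
      rw [smul_smul, ← div_eq_inv_mul, Algebra.smul_def]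
    simp only [e, ← Finset.smul_sum]
    rw [show ∑ i ∈ Finset.range (n + 1), p.coeff i • x ^ i = 0 from h, smul_zero]
  have hhead : ∀ l, l ≤ n →
      s l * x ^ (n - l) + ∑ i ∈ Finset.range (n - l), algebraMap L K (c i) * x ^ i = 0 := by
    intro l
    induction l with
    | zero =>
      intro _
      rw [hs0, Nat.sub_zero, add_comm, ← Finset.sum_range_succ (f := fun i => algebraMap L K (c i) * x ^ i)]
      exact hzero
    | succ l ih =>
      intro hl
      have h := ih (by omega)
      rw [show n - l = n - (l + 1) + 1 by omega, Finset.sum_range_succ, pow_succ] at h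
      rw [hs]
      linear_combination h
  have hmem : ∀ B' : ValuationSubring K, Over v B' → ∀ l, l ≤ n → s l ∈ B' := by
    intro B' hB' l hl
    rcases B'.mem_or_inv_mem x with hx' | hx'
    · induction l with
      | zero => exact (hB' _).2 (hc n)
      | succ l ih => rw [hs]; exact B'.add_mem _ _ (B'.mul_mem _ _ hx' (ih (by omega))) ((hB' _).2 (hc _))
    · rcases eq_or_ne x 0 with rfl | hx0
      · induction l with
        | zero => exact (hB' _).2 (hc n)
        | succ l ih => rw [hs, zero_mul, zero_add]; exact (hB' _).2 (hc _)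
      have e : s l = -∑ i ∈ Finset.range (n - l), algebraMap L K (c i) * x⁻¹ ^ (n - l - i) := by
        have h := hhead l hl
        rw [add_eq_zero_iff_eq_neg] at h
        rw [eq_comm, ← mul_left_inj' (pow_ne_zero (n - l) hx0), h, neg_mul, Finset.sum_mul]
        congr 1
        refine Finset.sum_congr rfl fun i hi => ?_
        have := Finset.mem_range.1 hi
        rw [inv_pow, mul_assoc]
        congr 1
        rw [inv_mul_eq_div, eq_comm, eq_div_iff (pow_ne_zero _ hx0), ← pow_add]
        congr 1
        omega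
      rw [e]
      exact B'.neg_mem _ (sum_mem fun i _ =>
        B'.mul_mem _ _ ((hB' _).2 (hc i)) (pow_mem hx' _))
  obtain ⟨l, hl, hu⟩ : ∃ l, l ≤ n ∧ B.valuation (s l) = 1 := by
    by_contra! hall
    have hlt : ∀ l, l ≤ n → B.valuation (s l) < 1 := fun l hl =>
      lt_of_le_of_ne ((B.valuation_le_one_iff _).2 (hmem B hB l hl)) (hall l hl)
    have hcj : B.valuation (algebraMap L K (c j)) = 1 := by
      rw [hB.eq_one_iff, map_div₀, div_self hj0]
    have hjn : j ≤ n := by have := Finset.mem_range.1 hj; omega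
    rcases eq_or_lt_of_le hjn with h | h
    · have := hlt 0 (Nat.zero_le _)
      rw [hs0, ← h, hcj] at this
      exact lt_irrefl _ this
    · have e : algebraMap L K (c j) = s (n - j) - x * s (n - j - 1) := by
        have := hs (n - j - 1)
        rw [show n - j - 1 + 1 = n - j by omega, show n - (n - j) = j by omega] at this
        linear_combination -this
      have h1 : B.valuation (x * s (n - j - 1)) < 1 := by
        rw [map_mul]
        exact lt_of_le_of_lt (mul_le_of_le_one_left' ((B.valuation_le_one_iff _).2 hx))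
          (hlt _ (by omega))
      have := Valuation.map_sub B.valuation (s (n - j)) (x * s (n - j - 1))
      rw [← e, hcj] at this
      exact absurd this (not_le.2 (max_lt (hlt _ (by omega)) h1))
  refine ⟨s l, hu, fun B' hB' => ⟨hmem B' hB' l hl, ?_⟩⟩
  rcases eq_or_lt_of_le hl with rfl | h
  · have hn0 := hhead n le_rfl
    rw [Nat.sub_self, Finset.sum_range_zero, add_zero, pow_zero, mul_one] at hn0
    rw [hn0, map_zero] at hu
    exact absurd hu zero_ne_one
  · rw [show x * s l = s (l + 1) - algebraMap L K (c (n - (l + 1))) by rw [hs]; ring]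
    exact sub_mem (hmem B' hB' _ h) ((hB' _).2 (hc _))

end Generic

section Frames

variable {k K : Type} [Field k] [Field K] [Algebra k K] [Algebra (L2 k) K] [Algebra (P2 k) K]
  [IsScalarTower k (P2 k) K] [IsScalarTower (P2 k) (L2 k) K] [IsScalarTower k (L2 k) K]
  [FiniteDimensional (L2 k) K] [Algebra.IsSeparable (L2 k) K]

/-- The extension of a partial derivative. -/
noncomputable def pdK (i : Fin 2) : Derivation k K K :=
  haveI : Algebra.FormallyEtale (P2 k) K := formallyEtale_of_fractions (P2 k) (L2 k) K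
  extendDer ((IsScalarTower.toAlgHom (P2 k) (P2 k) K).toLinearMap.compDer (pderiv i))

theorem pdK_algebraMap (i : Fin 2) (p : P2 k) :
    pdK (k := k) (K := K) i (algebraMap (P2 k) K p) = algebraMap (P2 k) K (pderiv i p) := by
  have : Algebra.FormallyEtale (P2 k) K := formallyEtale_of_fractions (P2 k) (L2 k) K
  exact extendDer_algebraMap _ p

/-- The derivation `(a₀ ∂/∂x + a₁ ∂/∂y) / d`. -/
noncomputable def frameDer (a : Fin 2 → P2 k) (d : P2 k) : Derivation k K K :=
  (algebraMap (P2 k) K d)⁻¹ •
    (algebraMap (P2 k) K (a 0) • pdK 0 + algebraMap (P2 k) K (a 1) • pdK 1)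

theorem frameDer_algebraMap (a : Fin 2 → P2 k) (d p : P2 k) :
    frameDer (K := K) a d (algebraMap (P2 k) K p)
      = (algebraMap (P2 k) K d)⁻¹
        * algebraMap (P2 k) K (a 0 * pderiv 0 p + a 1 * pderiv 1 p) := by
  simp [frameDer, pdK_algebraMap, Algebra.smul_def]
  ring

variable {o : OrdFun k} {B : ValuationSubring K} (hB : Over o.val B) {a : Fin 2 → P2 k} {d : P2 k}
  (hd : d ≠ 0) (hlog : o.Log a d)

include hB hd hlog

theorem frame_log_poly (p : P2 k) :
    LE' B (algebraMap (P2 k) K p) (frameDer a d (algebraMap (P2 k) K p)) := by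
  rw [frameDer_algebraMap]
  rcases eq_or_ne p 0 with rfl | hp
  · exact ⟨0, B.zero_mem, by simp⟩
  set q := a 0 * pderiv 0 p + a 1 * pderiv 1 p with hq
  rcases eq_or_ne q 0 with h0 | h0
  · exact ⟨0, B.zero_mem, by simp [h0]⟩
  refine ⟨algebraMap (L2 k) K (algebraMap (P2 k) (L2 k) q
    / (algebraMap (P2 k) (L2 k) d * algebraMap (P2 k) (L2 k) p)), (hB _).2 ?_, ?_⟩
  · rw [map_div₀, map_mul, o.val_algebraMap h0, o.val_algebraMap hd, o.val_algebraMap hp,
      ← exp_add, ← exp_sub, ← exp_zero, exp_le_exp]
    have := hlog p hp h0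
    rw [← hq] at this
    omega
  · have hne : ∀ {r : P2 k}, r ≠ 0 → algebraMap (P2 k) K r ≠ 0 := fun hr => by
      rw [IsScalarTower.algebraMap_apply (P2 k) (L2 k) K]
      exact (_root_.map_ne_zero _).2 ((map_ne_zero_iff _ (IsFractionRing.injective (P2 k) (L2 k))).2 hr)
    have := hne hp
    have := hne hd
    simp only [map_div₀, map_mul, ← IsScalarTower.algebraMap_apply]
    field_simp

theorem frame_log_base (z : L2 k) :
    LE' B (algebraMap (L2 k) K z) (frameDer a d (algebraMap (L2 k) K z)) := by
  obtain ⟨p, q, hq, rfl⟩ := IsFractionRing.div_surjective (A := P2 k) z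
  simp only [map_div₀, ← IsScalarTower.algebraMap_apply]
  obtain ⟨b₁, hb₁, e₁⟩ := frame_log_poly hB hd hlog p
  obtain ⟨b₂, hb₂, e₂⟩ := frame_log_poly hB hd hlog q
  refine ⟨b₁ - b₂, sub_mem hb₁ hb₂, ?_⟩
  rw [Derivation.leibniz_div, e₁, e₂]
  simp only [smul_eq_mul, sq]
  by_cases hq0 : algebraMap (P2 k) K q = 0
  · simp [hq0]
  field_simp

/-- An element whose power is in the base: the derivation does not lower its value. -/
theorem frame_log_root {μ : K} {Z : L2 k} {n : ℕ} (hn : B.valuation (n : K) = 1)
    (hμ : μ ^ n = algebraMap (L2 k) K Z) : LE' B μ (frameDer a d μ) := by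
  rcases eq_or_ne μ 0 with rfl | h0
  · exact ⟨0, B.zero_mem, by simp⟩
  obtain ⟨b, hb, e⟩ := frame_log_base hB hd hlog Z
  refine ⟨b * (n : K)⁻¹, B.mul_mem _ _ hb (unit_mem B hn).2, ?_⟩
  have hnK : (n : K) ≠ 0 := fun h => by simp [h] at hn
  obtain ⟨l, rfl⟩ : ∃ l, n = l + 1 := ⟨n - 1, by
    have : n ≠ 0 := fun h => hnK (by simp [h])
    omega⟩
  rw [← hμ, Derivation.leibniz_pow, Nat.add_sub_cancel, smul_eq_mul, nsmul_eq_mul, pow_succ] at e
  field_simp
  exact mul_left_cancel₀ (pow_ne_zero l h0) (by linear_combination e)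

end Frames

end Vale.Agent.P190.Example
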