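import Vale.Agent.P190.Example.DivVal
import Vale.Agent.P190.Example.Model

/-!
P190: the places of the plane over which the example is computed, with the bound they put on
admissible polynomials and polynomials attaining the bound at the place alone.
-/

open MvPolynomial

namespace Vale.Agent.P190.Example

set_option linter.unusedSectionVars false

variable {k : Type} [Field k] [Infinite k]

/-- A place of the plane for the example. -/
structure Place (D : Par k) where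
  /-- The order. -/
  o : OrdFun k
  /-- The bound in degree one. -/
  β : ℤ
  /-- The first frame. -/
  a₀ : Fin 2 → P2 k
  /-- The second frame. -/
  a₁ : Fin 2 → P2 k
  /-- The first denominator. -/
  d₀ : P2 k
  /-- The second denominator. -/
  d₁ : P2 k
  hd₀ : d₀ ≠ 0
  hd₁ : d₁ ≠ 0
  log₀ : o.Log a₀ d₀
  log₁ : o.Log a₁ d₁
  det_ne : a₀ 0 * a₁ 1 - a₀ 1 * a₁ 0 ≠ 0
  det_ord : o.f (a₀ 0 * a₁ 1 - a₀ 1 * a₁ 0) - o.f d₀ - o.f d₁ ≠ 0
  const : ∀ c : k, c ≠ 0 → o.f (C c) = 0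
  unif : ∃ p q : P2 k, p ≠ 0 ∧ q ≠ 0 ∧ o.f p - o.f q = 1
  bound : ∀ (N : ℕ) (P : P2 k), P ≠ 0 → D.AdmPoly N P → N * β ≤ o.f P
  wit : ∀ (χ : D.Ix) (p q : P2 k), p ≠ 0 → q ≠ 0 →
    0 ≤ D.m * (o.f p - o.f q) + o.f (D.cχ χ) →
    ∃ (p' q' U : P2 k) (N : ℕ), q' ≠ 0 ∧ U ≠ 0 ∧ p' * q = p * q' ∧
      D.m * o.f (q' * U) = N * β ∧ D.AdmPoly N (U ^ D.m * q' ^ D.m) ∧
      D.AdmPoly N (U ^ D.m * (p' ^ D.m * D.cχ χ))

/-- The determinant of the frames less the denominators. -/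
noncomputable def Place.δ {D : Par k} (v : Place D) : ℤ :=
  v.o.f (v.a₀ 0 * v.a₁ 1 - v.a₀ 1 * v.a₁ 0) - v.o.f v.d₀ - v.o.f v.d₁

variable (D : Par k)

namespace Par

theorem adm_pow_mul {N : ℕ} {U P : P2 k} (hU : U ≠ 0) (hP : P ≠ 0)
    (hX : -(2 * D.m * N : ℤ) ≤ D.m * (degVarOrd 0).f U + (degVarOrd 0).f P)
    (hY : -(2 * D.m * N : ℤ) ≤ D.m * (degVarOrd 1).f U + (degVarOrd 1).f P)
    (hT : -(3 * D.m * N : ℤ) ≤ D.m * degOrd.f U + degOrd.f P)
    (hO : (D.m * N : ℤ) ≤ D.m * (pointOrd 0).f U + (pointOrd 0).f P)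
    (hG : ∀ g, (N : ℤ) ≤ D.m * (pointOrd (D.grid g)).f U + (pointOrd (D.grid g)).f P) :
    D.AdmPoly N (U ^ D.m * P) := by
  have hne := mul_ne_zero (pow_ne_zero D.m hU) hP
  have hf : ∀ o : OrdFun k, D.m * o.f U + o.f P = o.f (U ^ D.m * P) := fun o => by
    rw [o.f_mul _ _ (pow_ne_zero _ hU) hP, o.f_pow hU]
  rw [hf] at hX hY hT hO
  simp only [degOrd, degVarOrd] at hX hY hT
  refine ⟨?_, ?_, ?_, (le_pointOrd_iff _ hne _).1 (by push_cast; exact hO), fun g =>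
    (le_pointOrd_iff _ hne _).1 ((hG g).trans_eq (hf _))⟩ <;>
  · rw [← Int.ofNat_le]; push_cast; linarith

/-- The sizes of a polynomial. -/
theorem sizes (P : P2 k) (g : Fin D.m × Fin D.m) :
    -(P.totalDegree : ℤ) ≤ (degVarOrd 0).f P ∧ -(P.totalDegree : ℤ) ≤ (degVarOrd 1).f P ∧
      -(P.totalDegree : ℤ) ≤ degOrd.f P ∧ 0 ≤ (pointOrd 0).f P ∧ 0 ≤ (pointOrd (D.grid g)).f P := by
  refine ⟨?_, ?_, le_rfl, Int.natCast_nonneg _, Int.natCast_nonneg _⟩ <;>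
    exact neg_le_neg (Int.ofNat_le.2 (degreeOf_le_totalDegree _ _))

/-- Witness from a polynomial with room everywhere but at the place. -/
theorem wit_of_room {o : OrdFun k} {β : ℤ} {χ : D.Ix} {p q : P2 k} (hp : p ≠ 0) (hq : q ≠ 0)
    (h : 0 ≤ D.m * (o.f p - o.f q) + o.f (D.cχ χ))
    (room : ∀ C : ℕ, ∃ (N : ℕ) (U : P2 k), U ≠ 0 ∧ D.m * o.f (q * U) = N * β ∧
      ∀ P : P2 k, P ≠ 0 → P.totalDegree ≤ C → N * β ≤ D.m * o.f U + o.f P →
        D.AdmPoly N (U ^ D.m * P)) :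
    ∃ (p' q' U : P2 k) (N : ℕ), q' ≠ 0 ∧ U ≠ 0 ∧ p' * q = p * q' ∧
      D.m * o.f (q' * U) = N * β ∧ D.AdmPoly N (U ^ D.m * q' ^ D.m) ∧
      D.AdmPoly N (U ^ D.m * (p' ^ D.m * D.cχ χ)) := by
  have hP1 := pow_ne_zero D.m hq
  have hP2 := mul_ne_zero (pow_ne_zero D.m hp) (D.cχ_ne χ)
  obtain ⟨N, U, hU, he, hadm⟩ :=
    room (max (q ^ D.m).totalDegree (p ^ D.m * D.cχ χ).totalDegree)
  rw [o.f_mul _ _ hq hU] at he
  refine ⟨p, q, U, N, hq, hU, rfl, by rw [o.f_mul _ _ hq hU]; exact he,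
    hadm _ hP1 (le_max_left _ _) ?_, hadm _ hP2 (le_max_right _ _) ?_⟩
  · rw [o.f_pow hq]; linarith
  · rw [o.f_mul _ _ (pow_ne_zero _ hp) (D.cχ_ne χ), o.f_pow hp]; linarith

/-- `X^a Y^b (Y^m - 1)^e (1 - X^m)^e'`. -/
noncomputable def mono4 (a b e e' : ℕ) : P2 k :=
  X 0 ^ a * X 1 ^ b * D.cpol 1 ^ e * D.cpol 2 ^ e'

theorem mono4_ne (a b e e' : ℕ) : D.mono4 a b e e' ≠ 0 :=
  mul_ne_zero (mul_ne_zero (mul_ne_zero (pow_ne_zero _ (X_ne_zero _)) (pow_ne_zero _ (X_ne_zero _)))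
    (pow_ne_zero _ (D.cpol_ne 1))) (pow_ne_zero _ (D.cpol_ne 2))

theorem f_mono4 (o : OrdFun k) (a b e e' : ℕ) : o.f (D.mono4 a b e e')
    = a * o.f (X 0) + b * o.f (X 1) + e * o.f (D.cpol 1) + e' * o.f (D.cpol 2) := by
  have h0 := pow_ne_zero a (X_ne_zero (R := k) (0 : Fin 2))
  have h1 := pow_ne_zero b (X_ne_zero (R := k) (1 : Fin 2))
  have h2 := pow_ne_zero e (D.cpol_ne 1)
  rw [mono4, o.f_mul _ _ (mul_ne_zero (mul_ne_zero h0 h1) h2) (pow_ne_zero _ (D.cpol_ne 2)),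
    o.f_mul _ _ (mul_ne_zero h0 h1) h2, o.f_mul _ _ h0 h1, o.f_pow (X_ne_zero _),
    o.f_pow (X_ne_zero _), o.f_pow (D.cpol_ne 1), o.f_pow (D.cpol_ne 2)]

theorem ordAt_X_origin (i : Fin 2) : ordAt (0 : Fin 2 → k) (X i) = 1 :=
  ordAt_eq_one (i := i) (by simp) (by simp)

theorem ordAt_X_grid (i : Fin 2) (g : Fin D.m × Fin D.m) : ordAt (D.grid g) (X i) = 0 := by
  refine ordAt_eq_zero ?_
  fin_cases i <;> simp [grid] <;> exact fun h => absurd h (D.hμ.ne_zero D.m_pos.ne')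

theorem sizes_mono4 (a b e e' : ℕ) (g : Fin D.m × Fin D.m) :
    (degVarOrd 0).f (D.mono4 a b e e') = -((a : ℤ) + D.m * e') ∧
    (degVarOrd 1).f (D.mono4 a b e e') = -((b : ℤ) + D.m * e) ∧
    degOrd.f (D.mono4 a b e e') = -((a : ℤ) + b + D.m * (e + e')) ∧
    (pointOrd 0).f (D.mono4 a b e e') = (a : ℤ) + b ∧
    (pointOrd (D.grid g)).f (D.mono4 a b e e') = (e : ℤ) + e' := by
  obtain ⟨p0, p1⟩ := D.degreeOf_cpol 1
  obtain ⟨q0, q1⟩ := D.degreeOf_cpol 2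
  simp only [f_mono4, degOrd, degVarOrd, pointOrd, D.totalDegree_cpol, totalDegree_X, p0, p1, q0,
    q1, degreeOf_X, ordAt_X_origin, D.ordAt_X_grid, D.ordAt_cpol_origin, D.ordAt_cpol_grid,
    Fin.reduceEq, ↓reduceIte, ENat.toNat_one, ENat.toNat_zero]
  push_cast
  exact ⟨by ring, by ring, by ring, by ring, by ring⟩

theorem adm_mono4 {N C a b e e' : ℕ} {P : P2 k} (hP : P ≠ 0) (hC : P.totalDegree ≤ C)
    (hX : D.m * (a + D.m * e') + C ≤ 2 * D.m * N ∨ -(2 * D.m * N : ℤ) ≤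
      D.m * (degVarOrd 0).f (D.mono4 a b e e') + (degVarOrd 0).f P)
    (hY : D.m * (b + D.m * e) + C ≤ 2 * D.m * N ∨ -(2 * D.m * N : ℤ) ≤
      D.m * (degVarOrd 1).f (D.mono4 a b e e') + (degVarOrd 1).f P)
    (hT : D.m * (a + b + D.m * (e + e')) + C ≤ 3 * D.m * N ∨ -(3 * D.m * N : ℤ) ≤
      D.m * degOrd.f (D.mono4 a b e e') + degOrd.f P)
    (hO : N ≤ a + b ∨ (D.m * N : ℤ) ≤
      D.m * (pointOrd 0).f (D.mono4 a b e e') + (pointOrd 0).f P)
    (hG : N ≤ D.m * (e + e') ∨ ∀ g, (N : ℤ) ≤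
      D.m * (pointOrd (D.grid g)).f (D.mono4 a b e e') + (pointOrd (D.grid g)).f P) :
    D.AdmPoly N (D.mono4 a b e e' ^ D.m * P) := by
  have g : Fin D.m × Fin D.m := (⟨0, D.m_pos⟩, ⟨0, D.m_pos⟩)
  obtain ⟨u0, u1, u2, u3, -⟩ := D.sizes_mono4 a b e e' g
  obtain ⟨v0, v1, v2, v3, -⟩ := D.sizes P g
  rw [u0] at hX; rw [u1] at hY; rw [u2] at hT; rw [u3] at hO
  zify at hX hY hT hO hC
  refine D.adm_pow_mul (D.mono4_ne _ _ _ _) hP ?_ ?_ ?_ ?_ fun g => ?_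
  · rw [u0]; rcases hX with h | h <;> linarith
  · rw [u1]; rcases hY with h | h <;> linarith
  · rw [u2]; rcases hT with h | h <;> linarith
  · rw [u3]; rcases hO with h | h
    · have := mul_le_mul_of_nonneg_left h (Int.natCast_nonneg D.m); linarith
    · exact h
  · rcases hG with h | h
    · rw [(D.sizes_mono4 a b e e' g).2.2.2.2]
      have := (D.sizes P g).2.2.2.2
      zify at h
      linarith
    · exact h g

theorem room_curve {π : P2 k} (hπ : Prime π) {q : P2 k} (hq : q ≠ 0)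
    (hq0 : (curveOrd hπ).f q = 0) (C : ℕ) :
    ∃ (N : ℕ) (U : P2 k), U ≠ 0 ∧ D.m * (curveOrd hπ).f (q * U) = N * 0 ∧
      ∀ P : P2 k, P ≠ 0 → P.totalDegree ≤ C → N * 0 ≤ D.m * (curveOrd hπ).f U + (curveOrd hπ).f P →
        D.AdmPoly N (U ^ D.m * P) := by
  have z : ∀ p : P2 k, ¬ π ∣ p → (curveOrd hπ).f p = 0 := fun p hp => by
    simp [curveOrd, multiplicity_eq_zero.2 hp]
  have hm := D.hm
  have hX : π ∣ X 0 → π ∣ X 1 → False := fun a b => by
    rcases (X_prime (R := k) (i := (0 : Fin 2))).irreducible.dvd_iff.mp a with hu | ha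
    · exact hπ.not_isUnit hu
    rcases (X_prime (R := k) (i := (1 : Fin 2))).irreducible.dvd_iff.mp b with hu | hb
    · exact hπ.not_isUnit hu
    obtain ⟨w, hw⟩ := ha.trans hb.symm
    simpa using congrArg (eval ![(0 : k), 1]) hw
  have hXc : ∀ (i : Fin 2), π ∣ X i → π ∣ (if i = 0 then D.cpol 2 else D.cpol 1) → False := by
    intro i hi hc
    fin_cases i
    · have h := dvd_add hc (dvd_pow hi D.m_pos.ne')
      simp [cpol] at h
      exact hπ.not_dvd_one h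
    · have h := dvd_sub (dvd_pow hi D.m_pos.ne') hc
      simp [cpol] at h
      exact hπ.not_dvd_one h
  obtain ⟨a, b, e, e', hs, hf⟩ : ∃ a b e e' : ℕ,
      (a + D.m * e' = D.m * C ∧ b + D.m * e = D.m * C ∧ e + e' = C ∧ a + b = D.m * C) ∧
      (curveOrd hπ).f (D.mono4 a b e e') = 0 := by
    by_cases hA : π ∣ X 0 ∨ π ∣ D.cpol 1
    · refine ⟨0, D.m * C, 0, C, ⟨by omega, by omega, by omega, by omega⟩, ?_⟩
      rw [f_mono4]
      rcases hA with h | h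
      · rw [z (X 1) (hX h), z (D.cpol 2) fun hc => hXc 0 h (by simpa using hc)]; simp
      · rw [z (X 1) fun hy => hXc 1 hy (by simpa using h),
          z (D.cpol 2) (D.cpol_separated hπ (by decide) h)]
        simp
    · push Not at hA
      refine ⟨D.m * C, 0, C, 0, ⟨by omega, by omega, by omega, by omega⟩, ?_⟩
      rw [f_mono4, z _ hA.1, z _ hA.2]; simp
  refine ⟨D.m * C, _, D.mono4_ne a b e e', ?_, fun P hP hC _ => ?_⟩
  · rw [(curveOrd hπ).f_mul _ _ hq (D.mono4_ne _ _ _ _), hq0, hf]; simp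
  obtain ⟨h0, h1, h2, h3⟩ := hs
  have h4 : C ≤ D.m * (D.m * C) := (Nat.le_mul_of_pos_left C D.m_pos).trans
    (Nat.le_mul_of_pos_left _ D.m_pos)
  refine D.adm_mono4 hP hC (Or.inl ?_) (Or.inl ?_) (Or.inl ?_) (Or.inl h3.ge) (Or.inl ?_)
  · rw [h0]; linarith
  · rw [h1]; linarith
  · rw [h2, h3]; linarith
  · rw [h2]

theorem room_deg {q : P2 k} (hq : q ≠ 0) (C : ℕ) :
    ∃ (N : ℕ) (U : P2 k), U ≠ 0 ∧ D.m * degOrd.f (q * U) = N * -(3 * D.m : ℤ) ∧
      ∀ P : P2 k, P ≠ 0 → P.totalDegree ≤ C →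
        N * -(3 * D.m : ℤ) ≤ D.m * degOrd.f U + degOrd.f P → D.AdmPoly N (U ^ D.m * P) := by
  set dq := q.totalDegree with hdq
  obtain ⟨M, hM⟩ : ∃ M, M = 2 * C + dq + 1 := ⟨_, rfl⟩
  have hN : M ≤ D.m * M := Nat.le_mul_of_pos_left M D.m_pos
  obtain ⟨N, hN'⟩ : ∃ N, N = D.m * M := ⟨_, rfl⟩
  obtain ⟨a, ha⟩ : ∃ a, a + (C + dq) = N := ⟨N - (C + dq), by omega⟩
  refine ⟨N, D.mono4 a (N + C) 0 M, D.mono4_ne _ _ _ _, ?_, fun P hP hC hown => ?_⟩
  · have g : Fin D.m × Fin D.m := (⟨0, D.m_pos⟩, ⟨0, D.m_pos⟩)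
    rw [degOrd.f_mul _ _ hq (D.mono4_ne _ _ _ _), (D.sizes_mono4 _ _ _ _ g).2.2.1]
    simp only [degOrd, ← hdq]
    zify at ha hN'
    push_cast
    linear_combination (-(D.m : ℤ)) * ha + (D.m : ℤ) * hN'
  have h1 : C ≤ D.m * C := Nat.le_mul_of_pos_left C D.m_pos
  have h2 : D.m * (C + dq + a) = D.m * N := by rw [← ha]; ring
  have h4 : D.m * (2 * C) ≤ D.m * N := Nat.mul_le_mul_left _ (by omega)
  refine D.adm_mono4 hP hC (Or.inl ?_) (Or.inl ?_) (Or.inr (by linarith)) (Or.inl (by omega))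
    (Or.inl (by rw [zero_add, hN']))
  · rw [← hN']; linarith [Nat.zero_le (D.m * dq)]
  · rw [mul_zero, add_zero]; linarith

theorem room_degX {q : P2 k} (hq : q ≠ 0) (C : ℕ) :
    ∃ (N : ℕ) (U : P2 k), U ≠ 0 ∧ D.m * (degVarOrd 0).f (q * U) = N * -(2 * D.m : ℤ) ∧
      ∀ P : P2 k, P ≠ 0 → P.totalDegree ≤ C →
        N * -(2 * D.m : ℤ) ≤ D.m * (degVarOrd 0).f U + (degVarOrd 0).f P →
          D.AdmPoly N (U ^ D.m * P) := by
  set dq := degreeOf 0 q with hdq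
  obtain ⟨M, hM⟩ : ∃ M, M = C + dq := ⟨_, rfl⟩
  have hN : M ≤ D.m * M := Nat.le_mul_of_pos_left M D.m_pos
  obtain ⟨N, hN'⟩ : ∃ N, N = D.m * M := ⟨_, rfl⟩
  obtain ⟨a, ha⟩ : ∃ a, a + dq = N := ⟨N - dq, by omega⟩
  refine ⟨N, D.mono4 a dq 0 M, D.mono4_ne _ _ _ _, ?_, fun P hP hC hown => ?_⟩
  · have g : Fin D.m × Fin D.m := (⟨0, D.m_pos⟩, ⟨0, D.m_pos⟩)
    rw [(degVarOrd 0).f_mul _ _ hq (D.mono4_ne _ _ _ _), (D.sizes_mono4 _ _ _ _ g).1]
    simp only [degVarOrd, ← hdq]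
    zify at ha hN'
    linear_combination (-(D.m : ℤ)) * ha + (D.m : ℤ) * hN'
  have h1 : C ≤ D.m * C := Nat.le_mul_of_pos_left C D.m_pos
  have h2 : D.m * (a + dq) = D.m * N := by rw [ha]
  have h4 : D.m * (C + dq) ≤ D.m * N := Nat.mul_le_mul_left _ (by omega)
  refine D.adm_mono4 hP hC (Or.inr (by linarith)) (Or.inl ?_) (Or.inl ?_) (Or.inl ha.ge)
    (Or.inl (by rw [zero_add, hN']))
  · rw [mul_zero, add_zero]; linarith [Nat.zero_le (D.m * N)]
  · rw [zero_add, ← hN']; linarith [Nat.zero_le (D.m * dq)]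

theorem room_degY {q : P2 k} (hq : q ≠ 0) (C : ℕ) :
    ∃ (N : ℕ) (U : P2 k), U ≠ 0 ∧ D.m * (degVarOrd 1).f (q * U) = N * -(2 * D.m : ℤ) ∧
      ∀ P : P2 k, P ≠ 0 → P.totalDegree ≤ C →
        N * -(2 * D.m : ℤ) ≤ D.m * (degVarOrd 1).f U + (degVarOrd 1).f P →
          D.AdmPoly N (U ^ D.m * P) := by
  set dq := degreeOf 1 q with hdq
  obtain ⟨M, hM⟩ : ∃ M, M = C + dq := ⟨_, rfl⟩
  have hN : M ≤ D.m * M := Nat.le_mul_of_pos_left M D.m_pos
  obtain ⟨N, hN'⟩ : ∃ N, N = D.m * M := ⟨_, rfl⟩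
  obtain ⟨b, hb⟩ : ∃ b, b + dq = N := ⟨N - dq, by omega⟩
  refine ⟨N, D.mono4 dq b M 0, D.mono4_ne _ _ _ _, ?_, fun P hP hC hown => ?_⟩
  · have g : Fin D.m × Fin D.m := (⟨0, D.m_pos⟩, ⟨0, D.m_pos⟩)
    rw [(degVarOrd 1).f_mul _ _ hq (D.mono4_ne _ _ _ _), (D.sizes_mono4 _ _ _ _ g).2.1]
    simp only [degVarOrd, ← hdq]
    zify at hb hN'
    linear_combination (-(D.m : ℤ)) * hb + (D.m : ℤ) * hN'
  have h1 : C ≤ D.m * C := Nat.le_mul_of_pos_left C D.m_pos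
  have h2 : D.m * (b + dq) = D.m * N := by rw [hb]
  have h4 : D.m * (C + dq) ≤ D.m * N := Nat.mul_le_mul_left _ (by omega)
  refine D.adm_mono4 hP hC (Or.inl ?_) (Or.inr (by linarith)) (Or.inl ?_) (Or.inl (by omega))
    (Or.inl (by rw [add_zero, hN']))
  · rw [mul_zero, add_zero]; linarith [Nat.zero_le (D.m * N)]
  · rw [add_zero, ← hN']; linarith [Nat.zero_le (D.m * dq)]

theorem room_origin {q : P2 k} (hq : q ≠ 0) (C : ℕ) :
    ∃ (N : ℕ) (U : P2 k), U ≠ 0 ∧ D.m * (pointOrd 0).f (q * U) = N * (D.m : ℤ) ∧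
      ∀ P : P2 k, P ≠ 0 → P.totalDegree ≤ C →
        N * (D.m : ℤ) ≤ D.m * (pointOrd 0).f U + (pointOrd 0).f P →
          D.AdmPoly N (U ^ D.m * P) := by
  set oq := (ordAt (0 : Fin 2 → k) q).toNat with hoq
  obtain ⟨M, hM⟩ : ∃ M, M = C + oq := ⟨_, rfl⟩
  have hN : M ≤ D.m * M := Nat.le_mul_of_pos_left M D.m_pos
  obtain ⟨N, hN'⟩ : ∃ N, N = D.m * M := ⟨_, rfl⟩
  obtain ⟨b, hb⟩ : ∃ b, b + oq = N := ⟨N - oq, by omega⟩
  refine ⟨N, D.mono4 0 b 0 M, D.mono4_ne _ _ _ _, ?_, fun P hP hC hown => ?_⟩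
  · have g : Fin D.m × Fin D.m := (⟨0, D.m_pos⟩, ⟨0, D.m_pos⟩)
    rw [(pointOrd 0).f_mul _ _ hq (D.mono4_ne _ _ _ _), (D.sizes_mono4 _ _ _ _ g).2.2.2.1]
    simp only [pointOrd, ← hoq]
    zify at hb
    push_cast
    linear_combination (D.m : ℤ) * hb
  have h1 : C ≤ D.m * C := Nat.le_mul_of_pos_left C D.m_pos
  have h2 : D.m * (b + oq) = D.m * N := by rw [hb]
  have h4 : D.m * C ≤ D.m * N := Nat.mul_le_mul_left _ (by omega)
  refine D.adm_mono4 hP hC (Or.inl ?_) (Or.inl ?_) (Or.inl ?_) (Or.inr (by linarith))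
    (Or.inl (by rw [zero_add, hN']))
  · rw [zero_add, ← hN']; linarith
  · rw [mul_zero, add_zero]; linarith [Nat.zero_le (D.m * oq)]
  · rw [zero_add, zero_add, ← hN']; linarith [Nat.zero_le (D.m * oq)]

theorem room_grid (g : Fin D.m × Fin D.m) {q : P2 k} (hq : q ≠ 0) (C : ℕ) :
    ∃ (N : ℕ) (U : P2 k), U ≠ 0 ∧ D.m * (pointOrd (D.grid g)).f (q * U) = N * (1 : ℤ) ∧
      ∀ P : P2 k, P ≠ 0 → P.totalDegree ≤ C →
        N * (1 : ℤ) ≤ D.m * (pointOrd (D.grid g)).f U + (pointOrd (D.grid g)).f P →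
          D.AdmPoly N (U ^ D.m * P) := by
  set oq := (ordAt (D.grid g) q).toNat with hoq
  set a := D.grid g 0 with ha
  set b := D.grid g 1 with hb
  have ham : a ^ D.m = 1 := D.pow_grid _
  have hbm : b ^ D.m = 1 := D.pow_grid _
  obtain ⟨R, hR⟩ : (X 0 - MvPolynomial.C a : P2 k) ∣ D.cpol 2 := by
    have h := sub_dvd_pow_sub_pow (X 0 : P2 k) (MvPolynomial.C a) D.m
    rw [← map_pow, ham, map_one, ← dvd_neg, neg_sub] at h
    exact h
  obtain ⟨R', hR'⟩ : (X 1 - MvPolynomial.C b : P2 k) ∣ D.cpol 1 := by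
    have h := sub_dvd_pow_sub_pow (X 1 : P2 k) (MvPolynomial.C b) D.m
    rw [← map_pow, hbm, map_one] at h
    exact h
  have hl0 : (X 0 - MvPolynomial.C a : P2 k) ≠ 0 := left_ne_zero_of_mul (hR ▸ D.cpol_ne 2)
  have hR0 : R ≠ 0 := right_ne_zero_of_mul (hR ▸ D.cpol_ne 2)
  have hR0' : R' ≠ 0 := right_ne_zero_of_mul (hR' ▸ D.cpol_ne 1)
  have hl0' : (X 1 - MvPolynomial.C b : P2 k) ≠ 0 := left_ne_zero_of_mul (hR' ▸ D.cpol_ne 1)
  obtain ⟨M, hM⟩ : ∃ M, M = C + oq := ⟨_, rfl⟩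
  obtain ⟨N, hN'⟩ : ∃ N, N = D.m * M := ⟨_, rfl⟩
  obtain ⟨c, hc⟩ : ∃ c, c + oq = M := ⟨C, hM.symm⟩
  set U : P2 k := X 1 ^ N * (X 0 - MvPolynomial.C a) ^ c * R ^ M * R' ^ oq with hU
  have h0 := pow_ne_zero N (X_ne_zero (R := k) (1 : Fin 2))
  have h1 := pow_ne_zero c hl0
  have h2 := pow_ne_zero M hR0
  have hU0 : U ≠ 0 := mul_ne_zero (mul_ne_zero (mul_ne_zero h0 h1) h2) (pow_ne_zero _ hR0')
  have hf : ∀ o : OrdFun k, o.f U = N * o.f (X 1) + c * o.f (X 0 - MvPolynomial.C a) + M * o.f R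
      + oq * o.f R' := fun o => by
    rw [hU, o.f_mul _ _ (mul_ne_zero (mul_ne_zero h0 h1) h2) (pow_ne_zero _ hR0'),
      o.f_mul _ _ (mul_ne_zero h0 h1) h2, o.f_mul _ _ h0 h1, o.f_pow (X_ne_zero _), o.f_pow hl0,
      o.f_pow hR0, o.f_pow hR0']
  have e2 : ∀ o : OrdFun k, o.f (X 0 - MvPolynomial.C a) + o.f R = o.f (D.cpol 2) := fun o => by
    rw [hR, o.f_mul _ _ hl0 hR0]
  have e1 : ∀ o : OrdFun k, o.f (X 1 - MvPolynomial.C b) + o.f R' = o.f (D.cpol 1) := fun o => by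
    rw [hR', o.f_mul _ _ hl0' hR0']
  have hone : ∀ (l : Fin 2) (g' : Fin D.m × Fin D.m), D.grid g' l = D.grid g l →
      (pointOrd (D.grid g')).f (X l - MvPolynomial.C (D.grid g l)) = 1 := fun l g' h => by
    show ((ordAt _ _).toNat : ℤ) = _
    rw [ordAt_eq_one (i := l) (by simp [h]) (by simp)]; rfl
  have hzero : ∀ (l : Fin 2) (g' : Fin D.m × Fin D.m), D.grid g' l ≠ D.grid g l →
      (pointOrd (D.grid g')).f (X l - MvPolynomial.C (D.grid g l)) = 0 := fun l g' h => by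
    show ((ordAt _ _).toNat : ℤ) = _
    rw [ordAt_eq_zero (by simpa [sub_eq_zero] using h)]; rfl
  zify at hc
  have hx : ∀ g', (pointOrd (D.grid g')).f (X 1) = 0 := fun g' => by
    simp [pointOrd, D.ordAt_X_grid]
  have hinj : ∀ g', D.grid g' 0 = D.grid g 0 → D.grid g' 1 = D.grid g 1 → g' = g := fun g' u v =>
    Prod.ext (Fin.ext (D.hμ.pow_inj g'.1.2 g.1.2 u)) (Fin.ext (D.hμ.pow_inj g'.2.2 g.2.2 v))
  have hsum : ∀ g' : Fin D.m × Fin D.m,
      (pointOrd (D.grid g')).f (X 0 - MvPolynomial.C a) + (pointOrd (D.grid g')).f R = 1 ∧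
        (pointOrd (D.grid g')).f (X 1 - MvPolynomial.C b) + (pointOrd (D.grid g')).f R' = 1 :=
    fun g' => by
      rw [e2, e1]
      simp [pointOrd, D.ordAt_cpol_grid]
  have hself : (pointOrd (D.grid g)).f U = c := by
    obtain ⟨p2, p1⟩ := hsum g
    rw [ha, hone 0 g rfl] at p2
    rw [hb, hone 1 g rfl] at p1
    rw [hf, hx, ha, hone 0 g rfl, show (pointOrd (D.grid g)).f R = 0 by linarith,
      show (pointOrd (D.grid g)).f R' = 0 by linarith]
    ring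
  have hothers : ∀ g', g' ≠ g → (M : ℤ) ≤ (pointOrd (D.grid g')).f U := fun g' hg => by
    obtain ⟨p2, p1⟩ := hsum g'
    rw [hf, hx, ha]
    by_cases hx0 : D.grid g' 0 = D.grid g 0
    · rw [ha, hone 0 g' hx0] at p2
      rw [hb, hzero 1 g' fun v => hg (hinj g' hx0 v)] at p1
      rw [hone 0 g' hx0, show (pointOrd (D.grid g')).f R = 0 by linarith,
        show (pointOrd (D.grid g')).f R' = 1 by linarith]
      linarith
    · rw [ha, hzero 0 g' hx0] at p2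
      rw [hzero 0 g' hx0, show (pointOrd (D.grid g')).f R = 1 by linarith]
      have : 0 ≤ (oq : ℤ) * (pointOrd (D.grid g')).f R' :=
        mul_nonneg (Int.natCast_nonneg _) (Int.natCast_nonneg _)
      linarith
  refine ⟨N, U, hU0, ?_, fun P hP hC hown => ?_⟩
  · rw [(pointOrd _).f_mul _ _ hq hU0, hself]
    show (D.m : ℤ) * ((oq : ℤ) + c) = _
    rw [hN']
    push_cast
    linear_combination (D.m : ℤ) * hc
  obtain ⟨v0, v1, v2, v3, -⟩ := D.sizes P g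
  obtain ⟨r0, r1⟩ := D.degreeOf_cpol 2
  obtain ⟨r0', r1'⟩ := D.degreeOf_cpol 1
  simp only [Fin.reduceEq, ↓reduceIte] at r0 r1 r0' r1'
  have q0 := e2 (degVarOrd 0); have q1 := e2 (degVarOrd 1); have q2 := e2 degOrd
  have q0' := e1 (degVarOrd 0); have q1' := e1 (degVarOrd 1); have q2' := e1 degOrd
  have nonpos : ∀ (p : P2 k), (degVarOrd 0).f p ≤ 0 ∧ (degVarOrd 1).f p ≤ 0 ∧ degOrd.f p ≤ 0 :=
    fun p => by simp [degOrd, degVarOrd]
  have n0 := Int.natCast_nonneg C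
  have hm1 : (1 : ℤ) ≤ D.m := by exact_mod_cast D.m_pos
  have hcM : (c : ℤ) ≤ M := by linarith [Int.natCast_nonneg oq]
  zify at hN' hM hC
  have hCm : (C : ℤ) ≤ D.m * C := le_mul_of_one_le_left n0 hm1
  have hCmm : (C : ℤ) ≤ D.m * (D.m * C) :=
    hCm.trans (le_mul_of_one_le_left (mul_nonneg (by linarith) n0) hm1)
  have hoqm : (0 : ℤ) ≤ D.m * (D.m * oq) := mul_nonneg (by linarith) (by positivity)
  -- `o U` from the orders of the two branch forms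
  have key : ∀ o : OrdFun k, o.f (X 0 - MvPolynomial.C a) ≤ 0 → o.f (X 1 - MvPolynomial.C b) ≤ 0 →
      N * o.f (X 1) + M * o.f (D.cpol 2) + oq * o.f (D.cpol 1) ≤ o.f U := fun o u v => by
    rw [hf, ← e2 o, ← e1 o]
    have := mul_le_mul_of_nonpos_right hcM u
    have := mul_nonpos_of_nonneg_of_nonpos (Int.natCast_nonneg oq) v
    linarith
  refine D.adm_pow_mul hU0 hP ?_ ?_ ?_ ?_ fun g' => ?_
  · have h := key (degVarOrd 0) (nonpos _).1 (nonpos _).1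
    simp only [degVarOrd, degreeOf_X, r0, r0', Fin.reduceEq, ↓reduceIte] at h v0 ⊢
    have := mul_le_mul_of_nonneg_left h (Int.natCast_nonneg D.m)
    push_cast at this
    rw [hN', hM] at this ⊢
    linarith
  · have h := key (degVarOrd 1) (nonpos _).2.1 (nonpos _).2.1
    simp only [degVarOrd, degreeOf_X, r1, r1', ↓reduceIte] at h v1 ⊢
    have := mul_le_mul_of_nonneg_left h (Int.natCast_nonneg D.m)
    push_cast at this
    rw [hN', hM] at this ⊢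
    linarith
  · have h := key degOrd (nonpos _).2.2 (nonpos _).2.2
    simp only [degOrd, totalDegree_X, D.totalDegree_cpol] at h v2 ⊢
    have := mul_le_mul_of_nonneg_left h (Int.natCast_nonneg D.m)
    push_cast at this
    rw [hN', hM] at this ⊢
    linarith
  · have hU' : (N : ℤ) ≤ (pointOrd 0).f U := by
      have hX : (pointOrd 0).f (X 1 : P2 k) = 1 := by simp [pointOrd, ordAt_X_origin]
      have hn : ∀ p : P2 k, 0 ≤ (pointOrd 0).f p := fun p => Int.natCast_nonneg _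
      rw [hf, hX]
      linarith [mul_nonneg (Int.natCast_nonneg c) (hn (X 0 - MvPolynomial.C a)),
        mul_nonneg (Int.natCast_nonneg M) (hn R), mul_nonneg (Int.natCast_nonneg oq) (hn R')]
    have := mul_le_mul_of_nonneg_left hU' (Int.natCast_nonneg D.m)
    linarith
  · by_cases hg : g' = g
    · subst hg; linarith
    · have := mul_le_mul_of_nonneg_left (hothers g' hg) (Int.natCast_nonneg D.m)
      have := (D.sizes P g').2.2.2.2
      linarith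

theorem exists_not_dvd_pderiv {p : ℕ} (hp : p.Prime) [CharP k p] [IsAlgClosed k] {π : P2 k}
    (hπ : Prime π) : ∃ i, ¬ π ∣ pderiv i π := by
  by_contra! h
  have h0 : ∀ i, pderiv i π = 0 := fun i => by
    by_contra hne
    have := totalDegree_le_of_dvd_of_isDomain (h i) hne
    exact absurd (totalDegree_pderiv_lt i hne) (not_lt.2 this)
  obtain ⟨g, hg⟩ := exists_pow_char hp (fun c => IsAlgClosed.exists_pow_nat_eq c hp.pos) h0
  exact not_irreducible_pow hp.ne_one (hg ▸ hπ.irreducible)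

theorem const_curve {π : P2 k} (hπ : Prime π) (c : k) (hc : c ≠ 0) :
    (curveOrd hπ).f (C c) = 0 :=
  OrdFun.f_const _ hc (Int.natCast_nonneg _) (Int.natCast_nonneg _)

theorem const_point (P : Fin 2 → k) (c : k) (hc : c ≠ 0) : (pointOrd P).f (C c) = 0 :=
  OrdFun.f_const _ hc (Int.natCast_nonneg _) (Int.natCast_nonneg _)

theorem pointOrd_lin (P : Fin 2 → k) : (pointOrd P).f (X 0 - C (P 0) : P2 k) = 1 := by
  show ((ordAt P _).toNat : ℤ) = 1
  rw [ordAt_eq_one (i := 0) (by simp) (by simp)]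
  rfl

theorem curve_det (i j : Fin 2) (hij : i ≠ j) (π : P2 k) :
    ∃ ε : k, ε ≠ 0 ∧
      (Pi.single i π : Fin 2 → P2 k) 0 *
          ((Pi.single j (pderiv i π) : Fin 2 → P2 k) 1 + (Pi.single i (-pderiv j π) : Fin 2 → P2 k) 1)
        - (Pi.single i π : Fin 2 → P2 k) 1 *
          ((Pi.single j (pderiv i π) : Fin 2 → P2 k) 0 + (Pi.single i (-pderiv j π) : Fin 2 → P2 k) 0)
        = C ε * (π * pderiv i π) := by
  obtain ⟨rfl, rfl⟩ | ⟨rfl, rfl⟩ : (i = 0 ∧ j = 1) ∨ (i = 1 ∧ j = 0) := by omega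
  · refine ⟨1, one_ne_zero, ?_⟩
    rw [C_1, Pi.single_eq_same, Pi.single_eq_same, Pi.single_eq_of_ne (by decide : (1 : Fin 2) ≠ 0),
      Pi.single_eq_of_ne (by decide : (1 : Fin 2) ≠ 0)]
    ring
  · refine ⟨-1, neg_ne_zero.2 one_ne_zero, ?_⟩
    rw [map_neg, C_1, Pi.single_eq_same, Pi.single_eq_same,
      Pi.single_eq_of_ne (by decide : (0 : Fin 2) ≠ 1), Pi.single_eq_of_ne (by decide : (0 : Fin 2) ≠ 1)]
    simp

theorem curve_wit {π : P2 k} (hπ : Prime π) (χ : D.Ix) (p q : P2 k) (hp : p ≠ 0) (hq : q ≠ 0)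
    (h : 0 ≤ D.m * ((curveOrd hπ).f p - (curveOrd hπ).f q) + (curveOrd hπ).f (D.cχ χ)) :
    ∃ (p' q' U : P2 k) (N : ℕ), q' ≠ 0 ∧ U ≠ 0 ∧ p' * q = p * q' ∧
      D.m * (curveOrd hπ).f (q' * U) = N * 0 ∧ D.AdmPoly N (U ^ D.m * q' ^ D.m) ∧
      D.AdmPoly N (U ^ D.m * (p' ^ D.m * D.cχ χ)) := by
  classical
  obtain ⟨p', q', c, hrel, rfl, rfl⟩ :=
    UniqueFactorizationMonoid.exists_reduced_factors p hp q
  have hc0 := left_ne_zero_of_mul hp
  have hp' := right_ne_zero_of_mul hp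
  have hq' := right_ne_zero_of_mul hq
  rw [(curveOrd hπ).f_mul _ _ hc0 hp', (curveOrd hπ).f_mul _ _ hc0 hq'] at h
  have hq0 : (curveOrd hπ).f q' = 0 := by
    by_contra hne
    have h1 : (1 : ℤ) ≤ (curveOrd hπ).f q' := by
      have : (0 : ℤ) ≤ (curveOrd hπ).f q' := Int.natCast_nonneg _
      omega
    have hdq := (le_curveOrd_iff hπ hq' 1).1 (by exact_mod_cast h1)
    rw [pow_one] at hdq
    have h2 : (curveOrd hπ).f p' = 0 := by
      show (multiplicity π p' : ℤ) = 0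
      rw [multiplicity_eq_zero.2 fun hdp => hπ.not_isUnit (hrel hdp hdq)]
      rfl
    have h3 : (curveOrd hπ).f (D.cχ χ) < D.m := by
      by_contra hle
      push Not at hle
      exact D.not_pow_dvd_cχ hπ χ ((le_curveOrd_iff hπ (D.cχ_ne χ) _).1 hle)
    have := mul_le_mul_of_nonneg_left h1 (Int.natCast_nonneg D.m)
    linarith [congrArg ((D.m : ℤ) * ·) h2]
  obtain ⟨a, b, U, N, h1, h2, h3, h4, h5, h6⟩ :=
    D.wit_of_room (χ := χ) hp' hq' (by linarith) (D.room_curve hπ hq' hq0)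
  exact ⟨a, b, U, N, h1, h2, by linear_combination c * h3, h4, h5, h6⟩

/-- The derivation along a curve. -/
noncomputable def curveFrame (i j : Fin 2) (π : P2 k) : Fin 2 → P2 k :=
  Pi.single j (pderiv i π) + Pi.single i (-pderiv j π)

theorem curve_log' {π : P2 k} (hπ : Prime π) (i j : Fin 2) (hij : i ≠ j)
    (hi : ¬ π ∣ pderiv i π) : (curveOrd hπ).Log (curveFrame i j π) (pderiv i π) :=
  (curve_log hπ i j hij hi).2

/-- The determinant of the frames of a curve. -/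
theorem curve_det_props {π : P2 k} (hπ : Prime π) (i j : Fin 2) (hij : i ≠ j)
    (hi : ¬ π ∣ pderiv i π) (a₀ a₁ : Fin 2 → P2 k) (e₀ : a₀ = Pi.single i π)
    (e₁ : a₁ = curveFrame i j π) :
    a₀ 0 * a₁ 1 - a₀ 1 * a₁ 0 ≠ 0 ∧ (curveOrd hπ).f (a₀ 0 * a₁ 1 - a₀ 1 * a₁ 0)
      - (curveOrd hπ).f (pderiv i π) - (curveOrd hπ).f (pderiv i π) ≠ 0 := by
  subst e₀ e₁
  simp only [curveFrame]
  refine ⟨?_, ?_⟩
  · obtain ⟨ε, hε, h⟩ := curve_det i j hij π
    simp only [Pi.add_apply]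
    rw [h]
    exact mul_ne_zero (by simpa using hε) (mul_ne_zero hπ.ne_zero fun h0 => hi (h0 ▸ dvd_zero π))
  · have hd : pderiv i π ≠ 0 := fun h0 => hi (h0 ▸ dvd_zero π)
    have h1 : (curveOrd hπ).f (pderiv i π) = 0 := by
      show (multiplicity π (pderiv i π) : ℤ) = 0
      rw [multiplicity_eq_zero.2 hi]; rfl
    have h2 : (curveOrd hπ).f π = 1 := by
      show (multiplicity π π : ℤ) = 1
      rw [multiplicity_self]; rfl
    obtain ⟨ε, hε, h⟩ := curve_det i j hij π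
    simp only [Pi.add_apply]
    rw [h, (curveOrd hπ).f_mul _ _ (by simpa using hε) (mul_ne_zero hπ.ne_zero hd),
      (curveOrd hπ).f_mul _ _ hπ.ne_zero hd, h1, h2, const_curve hπ _ hε]
    norm_num

/-- The place of a curve. -/
noncomputable def curvePlace {π : P2 k} (hπ : Prime π) (i j : Fin 2) (hij : i ≠ j)
    (hi : ¬ π ∣ pderiv i π) : Place D where
  o := curveOrd hπ
  β := 0
  a₀ := Pi.single i π
  a₁ := curveFrame i j π
  d₀ := pderiv i π
  d₁ := pderiv i π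
  hd₀ h0 := hi (h0 ▸ dvd_zero π)
  hd₁ h0 := hi (h0 ▸ dvd_zero π)
  log₀ := (curve_log hπ i j hij hi).1
  log₁ := curve_log' hπ i j hij hi
  det_ne := (curve_det_props hπ i j hij hi _ _ rfl rfl).1
  det_ord := (curve_det_props hπ i j hij hi _ _ rfl rfl).2
  const := const_curve hπ
  unif := ⟨π, 1, hπ.ne_zero, one_ne_zero, by
    rw [(curveOrd hπ).f_one, sub_zero]
    show (multiplicity π π : ℤ) = 1
    rw [multiplicity_self]; rfl⟩
  bound N P _ _ := by rw [mul_zero]; exact Int.natCast_nonneg _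
  wit := D.curve_wit hπ

/-- The line at infinity. -/
noncomputable def degPlace : Place D where
  o := degOrd
  β := -(3 * D.m : ℤ)
  a₀ := ![X 0, X 1]
  a₁ := ![0, X 0]
  d₀ := 1
  d₁ := 1
  hd₀ := one_ne_zero
  hd₁ := one_ne_zero
  log₀ := deg_log.1
  log₁ := deg_log.2
  det_ne := by simp
  det_ord := by
    simp only [Matrix.cons_val_zero, Matrix.cons_val_one, mul_zero, sub_zero]
    rw [degOrd.f_one, degOrd.f_mul _ _ (X_ne_zero _) (X_ne_zero _)]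
    simp [degOrd]
  const c hc := by simp [degOrd]
  unif := ⟨1, X 0, one_ne_zero, X_ne_zero _, by simp [degOrd]⟩
  bound N P hP h := by
    have := Int.ofNat_le.2 h.deg
    simp only [degOrd]
    push_cast at this
    linarith
  wit χ p q hp hq h := D.wit_of_room hp hq h (D.room_deg hq)

/-- A coordinate line at infinity. -/
noncomputable def varPlace (i j : Fin 2) (hij : i ≠ j) : Place D where
  o := degVarOrd i
  β := -(2 * D.m : ℤ)
  a₀ := Pi.single i (X i)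
  a₁ := Pi.single j 1
  d₀ := 1
  d₁ := 1
  hd₀ := one_ne_zero
  hd₁ := one_ne_zero
  log₀ := (degVar_log i j hij).1
  log₁ := (degVar_log i j hij).2
  det_ne := by
    obtain ⟨rfl, rfl⟩ | ⟨rfl, rfl⟩ : (i = 0 ∧ j = 1) ∨ (i = 1 ∧ j = 0) := by omega
    all_goals simp
  det_ord := by
    obtain ⟨rfl, rfl⟩ | ⟨rfl, rfl⟩ : (i = 0 ∧ j = 1) ∨ (i = 1 ∧ j = 0) := by omega
    all_goals simp [degVarOrd]
  const c hc := by simp [degVarOrd]
  unif := ⟨1, X i, one_ne_zero, X_ne_zero _, by simp [degVarOrd]⟩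
  bound N P hP h := by
    have hX := Int.ofNat_le.2 h.degX
    have hY := Int.ofNat_le.2 h.degY
    simp only [degVarOrd]
    push_cast at hX hY
    fin_cases i <;> simp only [Fin.zero_eta, Fin.mk_one] <;> linarith
  wit χ p q hp hq h := by
    obtain ⟨rfl, rfl⟩ | ⟨rfl, rfl⟩ : (i = 0 ∧ j = 1) ∨ (i = 1 ∧ j = 0) := by omega
    exacts [D.wit_of_room hp hq h (D.room_degX hq), D.wit_of_room hp hq h (D.room_degY hq)]

/-- The exceptional curve at the origin. -/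
noncomputable def originPlace : Place D where
  o := pointOrd 0
  β := D.m
  a₀ := ![X 0 - C ((0 : Fin 2 → k) 0), X 1 - C ((0 : Fin 2 → k) 1)]
  a₁ := ![0, X 0 - C ((0 : Fin 2 → k) 0)]
  d₀ := 1
  d₁ := 1
  hd₀ := one_ne_zero
  hd₁ := one_ne_zero
  log₀ := (point_log _).1
  log₁ := (point_log _).2
  det_ne := by simp
  det_ord := by
    simp only [Matrix.cons_val_zero, Matrix.cons_val_one, mul_zero, sub_zero]
    simp only [Pi.zero_apply, map_zero, sub_zero]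
    rw [(pointOrd _).f_one, (pointOrd _).f_mul _ _ (X_ne_zero _)
      (X_ne_zero _)]
    simp [pointOrd, ordAt_X_origin]
  const := const_point _
  unif := ⟨X 0, 1, X_ne_zero _, one_ne_zero, by simp [pointOrd, ordAt_X_origin]⟩
  bound N P hP h := by
    have := (le_pointOrd_iff _ hP _).2 h.origin
    push_cast at this
    linarith
  wit χ p q hp hq h := D.wit_of_room hp hq h (D.room_origin hq)

theorem lin_ne (a : k) (i : Fin 2) : (X i - C a : P2 k) ≠ 0 := fun h => by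
  simpa using congrArg (eval fun _ => a + 1) h

/-- The exceptional curve at a grid point. -/
noncomputable def gridPlace (g : Fin D.m × Fin D.m) : Place D where
  o := pointOrd (D.grid g)
  β := 1
  a₀ := ![X 0 - C (D.grid g 0), X 1 - C (D.grid g 1)]
  a₁ := ![0, X 0 - C (D.grid g 0)]
  d₀ := 1
  d₁ := 1
  hd₀ := one_ne_zero
  hd₁ := one_ne_zero
  log₀ := (point_log _).1
  log₁ := (point_log _).2
  det_ne := by simp [lin_ne]
  det_ord := by
    simp only [Matrix.cons_val_zero, Matrix.cons_val_one, mul_zero, sub_zero]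
    rw [(pointOrd _).f_one, (pointOrd _).f_mul _ _ (lin_ne _ _) (lin_ne _ _), pointOrd_lin]
    norm_num
  const := const_point _
  unif := ⟨X 0 - C (D.grid g 0), 1, lin_ne _ _, one_ne_zero, by
    rw [(pointOrd _).f_one, pointOrd_lin]; norm_num⟩
  bound N P hP h := by
    have := (le_pointOrd_iff _ hP _).2 (h.points g)
    linarith
  wit χ p q hp hq h := D.wit_of_room hp hq h (D.room_grid g hq)

end Par

end Vale.Agent.P190.Example
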