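import Vale.Agent.P190.Defs
import Vale.Agent.P190.Example.Over

/-!
P190: the poles of the canonical module of a cone at a divisorial valuation of the plane.
-/

open MvPolynomial WithZero

namespace Vale.Agent.P190.Example

set_option linter.unusedSectionVars false

variable {k K : Type} [Field k] [Field K] [Algebra k K]

section Chart

variable (C : Cone k K)

/-- The three parameters. -/
def three : Set K := {1, C.η, C.ζ}

theorem three_mem {s : K} (hs : s ∈ three C) : s ∈ C.R 1 := by
  rcases hs with rfl | rfl | rfl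
  exacts [C.one_mem, C.η_mem, C.ζ_mem]

theorem three_ne_zero {s : K} (hs : s ∈ three C) : s ≠ 0 := by
  rcases hs with rfl | rfl | rfl
  exacts [one_ne_zero, C.indep.ne_zero 0, C.indep.ne_zero 1]

theorem pow_mem_R {s : K} (hs : s ∈ C.R 1) (i : ℕ) : s ^ i ∈ C.R i := by
  induction i with
  | zero => rw [pow_zero, Nat.cast_zero, C.R_zero]; exact Submodule.subset_span rfl
  | succ i ih => rw [pow_succ, Nat.cast_succ]; exact C.mul_mem _ _ _ ih _ hs

/-- The elements of a chart are single fractions. -/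
theorem mem_chart {s : K} (hs : s ∈ three C) {x : K} (hx : x ∈ C.chart s) :
    ∃ (n : ℕ), ∃ a ∈ C.R n, x = a / s ^ n := by
  have hs1 := three_mem C hs
  have hs0 := three_ne_zero C hs
  induction hx using Algebra.adjoin_induction with
  | mem y hy => exact hy
  | algebraMap r =>
    refine ⟨0, algebraMap k K r, ?_, by simp⟩
    rw [Nat.cast_zero, C.R_zero, Algebra.algebraMap_eq_smul_one]
    exact Submodule.smul_mem _ r (Submodule.subset_span rfl)
  | add y z _ _ hy hz =>
    obtain ⟨n, a, ha, rfl⟩ := hy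
    obtain ⟨l, b, hb, rfl⟩ := hz
    refine ⟨n + l, a * s ^ l + s ^ n * b, ?_, by rw [pow_add]; field_simp⟩
    rw [Nat.cast_add]
    exact add_mem (C.mul_mem _ _ _ ha _ (pow_mem_R C hs1 l)) (C.mul_mem _ _ _ (pow_mem_R C hs1 n) _ hb)
  | mul y z _ _ hy hz =>
    obtain ⟨n, a, ha, rfl⟩ := hy
    obtain ⟨l, b, hb, rfl⟩ := hz
    refine ⟨n + l, a * b, ?_, by rw [pow_add]; field_simp⟩
    rw [Nat.cast_add]
    exact C.mul_mem _ _ _ ha _ hb

variable {s : K} {a : Fin 2 → K} (hs : s ∈ three C)
  (hgen : ∀ e ∈ three C, ∃ p : P2 k, aeval a p = e / s)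
  (hcon : ∀ i, a i ∈ C.chart s)

include hcon in
theorem range_le_chart : (aeval a).range ≤ C.chart s := by
  rintro _ ⟨p, rfl⟩
  show aeval a p ∈ C.chart s
  induction p using MvPolynomial.induction_on with
  | C c => simp
  | add p q hp hq => rw [map_add]; exact add_mem hp hq
  | mul_X p i hp => rw [map_mul, aeval_X]; exact mul_mem hp (hcon i)

include hs hgen hcon in
/-- A chart is integral over its two parameters. -/
theorem chart_isIntegral {x : K} (hx : x ∈ C.chart s) : IsIntegral (aeval (R := k) a).range x := by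
  classical
  set A := (aeval (R := k) a).range
  have hs0 := three_ne_zero C hs
  have hfd : ∀ n : ℤ, ∃ T : Finset K, Submodule.span k (T : Set K) = C.R n := fun n =>
    haveI := C.fd n
    (C.R n).fg_iff_finiteDimensional.2 inferInstance
  choose T hT using hfd
  set G : Finset K := (Finset.range (C.g + 1)).biUnion fun n => (T (n : ℤ)).image (· / s ^ n)
  set N := Submodule.span A (G : Set K)
  let S : Subalgebra A K :=
    { (C.chart s).toSubsemiring with
      algebraMap_mem' := fun c => range_le_chart C hcon c.2 }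
  have hle : ∀ y ∈ S, y ∈ N := by
    intro y hy
    obtain ⟨n, b, hb, rfl⟩ := mem_chart C hs (show y ∈ C.chart s from hy)
    clear hy
    induction n using Nat.strong_induction_on generalizing b with
    | _ n ih =>
      by_cases hn : n ≤ C.g
      · rw [← hT] at hb
        induction hb using Submodule.span_induction with
        | mem c hc => exact Submodule.subset_span (Finset.mem_biUnion.2
            ⟨n, Finset.mem_range.2 (by omega), Finset.mem_image.2 ⟨c, hc, rfl⟩⟩)
        | zero => simp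
        | add c c' _ _ h h' => rw [add_div]; exact N.add_mem h h'
        | smul r c _ h =>
          rw [smul_div_assoc, ← IsScalarTower.algebraMap_smul A r]
          exact N.smul_mem _ h
      · obtain ⟨l, rfl⟩ : ∃ l, n = l + 1 := ⟨n - 1, by omega⟩
        rw [Nat.cast_succ, C.gen l (by exact_mod_cast (by omega : C.g ≤ l))] at hb
        obtain ⟨c, hc, c₂, hc₂, rfl⟩ := Submodule.mem_sup.1 hb
        obtain ⟨c₀, hc₀, c₁', hc₁, rfl⟩ := Submodule.mem_sup.1 hc
        obtain ⟨c₁, hc₁, rfl⟩ := hc₁
        obtain ⟨c₂, hc₂, rfl⟩ := hc₂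
        have key : ∀ e ∈ three C, ∀ c ∈ C.R l, e / s * (c / s ^ l) ∈ N := fun e he c hc => by
          obtain ⟨p, hp⟩ := hgen e he
          have hmem : e / s ∈ A := ⟨p, hp⟩
          exact N.smul_mem (⟨e / s, hmem⟩ : A) (ih l (by omega) c hc)
        have e : (c₀ + LinearMap.mulLeft k C.η c₁ + LinearMap.mulLeft k C.ζ c₂) / s ^ (l + 1)
            = 1 / s * (c₀ / s ^ l) + C.η / s * (c₁ / s ^ l) + C.ζ / s * (c₂ / s ^ l) := by
          simp only [LinearMap.mulLeft_apply, pow_succ]
          field_simp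
        rw [e]
        exact N.add_mem (N.add_mem (key 1 (by simp [three]) c₀ hc₀)
          (key _ (by simp [three]) c₁ hc₁)) (key _ (by simp [three]) c₂ hc₂)
  have heq : S.toSubmodule = N := by
    refine le_antisymm hle (Submodule.span_le.2 fun z hz => ?_)
    obtain ⟨n, -, hn⟩ := Finset.mem_biUnion.1 hz
    obtain ⟨c, hc, rfl⟩ := Finset.mem_image.1 hn
    exact Algebra.subset_adjoin ⟨n, c, hT n ▸ Submodule.subset_span hc, rfl⟩
  exact IsIntegral.of_mem_of_fg S ⟨G, heq.symm⟩ x hx

end Chart

section Bound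

variable [IsAlgClosed k] (C : Cone k K) {B : ValuationSubring K}

/-- The pole bound in one chart. -/
theorem chart_pole (hk : ∀ c : k, algebraMap k K c ∈ B)
    (hn : ∀ n : ℕ, 0 < n → n ≤ C.d → B.valuation (n : K) = 1) {s : K} (hs : s ∈ three C)
    {a : Fin 2 → K} (hgen : ∀ e ∈ three C, ∃ p : P2 k, aeval a p = e / s)
    (hcon : ∀ i, a i ∈ C.chart s) (hF : ∀ i, a i ∈ ratField k C.η C.ζ) (haB : ∀ i, a i ∈ B)
    (hpos : ∃ z : K, z ≠ 0 ∧ B.valuation z < 1)
    (δ : Fin 2 → Derivation k K K) (hδ : ∀ i x, LE' B x (δ i x))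
    (hfrac : (∀ r ∈ C.chart s, r ∈ B) → ∀ x ∈ B, ∃ r ∈ C.chart s, ∃ t ∈ C.chart s,
      B.valuation t = 1 ∧ x * t = r)
    {n : ℤ} {w : K} (hw : (fun _ : Fin 1 => w) ∈ C.omega n) :
    (∀ r ∈ C.chart s, r ∈ B) ∧
    Pos B (w / s ^ (n - 3) * (δ 0 (a 0) * δ 1 (a 1) - δ 0 (a 1) * δ 1 (a 0))) := by
  classical
  have hs0 := three_ne_zero C hs
  set F := ratField k C.η C.ζ
  set A := (aeval (R := k) a).range with hA
  have : Algebra.IsSeparable F K := C.sep
  have : FiniteDimensional F K := Module.finite_of_finrank_pos (C.finrank_K ▸ C.d_pos)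
  have hAB : ∀ p : P2 k, aeval a p ∈ B := fun p => by
    induction p using MvPolynomial.induction_on with
    | C c => simpa using hk c
    | add p q hp hq => rw [map_add]; exact add_mem hp hq
    | mul_X p i hp => rw [map_mul, aeval_X]; exact mul_mem hp (haB i)
  have hRB : ∀ r ∈ C.chart s, r ∈ B := fun r hr => by
    obtain ⟨q, hqm, hq⟩ := chart_isIntegral C hs hgen hcon hr
    rw [← B.valuation_le_one_iff]
    by_contra hgt
    push Not at hgt
    let f : A →+* B := ((algebraMap A K).codRestrict B.toSubring fun c => by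
      obtain ⟨p, hp⟩ := c.2
      exact (show algebraMap A K c = aeval a p from hp.symm) ▸ hAB p)
    have hint : IsIntegral B r := ⟨q.map f, hqm.map f, by rw [Polynomial.eval₂_map]; exact hq⟩
    obtain ⟨y, hy⟩ := IsIntegrallyClosed.isIntegral_iff.1 hint
    exact absurd ((B.valuation_le_one_iff _).2 (hy ▸ y.2)) (not_le.2 hgt)
  refine ⟨hRB, ?_⟩
  have haF : A ≤ F.toSubalgebra := by
    rintro _ ⟨p, rfl⟩
    show aeval a p ∈ F.toSubalgebra
    induction p using MvPolynomial.induction_on with
    | C c => simp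
    | add p q hp hq => rw [map_add]; exact add_mem hp hq
    | mul_X p i hp => rw [map_mul, aeval_X]; exact mul_mem hp (hF i)
  have hFa : F ≤ IntermediateField.adjoin k (Set.range a) := by
    have hm : ∀ p : P2 k, aeval a p ∈ IntermediateField.adjoin k (Set.range a) := fun p => by
      induction p using MvPolynomial.induction_on with
      | C c => simp
      | add p q hp hq => rw [map_add]; exact add_mem hp hq
      | mul_X p i hp =>
        rw [map_mul, aeval_X]
        exact mul_mem hp (IntermediateField.subset_adjoin k _ ⟨i, rfl⟩)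
    refine IntermediateField.adjoin_le_iff.2 fun e he => ?_
    obtain ⟨p, hp⟩ := hgen e (by rcases he with rfl | rfl <;> simp [three])
    obtain ⟨q, hq⟩ := hgen 1 (by simp [three])
    rw [show e = aeval a p / aeval a q by rw [hp, hq]; field_simp]
    exact div_mem (hm p) (hm q)
  obtain ⟨f, hf0, hf⟩ : ∃ f : P2 k, f ≠ 0 ∧ Pos B (aeval a f) := by
    by_contra! hall
    have hone : ∀ p : P2 k, aeval a p ≠ 0 → B.valuation (aeval a p) = 1 := fun p hp =>
      le_antisymm ((B.valuation_le_one_iff _).2 (hAB p))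
        (not_lt.1 (hall p fun h => hp (by rw [h, map_zero])))
    obtain ⟨z, hz, hz1⟩ := hpos
    obtain ⟨l, hl, -, i, hi⟩ := exists_pow_mul B (L₀ := F) (π := 1) (fun c hc => ⟨0, by
      obtain ⟨p, q, he⟩ := (IntermediateField.mem_adjoin_range_iff k a _).1 (hFa c.2)
      have hc' : (c : K) ≠ 0 := fun h => hc (Subtype.ext h)
      rw [he] at hc'
      rw [zpow_zero, show algebraMap F K c = (c : K) from rfl, he, map_div₀,
        hone p (left_ne_zero_of_mul (div_eq_mul_inv (aeval a p) (aeval a q) ▸ hc')),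
        hone q (fun h => hc' (by rw [h, div_zero])), div_one]⟩) hz
    rw [map_one, one_zpow, map_pow] at hi
    exact (pow_lt_one₀ zero_le hz1 hl.ne').ne hi
  obtain ⟨f, hf, j, hj⟩ := exists_unit_pderiv B hk a haB
    (fun p hp _ c => IsAlgClosed.exists_pow_nat_eq c hp.pos) ⟨f, hf0, hf⟩
  let _ : Algebra A F := (Subalgebra.inclusion haF).toRingHom.toAlgebra
  have : IsScalarTower A F K := IsScalarTower.of_algebraMap_eq fun _ => rfl
  let _ : Algebra A (C.chart s) :=
    (Subalgebra.inclusion (range_le_chart C hcon)).toRingHom.toAlgebra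
  have : IsScalarTower A (C.chart s) K := IsScalarTower.of_algebraMap_eq fun _ => rfl
  have : Algebra.IsIntegral A (C.chart s) := ⟨fun r => by
    refine (isIntegral_algHom_iff (IsScalarTower.toAlgHom A (C.chart s) K)
      Subtype.val_injective).1 ?_
    exact chart_isIntegral C hs hgen hcon r.2⟩
  refine pole_bound B (A := A) (R := C.chart s) (F := F) (g := ⟨aeval a f, f, rfl⟩)
    Subtype.val_injective (fun r => hRB r r.2)
    (fun x hx => ?_) (C.finrank_K ▸ hn) hf (det_div_mem B a haB δ hδ hj) ?_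
  · obtain ⟨r, hr, t, ht, h1, h2⟩ := hfrac hRB x hx
    exact ⟨⟨r, hr⟩, ⟨t, ht⟩, h1, h2⟩
  rintro ⟨r, hr⟩
  obtain ⟨l, b, hb, rfl⟩ := mem_chart C hs hr
  have hsF : s ∈ F := by
    rcases hs with rfl | rfl | rfl
    exacts [one_mem F, IntermediateField.subset_adjoin _ _ (by simp),
      IntermediateField.subset_adjoin _ _ (by simp)]
  have htr := hw l (fun _ => b) hb
  simp only [Fin.sum_univ_one] at htr
  set N : ℤ := n + l - 3
  have hA' : ∀ z ∈ polySpace (k := k) C.η C.ζ N, z / s ^ N ∈ A := by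
    intro z hz
    induction hz using Submodule.span_induction with
    | mem y hy =>
      obtain ⟨i, i', hii, rfl⟩ := hy
      obtain ⟨p₀, h₀⟩ := hgen 1 (by simp [three])
      obtain ⟨p₁, h₁⟩ := hgen C.η (by simp [three])
      obtain ⟨p₂, h₂⟩ := hgen C.ζ (by simp [three])
      obtain ⟨i₀, hi₀⟩ : ∃ i₀ : ℕ, N = ((i + i' + i₀ : ℕ) : ℤ) :=
        ⟨(N - ((i + i' : ℕ) : ℤ)).toNat, by omega⟩
      refine ⟨p₀ ^ i₀ * p₁ ^ i * p₂ ^ i', ?_⟩
      rw [hi₀, zpow_natCast]
      simp only [map_mul, map_pow, AlgHom.toRingHom_eq_coe, RingHom.coe_coe, h₀, h₁, h₂, div_pow,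
        pow_add, one_pow]
      field_simp
    | zero => simp
    | add y y' _ _ h h' => rw [add_div]; exact add_mem h h'
    | smul c y _ h => rw [smul_div_assoc]; exact Subalgebra.smul_mem _ h c
  refine ⟨⟨_, hA' _ htr⟩, ?_⟩
  set σ : F := ⟨s, hsF⟩ with hσ
  have e : w / s ^ (n - 3) * (b / s ^ l) = (σ ^ N)⁻¹ • (w * b) := by
    rw [Algebra.smul_def, map_inv₀, map_zpow₀, show algebraMap F K σ = s from rfl,
      show N = n - 3 + l by omega, zpow_add₀ hs0, zpow_natCast]
    field_simp
  refine Subtype.ext ?_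
  show ((Algebra.trace F K (w / s ^ (n - 3) * (b / s ^ l)) : F) : K) = _ / s ^ N
  rw [e, map_smul, smul_eq_mul, IntermediateField.coe_mul, IntermediateField.coe_inv,
    show ((σ ^ N : F) : K) = s ^ N by rfl, inv_mul_eq_div]

end Bound

end Vale.Agent.P190.Example
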