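import Vale.Agent.P190.Example.DivVal
import Vale.Agent.P190.Example.Model

/-!
P190: the valuation bounds on a component of the canonical module say exactly that its product with
`(u v w)^(m-1)` is admissible in degree `n + m - 2`.
-/

open MvPolynomial

namespace Vale.Agent.P190.Example

set_option linter.unusedSectionVars false

variable {k : Type} [Field k]

/-- A polynomial with at most the multiplicity of another at every prime divides it. -/
theorem dvd_of_curveOrd {a : P2 k} (ha : a ≠ 0) :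
    ∀ b : P2 k, b ≠ 0 → (∀ π : P2 k, ∀ h : Prime π, (curveOrd h).f a ≤ (curveOrd h).f b) →
      a ∣ b := by
  induction a using WfDvdMonoid.induction_on_irreducible with
  | zero => exact absurd rfl ha
  | unit u hu => exact fun b _ _ => hu.dvd
  | mul a π ha0 hπ ih =>
    intro b hb h
    have hp : Prime π := irreducible_iff_prime.1 hπ
    have h1 : (1 : ℤ) ≤ (curveOrd hp).f (π * a) :=
      (le_curveOrd_iff hp ha 1).2 (by rw [pow_one]; exact dvd_mul_right π a)
    obtain ⟨b', rfl⟩ : π ∣ b := by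
      simpa using (le_curveOrd_iff hp hb 1).1 (h1.trans (h π hp))
    refine mul_dvd_mul_left π (ih ha0 b' (right_ne_zero_of_mul hb) fun ρ hρ => ?_)
    have h2 := h ρ hρ
    rw [(curveOrd hρ).f_mul _ _ hp.ne_zero ha0,
      (curveOrd hρ).f_mul _ _ hp.ne_zero (right_ne_zero_of_mul hb)] at h2
    linarith

variable [Infinite k] (D : Par k)

namespace Par

theorem f_cχ (o : OrdFun k) (χ : D.Ix) :
    o.f (D.cχ χ) = (χ 0 : ℕ) * o.f (D.cpol 0) + (χ 1 : ℕ) * o.f (D.cpol 1)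
      + (χ 2 : ℕ) * o.f (D.cpol 2) := by
  have hne : ∀ i, D.cpol i ^ (χ i : ℕ) ≠ 0 := fun i => pow_ne_zero _ (D.cpol_ne i)
  rw [cχ, Fin.prod_univ_three, o.f_mul _ _ (mul_ne_zero (hne 0) (hne 1)) (hne 2),
    o.f_mul _ _ (hne 0) (hne 1), o.f_pow (D.cpol_ne 0), o.f_pow (D.cpol_ne 1), o.f_pow (D.cpol_ne 2)]

/-- The exponents of `(u v w)^(m-1)`. -/
def topIdx : D.Ix := fun _ => ⟨D.m - 1, Nat.sub_lt D.m_pos Nat.one_pos⟩

theorem curve_cases {π : P2 k} (hπ : Prime π) :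
    ((curveOrd hπ).f (D.cpol 0) = 0 ∧ (curveOrd hπ).f (D.cpol 1) = 0 ∧
      (curveOrd hπ).f (D.cpol 2) = 0) ∨
      (curveOrd hπ).f (D.cpol 0) + (curveOrd hπ).f (D.cpol 1) + (curveOrd hπ).f (D.cpol 2) = 1 := by
  have hle : ∀ i, (curveOrd hπ).f (D.cpol i) ≤ 1 ∧ 0 ≤ (curveOrd hπ).f (D.cpol i) := fun i => by
    refine ⟨?_, Int.natCast_nonneg _⟩
    by_contra hlt
    push Not at hlt
    have h2 := (le_curveOrd_iff hπ (D.cpol_ne i) 2).1 (by push_cast; omega)
    exact D.cpol_squarefree hπ i (by rwa [← sq])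
  have hsep : ∀ i j, i ≠ j → ¬((curveOrd hπ).f (D.cpol i) = 1 ∧ (curveOrd hπ).f (D.cpol j) = 1) :=
    fun i j hij h => by
      have hi := (le_curveOrd_iff hπ (D.cpol_ne i) 1).1 (by rw [h.1]; norm_num)
      have hj := (le_curveOrd_iff hπ (D.cpol_ne j) 1).1 (by rw [h.2]; norm_num)
      rw [pow_one] at hi hj
      exact D.cpol_separated hπ hij hi hj
  have := hle 0; have := hle 1; have := hle 2
  have := hsep 0 1 (by decide); have := hsep 0 2 (by decide); have := hsep 1 2 (by decide)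
  omega

/-- Integer bounds at the divisorial valuations give admissibility. -/
theorem adm_shift {n : ℕ} {χ : D.Ix} {p q : P2 k} (hp : p ≠ 0) (hq : q ≠ 0)
    (hcurve : ∀ π : P2 k, ∀ h : Prime π,
      -(D.m : ℤ) < D.m * ((curveOrd h).f p - (curveOrd h).f q) + (curveOrd h).f (D.cχ χ))
    (hdeg : -(3 * D.m * n : ℤ) + 2 * D.m <
      D.m * (degOrd.f p - degOrd.f q) + degOrd.f (D.cχ χ))
    (hvar : ∀ i, -(2 * D.m * n : ℤ) + D.m <
      D.m * ((degVarOrd i).f p - (degVarOrd i).f q) + (degVarOrd i).f (D.cχ χ))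
    (horigin : (D.m * n : ℤ) - 2 * D.m <
      D.m * ((pointOrd 0).f p - (pointOrd 0).f q) + (pointOrd 0).f (D.cχ χ))
    (hgrid : ∀ g, (n : ℤ) - 2 * D.m <
      D.m * ((pointOrd (D.grid g)).f p - (pointOrd (D.grid g)).f q)
        + (pointOrd (D.grid g)).f (D.cχ χ)) :
    ∃ z : P2 k, z * q ^ D.m = p ^ D.m * D.cχ χ * D.cχ D.topIdx ∧
      D.AdmPoly (n + (D.m - 2)) z := by
  set P := p ^ D.m * D.cχ χ * D.cχ D.topIdx with hP
  have hq' := pow_ne_zero D.m hq
  have hP0 : P ≠ 0 := mul_ne_zero (mul_ne_zero (pow_ne_zero _ hp) (D.cχ_ne χ)) (D.cχ_ne _)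
  have hfP : ∀ o : OrdFun k, o.f P = D.m * o.f p + o.f (D.cχ χ) + o.f (D.cχ D.topIdx) := fun o => by
    rw [hP, o.f_mul _ _ (mul_ne_zero (pow_ne_zero _ hp) (D.cχ_ne χ)) (D.cχ_ne _),
      o.f_mul _ _ (pow_ne_zero _ hp) (D.cχ_ne χ), o.f_pow hp]
  have htop : ∀ o : OrdFun k, o.f (D.cχ D.topIdx)
      = ((D.m - 1 : ℕ) : ℤ) * (o.f (D.cpol 0) + o.f (D.cpol 1) + o.f (D.cpol 2)) := fun o => by
    rw [f_cχ]
    show ((D.m - 1 : ℕ) : ℤ) * _ + ((D.m - 1 : ℕ) : ℤ) * _ + ((D.m - 1 : ℕ) : ℤ) * _ = _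
    ring
  have hm1 : ((D.m - 1 : ℕ) : ℤ) = D.m - 1 := by have := D.m_pos; omega
  have hm2 : ((n + (D.m - 2) : ℕ) : ℤ) = n + D.m - 2 := by have := D.hm; omega
  obtain ⟨z, hz⟩ : q ^ D.m ∣ P := by
    refine dvd_of_curveOrd hq' P hP0 fun π hπ => ?_
    rw [(curveOrd hπ).f_pow hq, hfP, htop, hm1]
    have hc := hcurve π hπ
    rcases D.curve_cases hπ with ⟨a, b, c⟩ | h1
    · rw [f_cχ, a, b, c] at hc ⊢
      simp only [mul_zero, add_zero] at hc ⊢
      by_contra! hlt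
      have h2 := lt_of_mul_lt_mul_left hlt (Int.natCast_nonneg D.m)
      nlinarith [D.m_pos]
    · rw [h1]
      linarith
  have hz0 : z ≠ 0 := right_ne_zero_of_mul (hz ▸ hP0)
  refine ⟨z, by rw [hz, mul_comm], ?_⟩
  have hfz : ∀ o : OrdFun k,
      o.f z = D.m * (o.f p - o.f q) + o.f (D.cχ χ) + o.f (D.cχ D.topIdx) := fun o => by
    have h := congrArg o.f hz
    rw [hfP, o.f_mul _ _ hq' hz0, o.f_pow hq] at h
    linarith
  obtain ⟨e0, e1, e2⟩ := D.degreeOf_cχ χ
  obtain ⟨o0, o1⟩ := D.ordAt_cχ χ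
  obtain ⟨t0, t1, t2⟩ := D.degreeOf_cχ D.topIdx
  obtain ⟨s0, s1⟩ := D.ordAt_cχ D.topIdx
  have hmul : ∀ {a : ℤ} {b : ℤ}, (D.m : ℤ) * b < D.m * a → D.m * (b + 1) ≤ D.m * a := fun h => by
    have := lt_of_mul_lt_mul_left h (Int.natCast_nonneg D.m)
    exact mul_le_mul_of_nonneg_left (by omega) (Int.natCast_nonneg D.m)
  have htot : D.tot D.topIdx = 3 * (D.m - 1) := by simp [tot, topIdx]
  constructor
  · have h := hfz (degVarOrd 0)
    have hb := hvar 0
    simp only [degVarOrd, e0, t0] at h hb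
    have := hmul (a := -((degreeOf 0 p : ℤ) - degreeOf 0 q) - D.exX χ) (b := -2 * (n : ℤ) + 1)
      (by push_cast at hb; linarith)
    rw [← Int.ofNat_le]
    simp only [exX, topIdx] at h this
    push_cast [hm1, hm2] at h this ⊢
    linarith
  · have h := hfz (degVarOrd 1)
    have hb := hvar 1
    simp only [degVarOrd, e1, t1] at h hb
    have := hmul (a := -((degreeOf 1 p : ℤ) - degreeOf 1 q) - D.exY χ) (b := -2 * (n : ℤ) + 1)
      (by push_cast at hb; linarith)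
    rw [← Int.ofNat_le]
    simp only [exY, topIdx] at h this
    push_cast [hm1, hm2] at h this ⊢
    linarith
  · have h := hfz degOrd
    simp only [degOrd, e2, t2] at h hdeg
    have := hmul (a := -((p.totalDegree : ℤ) - q.totalDegree) - D.tot χ) (b := -3 * (n : ℤ) + 2)
      (by push_cast at hdeg; linarith)
    rw [← Int.ofNat_le]
    rw [htot] at h
    push_cast [hm1, hm2] at h this ⊢
    linarith
  · rw [← le_pointOrd_iff _ hz0, hfz]
    simp only [pointOrd, o0, s0, ENat.toNat_natCast] at horigin ⊢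
    have := hmul (a := ((ordAt (0 : Fin 2 → k) p).toNat : ℤ) - (ordAt (0 : Fin 2 → k) q).toNat
      + (χ 0 : ℕ)) (b := (n : ℤ) - 2) (by push_cast at horigin; linarith)
    simp only [topIdx]
    push_cast [hm1, hm2] at this ⊢
    linarith
  · intro g
    rw [← le_pointOrd_iff _ hz0, hfz]
    have hb := hgrid g
    simp only [pointOrd, o1, s1, ENat.toNat_natCast] at hb ⊢
    rw [htot]
    push_cast [hm1, hm2] at hb ⊢
    linarith

end Par

end Vale.Agent.P190.Example
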