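import Vale.Agent.P190.Example.Cone
import Vale.Agent.P190.Example.Criterion
import Vale.Agent.P190.Example.Places
import Vale.Agent.P190.Example.Poles
import Vale.Agent.P190.Example.Shift

/-!
P190: the pole bound of the canonical module of the example at a place of the plane, component by
component.
-/

open MvPolynomial WithZero

namespace Vale.Agent.P190.Example

set_option linter.unusedSectionVars false

variable {k : Type} [Field k] [Infinite k] (D : Par k)

namespace Par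

instance isScalarTower_poly : IsScalarTower k (P2 k) D.K :=
  IsScalarTower.of_algebraMap_eq fun a => by
    rw [IsScalarTower.algebraMap_apply k (L2 k) D.K, IsScalarTower.algebraMap_apply (P2 k) (L2 k) D.K,
      IsScalarTower.algebraMap_apply k (P2 k) (L2 k)]

theorem Tp_adm (s : k) (i : Fin 3) : D.AdmPoly 1 (D.Tp s i) := by
  have h := (D.admPoly_monomial_iff (conic_ne s i)).mpr (D.pblock_conic s i)
  have e : D.cχ (D.unitIdx i) = D.cpol i := by
    rw [cχ, Fintype.prod_eq_single i (fun j hj => by simp [unitIdx, hj])]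
    simp [unitIdx]
  rwa [e, mul_comm] at h

theorem Tp_ne (s : k) (i : Fin 3) : D.Tp s i ≠ 0 :=
  mul_ne_zero (D.cpol_ne i) (pow_ne_zero _ (conic_ne s i))

theorem TK_pow (s : k) (i : Fin 3) :
    D.TK s i ^ D.m = algebraMap (L2 k) D.K (algebraMap (P2 k) (L2 k) (D.Tp s i)) :=
  Subtype.ext (D.T_pow' s i)

/-- A monomial in the roots. -/
noncomputable def mon (χ : D.Ix) (φ : L2 k) : D.K := ⟨_, D.monomial_mem χ φ⟩

theorem mon_pow (χ : D.Ix) (φ : L2 k) :
    D.mon χ φ ^ D.m = algebraMap (L2 k) D.K (D.kum.Z χ φ) :=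
  Subtype.ext (D.kum.monomial_pow χ φ)

theorem mon_ne (χ : D.Ix) {φ : L2 k} (hφ : φ ≠ 0) : D.mon χ φ ≠ 0 := fun h =>
  mul_ne_zero ((_root_.map_ne_zero _).2 hφ) (D.kum.rx_ne χ) (congrArg Subtype.val h)

theorem sum_mon (f : D.kum.Idx → L2 k) (x : D.K) (hx : D.kum.Φ f = (x : M2 k)) :
    x = ∑ χ, D.mon χ (f χ) := by
  refine Subtype.ext ?_
  rw [← hx, Kummer.Φ_apply, IntermediateField.coe_sum]
  rfl

/-- The Jacobian of the two fractions. -/
noncomputable def J (s : k) : D.K :=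
  pdK (k := k) 0 (D.eta s) * pdK (k := k) 1 (D.zeta s)
    - pdK (k := k) 1 (D.eta s) * pdK (k := k) 0 (D.zeta s)

/-- The ratios of the parameters to one of them generate a chart. -/
theorem exists_chart_params (s : k) (i₀ : Fin 3) :
    ∃ (j l : Fin 3) (ε : D.K), ε ^ 2 = 1 ∧ (∀ i, i = i₀ ∨ i = j ∨ i = l) ∧
      ∀ δ₀ δ₁ : Derivation k D.K D.K,
        δ₀ (D.TK s j / D.TK s i₀) * δ₁ (D.TK s l / D.TK s i₀)
            - δ₀ (D.TK s l / D.TK s i₀) * δ₁ (D.TK s j / D.TK s i₀)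
          = ε * (δ₀ (D.eta s) * δ₁ (D.zeta s) - δ₀ (D.zeta s) * δ₁ (D.eta s))
              / (D.TK s i₀ / D.TK s 0) ^ 3 := by
  have hη : D.eta s ≠ 0 := div_ne_zero (D.TK_ne s 1) (D.TK_ne s 0)
  have hζ : D.zeta s ≠ 0 := div_ne_zero (D.TK_ne s 2) (D.TK_ne s 0)
  have hX := D.TK_ne s 0
  have h0 : ∀ i, D.TK s 0 / D.TK s i = 1 / (D.TK s i / D.TK s 0) := fun i => by rw [one_div_div]
  have h : ∀ i i', D.TK s i / D.TK s i' = (D.TK s i / D.TK s 0) / (D.TK s i' / D.TK s 0) :=
    fun i i' => by rw [div_div_div_cancel_right₀ hX]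
  fin_cases i₀
  · refine ⟨1, 2, 1, one_pow 2, fun i => by fin_cases i <;> simp, fun δ₀ δ₁ => ?_⟩
    show _ = _ / (D.TK s 0 / D.TK s 0) ^ 3
    simp [div_self hX, eta, zeta]
  · refine ⟨0, 2, -1, by ring, fun i => by fin_cases i <;> simp, fun δ₀ δ₁ => ?_⟩
    show δ₀ (D.TK s 0 / D.TK s 1) * δ₁ (D.TK s 2 / D.TK s 1)
      - δ₀ (D.TK s 2 / D.TK s 1) * δ₁ (D.TK s 0 / D.TK s 1) = _ / (D.eta s) ^ 3
    rw [h0 1, h 2 1, ← eta, ← zeta]
    simp only [Derivation.leibniz_div, Derivation.map_one_eq_zero, smul_eq_mul, mul_zero]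
    field_simp
    ring
  · refine ⟨0, 1, 1, one_pow 2, fun i => by fin_cases i <;> simp, fun δ₀ δ₁ => ?_⟩
    show δ₀ (D.TK s 0 / D.TK s 2) * δ₁ (D.TK s 1 / D.TK s 2)
      - δ₀ (D.TK s 1 / D.TK s 2) * δ₁ (D.TK s 0 / D.TK s 2) = _ / (D.zeta s) ^ 3
    rw [h0 2, h 1 2, ← eta, ← zeta]
    simp only [Derivation.leibniz_div, Derivation.map_one_eq_zero, smul_eq_mul, mul_zero]
    field_simp
    ring

/-- Relations between values that hold at every valuation ring over a place pass to components. -/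
theorem component_rel {o : OrdFun k} (c r : L2 k) (strict : Bool) (x : D.K) (f : D.kum.Idx → L2 k)
    (hf : D.kum.Φ f = (x : M2 k)) (hk : ∀ a : k, o.val (algebraMap k (L2 k) a) ≤ 1)
    (h : ∀ B : ValuationSubring D.K, Over o.val B →
      (strict = true → B.valuation ((x * algebraMap (L2 k) D.K c) ^ D.m)
        < B.valuation (algebraMap (L2 k) D.K r)) ∧
      B.valuation ((x * algebraMap (L2 k) D.K c) ^ D.m) ≤ B.valuation (algebraMap (L2 k) D.K r))
    (χ : D.Ix) :
    (strict = true → o.val (D.kum.Z χ (f χ) * c ^ D.m) < o.val r) ∧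
      o.val (D.kum.Z χ (f χ) * c ^ D.m) ≤ o.val r := by
  set S : ValuationSubring D.K → D.K → Prop := fun B y =>
    (strict = true → B.valuation ((y * algebraMap (L2 k) D.K c) ^ D.m)
      < B.valuation (algebraMap (L2 k) D.K r)) ∧
    B.valuation ((y * algebraMap (L2 k) D.K c) ^ D.m) ≤ B.valuation (algebraMap (L2 k) D.K r)
    with hS
  set c' := algebraMap (L2 k) D.K c
  set r' := algebraMap (L2 k) D.K r with hr'
  -- the relation as an inequality between `m`-th roots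
  have root : ∀ (B : ValuationSubring D.K) (a b : D.K), B.valuation (a ^ D.m) ≤ B.valuation (b ^ D.m)
      ↔ B.valuation a ≤ B.valuation b := fun B a b => by
    rw [map_pow, map_pow, pow_le_pow_iff_left₀ zero_le zero_le D.m_pos.ne']
  let P : M2 k → Prop := fun z => z ∈ D.field ∧ ∀ y : D.K, (y : M2 k) = z →
    ∀ B : ValuationSubring D.K, Over o.val B → S B y
  have hP : P (D.kum.Φ f) := ⟨hf ▸ x.2, fun y hy B hB => by
    rw [show y = x from Subtype.ext (hy.trans hf)]
    exact h B hB⟩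
  have key := D.kum.component (P := P) (fun a b ha hb => ?_) (fun a z hz => ?_) (fun σ z hz => ?_)
    f hP χ
  · obtain ⟨B, hB⟩ := exists_over (K := D.K) o.val
    have h2 := key.2 (D.mon χ (f χ)) rfl B hB
    simp only [hS] at h2
    rw [show c' = algebraMap (L2 k) D.K c from rfl, mul_pow, D.mon_pow, ← map_pow, ← map_mul] at h2
    exact ⟨fun hs => (hB.lt_iff _ _).1 (h2.1 hs), (hB.le_iff _ _).1 h2.2⟩
  · refine ⟨sub_mem ha.1 hb.1, fun y hy B hB => ?_⟩
    obtain ⟨ha1, ha2⟩ := ha.2 ⟨a, ha.1⟩ rfl B hB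
    obtain ⟨hb1, hb2⟩ := hb.2 ⟨b, hb.1⟩ rfl B hB
    rw [show y = ⟨a, ha.1⟩ - ⟨b, hb.1⟩ from Subtype.ext hy]
    simp only [hS, sub_mul, map_pow] at ha1 ha2 hb1 hb2 ⊢
    have hmax := Valuation.map_sub B.valuation (⟨a, ha.1⟩ * c') (⟨b, hb.1⟩ * c')
    rcases max_choice (B.valuation (⟨a, ha.1⟩ * c')) (B.valuation (⟨b, hb.1⟩ * c')) with e | e <;>
      rw [e] at hmax
    · exact ⟨fun hs => lt_of_le_of_lt (pow_le_pow_left' hmax _) (ha1 hs),
        le_trans (pow_le_pow_left' hmax _) ha2⟩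
    · exact ⟨fun hs => lt_of_le_of_lt (pow_le_pow_left' hmax _) (hb1 hs),
        le_trans (pow_le_pow_left' hmax _) hb2⟩
  · refine ⟨?_, fun y hy B hB => ?_⟩
    · rw [Algebra.smul_def]
      exact mul_mem (D.field.algebraMap_mem (algebraMap k (L2 k) a)) hz.1
    obtain ⟨hz1, hz2⟩ := hz.2 ⟨z, hz.1⟩ rfl B hB
    rw [show y = a • (⟨z, hz.1⟩ : D.K) from Subtype.ext hy]
    simp only [hS] at hz1 hz2 ⊢
    have ha : B.valuation (algebraMap k D.K a) ≤ 1 := by
      rw [IsScalarTower.algebraMap_apply k (L2 k) D.K, hB.le_one_iff]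
      exact hk a
    have hle : B.valuation ((a • (⟨z, hz.1⟩ : D.K) * c') ^ D.m)
        ≤ B.valuation (((⟨z, hz.1⟩ : D.K) * c') ^ D.m) := by
      rw [root, Algebra.smul_def, mul_assoc, map_mul]
      exact mul_le_of_le_one_left' ha
    exact ⟨fun hs => lt_of_le_of_lt hle (hz1 hs), hle.trans hz2⟩
  · refine ⟨D.apply_mem_field σ hz.1, fun y hy B hB => ?_⟩
    let τ : D.K →+* D.K :=
      ((σ : M2 k →+* M2 k).comp (algebraMap D.K (M2 k))).codRestrict D.field.toSubalgebra.toSubring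
        fun t => D.apply_mem_field σ t.2
    have hτ : ∀ φ : L2 k, τ (algebraMap (L2 k) D.K φ) = algebraMap (L2 k) D.K φ := fun φ =>
      Subtype.ext (σ.commutes φ)
    have hB' : Over o.val (B.comap τ) := fun φ => by
      rw [ValuationSubring.mem_comap, hτ]; exact hB φ
    have hle : ∀ u w : D.K, (B.comap τ).valuation u ≤ (B.comap τ).valuation w ↔
        B.valuation (τ u) ≤ B.valuation (τ w) := fun u w => by
      rcases eq_or_ne w 0 with rfl | hw
      · simp
      have h1 : (0 : ValuationRing.ValueGroup (B.comap τ) D.K) < (B.comap τ).valuation w :=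
        zero_lt_iff.2 ((Valuation.ne_zero_iff _).2 hw)
      have h2 : (0 : ValuationRing.ValueGroup B D.K) < B.valuation (τ w) :=
        zero_lt_iff.2 ((Valuation.ne_zero_iff _).2 ((_root_.map_ne_zero τ).2 hw))
      have e1 := (B.comap τ).valuation_le_one_iff (u / w)
      have e2 := B.valuation_le_one_iff (τ (u / w))
      simp only [map_div₀] at e1 e2
      refine (div_le_one₀ h1).symm.trans (e1.trans (Iff.trans ?_ (e2.symm.trans (div_le_one₀ h2))))
      rw [ValuationSubring.mem_comap, map_div₀]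
    obtain ⟨hz1, hz2⟩ := hz.2 ⟨z, hz.1⟩ rfl _ hB'
    have e : τ ((⟨z, hz.1⟩ * c') ^ D.m) = (y * c') ^ D.m := by
      rw [map_pow, map_mul, hτ, show τ ⟨z, hz.1⟩ = y from Subtype.ext hy.symm]
    simp only [hS]
    rw [← e, hr', ← hτ r]
    exact ⟨fun hs => not_le.1 fun hge => not_le.2 (hz1 hs) ((hle _ _).2 hge), (hle _ _).1 hz2⟩

end Par

theorem C_R_one {K : Type} [Field K] [Algebra k K] {C : Cone k K} {x : K} (hx : x ∈ three C) :
    x ∈ C.R ((1 : ℕ) : ℤ) := by exact_mod_cast three_mem C hx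

theorem frameDer_det {k K : Type} [Field k] [Field K] [Algebra k K] [Algebra (L2 k) K]
    [Algebra (P2 k) K] [IsScalarTower k (P2 k) K] [IsScalarTower (P2 k) (L2 k) K]
    [IsScalarTower k (L2 k) K] [FiniteDimensional (L2 k) K] [Algebra.IsSeparable (L2 k) K]
    (a₀ a₁ : Fin 2 → P2 k) (d₀ d₁ : P2 k) (hd₀ : d₀ ≠ 0) (hd₁ : d₁ ≠ 0) (x y : K) :
    frameDer a₀ d₀ x * frameDer a₁ d₁ y - frameDer a₀ d₀ y * frameDer a₁ d₁ x
      = algebraMap (L2 k) K (algebraMap (P2 k) (L2 k) (a₀ 0 * a₁ 1 - a₀ 1 * a₁ 0)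
          / algebraMap (P2 k) (L2 k) (d₀ * d₁))
        * (pdK (k := k) 0 x * pdK (k := k) 1 y - pdK (k := k) 1 x * pdK (k := k) 0 y) := by
  have hne : ∀ {r : P2 k}, r ≠ 0 → algebraMap (P2 k) K r ≠ 0 := fun hr => by
    rw [IsScalarTower.algebraMap_apply (P2 k) (L2 k) K]
    exact (_root_.map_ne_zero _).2 ((map_ne_zero_iff _ (IsFractionRing.injective _ _)).2 hr)
  have := hne hd₀
  have := hne hd₁
  rw [map_div₀, ← IsScalarTower.algebraMap_apply, ← IsScalarTower.algebraMap_apply, map_mul,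
    map_sub, map_mul, map_mul]
  simp only [frameDer, Derivation.smul_apply, Derivation.add_apply, smul_eq_mul]
  field_simp
  ring

theorem chart_scale {K : Type*} [Field K] {X T σ w c J ε : K} (hX : X ≠ 0) (hT : T ≠ 0)
    (hσ : σ = T / X) {n : ℕ} :
    w / σ ^ ((n : ℤ) - 3) * (ε * (c * J) / σ ^ 3) = ε * (w * J * X ^ n * c) / T ^ n := by
  have hσ0 : σ ≠ 0 := hσ ▸ div_ne_zero hT hX
  rw [zpow_sub₀ hσ0, zpow_natCast, show (3 : ℤ) = ((3 : ℕ) : ℤ) from rfl, zpow_natCast, hσ,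
    div_pow, div_pow]
  field_simp

theorem val_lt_of_sign {K : Type*} [Field K] {B : ValuationSubring K} {ε z T : K} {n : ℕ}
    (hε : ε ^ 2 = 1) (hT : T ≠ 0) (h : B.valuation (ε * z / T ^ n) < 1) :
    B.valuation z < B.valuation T ^ n := by
  have hε1 : B.valuation ε = 1 := by
    refine (pow_left_inj₀ zero_le zero_le two_ne_zero).1 ?_
    rw [← map_pow, hε, map_one, one_pow]
  rw [map_div₀, map_mul, hε1, one_mul, map_pow,
    div_lt_one₀ (pow_pos (zero_lt_iff.2 ((Valuation.ne_zero_iff _).2 hT)) n)] at h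
  exact h

namespace Place

variable {D} (v : Place D)

theorem val_const (a : k) : v.o.val (algebraMap k (L2 k) a) ≤ 1 := by
  rcases eq_or_ne a 0 with rfl | ha
  · simp
  rw [IsScalarTower.algebraMap_apply k (P2 k) (L2 k), MvPolynomial.algebraMap_eq,
    v.o.val_algebraMap (by simpa using ha), v.const a ha]
  simp

theorem val_one_of_nat {n : ℕ} (hn : (n : k) ≠ 0) {B : ValuationSubring D.K}
    (hB : Over v.o.val B) : B.valuation (n : D.K) = 1 := by
  rw [← map_natCast (algebraMap (L2 k) D.K), hB.eq_one_iff, ← map_natCast (algebraMap k (L2 k)),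
    IsScalarTower.algebraMap_apply k (P2 k) (L2 k), MvPolynomial.algebraMap_eq,
    v.o.val_algebraMap (fun h => hn (C_injective _ _ (h.trans (map_zero C).symm))), v.const _ hn]
  simp

theorem val_div (p q : P2 k) (hp : p ≠ 0) (hq : q ≠ 0) :
    v.o.val (algebraMap (P2 k) (L2 k) p / algebraMap (P2 k) (L2 k) q)
      = exp (-(v.o.f p - v.o.f q)) := by
  rw [map_div₀, v.o.val_algebraMap hp, v.o.val_algebraMap hq, ← exp_sub]
  congr 1
  ring

theorem val_Z (χ : D.Ix) (p q : P2 k) (hp : p ≠ 0) (hq : q ≠ 0) :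
    v.o.val (D.kum.Z χ (algebraMap (P2 k) (L2 k) p / algebraMap (P2 k) (L2 k) q))
      = exp (-(D.m * (v.o.f p - v.o.f q) + v.o.f (D.cχ χ))) := by
  show v.o.val (_ ^ D.m * D.kum.cx χ) = _
  rw [map_mul, map_pow, v.val_div p q hp hq, D.cx_eq, v.o.val_algebraMap (D.cχ_ne χ), ← exp_nsmul,
    ← exp_add, nsmul_eq_mul]
  congr 1
  ring

/-- The criterion: no admissible polynomial does better than the parameters. -/
theorem criterion {s : k} (hs : D.Good s) {i₀ : Fin 3}
    (hi₀ : ∀ i, v.o.f (D.Tp s i₀) ≤ v.o.f (D.Tp s i)) {N : ℕ} {P : P2 k} (hP : P ≠ 0)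
    (h : D.AdmPoly N P) : N * v.o.f (D.Tp s i₀) ≤ v.o.f P := by
  have hle := Val.adm_le v.o.polyVal (fun a => ?_) hs (μ := exp (-v.o.f (D.Tp s i₀))) (fun i => ?_) h
  · rw [v.o.polyVal_apply hP, ← exp_nsmul, exp_le_exp, nsmul_eq_mul] at hle
    linarith
  · rcases eq_or_ne a 0 with rfl | ha
    · simp
    rw [v.o.polyVal_apply (by simpa using ha), v.const a ha]
    simp
  · rw [← map_pow, ← map_mul, show D.cpol i * Par.conic s i ^ D.m = D.Tp s i from rfl,
      v.o.polyVal_apply (D.Tp_ne s i), exp_le_exp]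
    exact neg_le_neg (hi₀ i)

/-- The derivation of a frame preserves the valuation ring and does not lower any value. -/
theorem frame_log [IsAlgClosed k] (p : ℕ) [CharP k p] (hp : Module.finrank (L2 k) D.K < p)
    {B : ValuationSubring D.K} (hB : Over v.o.val B) {a : Fin 2 → P2 k} {d : P2 k} (hd : d ≠ 0)
    (hlog : v.o.Log a d) (x : D.K) : LE' B x (frameDer a d x) := by
  have hnat : ∀ n : ℕ, 0 < n → n < p → B.valuation (n : D.K) = 1 := fun n h0 h1 =>
    v.val_one_of_nat (fun h => by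
      rw [CharP.cast_eq_zero_iff k p] at h
      exact absurd (Nat.le_of_dvd h0 h) (not_le.2 h1)) hB
  have hm : B.valuation (D.m : D.K) = 1 := v.val_one_of_nat D.hmk hB
  obtain ⟨π₀, hπ₀⟩ : ∃ π : L2 k, v.o.val π = exp (-1) := by
    obtain ⟨a, b, ha, hb, hab⟩ := v.unif
    exact ⟨_, (v.val_div a b ha hb).trans (by rw [hab])⟩
  have hπ0 : π₀ ≠ 0 := fun h => by rw [h, map_zero] at hπ₀; exact exp_ne_zero hπ₀.symm
  -- elements integral at the place
  have hint : ∀ z : D.K, (∀ B' : ValuationSubring D.K, Over v.o.val B' → z ∈ B') →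
      frameDer a d z ∈ B := by
    intro z hz
    obtain ⟨f, hf⟩ := D.mem_field.mp z.2
    rw [D.sum_mon f z hf, map_sum]
    refine sum_mem fun χ _ => ?_
    have h1 : v.o.val (D.kum.Z χ (f χ)) ≤ 1 := by
      have := (D.component_rel (o := v.o) 1 1 false z f hf v.val_const
        (fun B' hB' => ⟨fun h => by simp at h, by
          rw [map_one, mul_one, map_one, map_pow]
          exact pow_le_one' ((B'.valuation_le_one_iff _).2 (hz B' hB')) _⟩) χ).2
      simpa using this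
    obtain ⟨b, hb, e⟩ := frame_log_root hB hd hlog hm (D.mon_pow χ (f χ))
    rw [e]
    refine B.mul_mem _ _ hb ((B.valuation_le_one_iff _).1 ?_)
    by_contra hgt
    push Not at hgt
    have h2 : 1 < B.valuation (D.mon χ (f χ) ^ D.m) := by
      rw [map_pow]; exact one_lt_pow₀ hgt D.m_pos.ne'
    rw [D.mon_pow] at h2
    exact absurd ((hB.le_one_iff _).2 h1) (not_le.2 h2)
  refine log_of_base B (L₀ := L2 k) (π := algebraMap (L2 k) D.K π₀) ((_root_.map_ne_zero _).2 hπ0)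
    (fun c hc => ?_) (fun n h0 h1 => hnat n h0 (lt_of_le_of_lt h1 hp)) (frameDer a d) (fun z hz => ?_)
    (frame_log_base hB hd hlog π₀) x
  · refine ⟨-(log (v.o.val c)), ?_⟩
    rw [← map_zpow₀, ← map_zpow₀, hB.eq_iff, map_zpow₀, hπ₀, ← exp_zsmul,
      show -log (v.o.val c) • (-1 : ℤ) = log (v.o.val c) by simp,
      exp_log ((Valuation.ne_zero_iff _).2 hc)]
  · obtain ⟨t, ht, ht'⟩ := hB.exists_frac hz
    have hi := hint t fun B' hB' => (ht' B' hB').1
    have hi' := hint (z * t) fun B' hB' => (ht' B' hB').2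
    rw [Derivation.leibniz, smul_eq_mul, smul_eq_mul] at hi'
    have ht0 : t ≠ 0 := fun h => by simp [h] at ht
    rw [show frameDer a d z = (z * frameDer a d t + t * frameDer a d z - z * frameDer a d t) * t⁻¹ by
      field_simp; ring]
    exact B.mul_mem _ _ (sub_mem hi' (B.mul_mem _ _ hz hi)) (unit_mem B ht).2

variable {s : k} (hs : D.Good s) {i₀ : Fin 3} (hi₀ : ∀ i, v.o.f (D.Tp s i₀) ≤ v.o.f (D.Tp s i))

include hs hi₀

/-- An element integral at the place becomes a section after multiplication by a section that is a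
unit at the place. -/
theorem exists_section {B : ValuationSubring D.K} (hB : Over v.o.val B) {z : D.K}
    (hz : ∀ B' : ValuationSubring D.K, Over v.o.val B' → z ∈ B') :
    ∃ (N : ℕ) (e : D.K), (e : M2 k) ∈ D.grad.Sec N ∧ ((z * e : D.K) : M2 k) ∈ D.grad.Sec N ∧
      B.valuation e = B.valuation (D.TK s i₀) ^ N := by
  classical
  obtain ⟨f, hf⟩ := D.mem_field.mp z.2
  have hint : ∀ χ, v.o.val (D.kum.Z χ (f χ)) ≤ 1 := fun χ => by
    have := (D.component_rel (o := v.o) 1 1 false z f hf v.val_const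
      (fun B' hB' => ⟨fun h => by simp at h, by
        rw [map_one, mul_one, map_one, map_pow]
        exact pow_le_one' ((B'.valuation_le_one_iff _).2 (hz B' hB')) _⟩) χ).2
    simpa using this
  suffices H : ∀ T : Finset D.kum.Idx, ∃ (N : ℕ) (e : D.K), (e : M2 k) ∈ D.grad.Sec N ∧
      ((e * ∑ χ ∈ T, D.mon χ (f χ) : D.K) : M2 k) ∈ D.grad.Sec N ∧
      B.valuation e = B.valuation (D.TK s i₀) ^ N by
    obtain ⟨N, e, h1, h2, h3⟩ := H Finset.univ
    exact ⟨N, e, h1, by rw [mul_comm, D.sum_mon f z hf]; exact h2, h3⟩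
  intro T
  induction T using Finset.induction with
  | empty =>
    refine ⟨0, 1, by simpa using D.grad.one_mem_Sec, by simp, by simp⟩
  | @insert χ T hχ ih =>
    obtain ⟨N, e, he, heT, hv⟩ := ih
    obtain ⟨N', e', he', hec, hv'⟩ : ∃ (N : ℕ) (e : D.K), (e : M2 k) ∈ D.grad.Sec N ∧
        ((e * D.mon χ (f χ) : D.K) : M2 k) ∈ D.grad.Sec N ∧
        B.valuation e = B.valuation (D.TK s i₀) ^ N := by
      rcases eq_or_ne (f χ) 0 with h0 | h0
      · refine ⟨0, 1, by simpa using D.grad.one_mem_Sec, ?_, by simp⟩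
        rw [h0]
        simp [Par.mon]
      obtain ⟨p, q, hq, he⟩ := IsFractionRing.div_surjective (A := P2 k) (f χ)
      have hq0 := nonZeroDivisors.ne_zero hq
      have hp0 : p ≠ 0 := fun h => h0 (by rw [← he, h, map_zero, zero_div])
      have hint' := hint χ
      rw [← he, v.val_Z χ p q hp0 hq0, ← exp_zero, exp_le_exp] at hint'
      obtain ⟨p', q', U, N, hq', hU, hpq, hord, hA, hB'⟩ := v.wit χ p q hp0 hq0 (by linarith)
      have hφ : f χ = algebraMap (P2 k) (L2 k) p' / algebraMap (P2 k) (L2 k) q' := by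
        rw [← he, div_eq_div_iff ((map_ne_zero_iff _ (IsFractionRing.injective (P2 k) (L2 k))).2 hq0)
          ((map_ne_zero_iff _ (IsFractionRing.injective (P2 k) (L2 k))).2 hq'), ← map_mul, ← map_mul,
          hpq]
      refine ⟨N, algebraMap (L2 k) D.K (algebraMap (P2 k) (L2 k) (U * q')), ?_, ?_, ?_⟩
      · have hmem : algebraMap (P2 k) (L2 k) (U * q') ∈ D.grad.block D.kum.zeroIdx N := by
          show D.Adm N (D.kum.Z _ _)
          refine ⟨_, ?_, hA⟩
          rw [Kummer.Z, Kummer.cx_zeroIdx, mul_one, ← mul_pow, map_pow]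
          rfl
        have h := D.grad.monomial_mem_Sec.mpr hmem
        rw [Kummer.rx_zeroIdx, mul_one] at h
        exact h
      · have hmem : algebraMap (P2 k) (L2 k) (U * q') * f χ ∈ D.grad.block χ N := by
          show D.Adm N (D.kum.Z _ _)
          refine ⟨_, ?_, hB'⟩
          rw [hφ, map_mul (algebraMap (P2 k) (L2 k)) U q', mul_assoc,
            mul_div_cancel₀ _ ((map_ne_zero_iff _ (IsFractionRing.injective (P2 k) (L2 k))).2 hq'),
            ← map_mul, ← mul_assoc, ← mul_pow]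
          exact (D.Z_algebraMap χ (U * p')).symm
        have h := D.grad.monomial_mem_Sec.mpr hmem
        rw [map_mul (algebraMap (L2 k) (M2 k)), mul_assoc] at h
        exact h
      · have hUq : U * q' ≠ 0 := mul_ne_zero hU hq'
        have hA' : (0 : P2 k) ≠ U ^ D.m * q' ^ D.m :=
          (mul_ne_zero (pow_ne_zero _ hU) (pow_ne_zero _ hq')).symm
        have hc := v.criterion hs hi₀ hA'.symm hA
        have hb := v.bound 1 _ (D.Tp_ne s i₀) (D.Tp_adm s i₀)
        rw [← mul_pow, v.o.f_pow hUq, mul_comm U] at hc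
        rw [Nat.cast_one, one_mul] at hb
        have heq : (D.m : ℤ) * v.o.f (U * q') = N * v.o.f (D.Tp s i₀) := by
          rw [mul_comm U] at *
          exact le_antisymm (hord ▸ mul_le_mul_of_nonneg_left hb (Int.natCast_nonneg N)) hc
        have hpow : B.valuation (algebraMap (L2 k) D.K (algebraMap (P2 k) (L2 k) (U * q'))) ^ D.m
            = (B.valuation (D.TK s i₀) ^ N) ^ D.m := by
          rw [← pow_mul, mul_comm N, pow_mul, ← map_pow, ← map_pow B.valuation (D.TK s i₀),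
            D.TK_pow, ← map_pow, ← map_pow, ← map_pow, ← map_pow, hB.eq_iff,
            ← map_pow (algebraMap (P2 k) (L2 k)) (D.Tp s i₀),
            v.o.val_algebraMap (pow_ne_zero _ hUq), v.o.val_algebraMap (pow_ne_zero _ (D.Tp_ne s i₀)),
            v.o.f_pow hUq, v.o.f_pow (D.Tp_ne s i₀), heq]
        exact (pow_left_inj₀ zero_le zero_le D.m_pos.ne').1 hpow
    refine ⟨N + N', e * e', ?_, ?_, by rw [map_mul, hv, hv', pow_add]⟩
    · rw [IntermediateField.coe_mul]
      exact D.grad.mul_mem_Sec he he'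
    · rw [Finset.sum_insert hχ, show e * e' * (D.mon χ (f χ) + ∑ χ ∈ T, D.mon χ (f χ))
          = e * (e' * D.mon χ (f χ)) + e * (∑ χ ∈ T, D.mon χ (f χ)) * e' by ring,
        IntermediateField.coe_add]
      refine add_mem ?_ ?_ <;> rw [IntermediateField.coe_mul]
      exacts [D.grad.mul_mem_Sec he hec, D.grad.mul_mem_Sec heT he']

/-- Elements of the valuation ring are fractions of the chart with unit denominator. -/
theorem chart_frac {B : ValuationSubring D.K} (hB : Over v.o.val B) {A : Subalgebra k D.K}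
    (hsec : ∀ (N : ℕ) (e : D.K), (e : M2 k) ∈ D.grad.Sec N → e / D.TK s i₀ ^ N ∈ A)
    {x : D.K} (hx : x ∈ B) : ∃ r ∈ A, ∃ t ∈ A, B.valuation t = 1 ∧ x * t = r := by
  obtain ⟨t, ht, ht'⟩ := hB.exists_frac hx
  obtain ⟨N, e, he, hte, hve⟩ := v.exists_section hs hi₀ hB fun B' hB' => (ht' B' hB').1
  obtain ⟨N', e', he', hte', hve'⟩ := v.exists_section hs hi₀ hB fun B' hB' => (ht' B' hB').2
  have hTi := D.TK_ne s i₀
  refine ⟨x * t * e' / D.TK s i₀ ^ N' * (e / D.TK s i₀ ^ N),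
    mul_mem (hsec _ _ hte') (hsec _ _ he),
    t * e / D.TK s i₀ ^ N * (e' / D.TK s i₀ ^ N'), mul_mem (hsec _ _ hte) (hsec _ _ he'), ?_,
    by ring⟩
  have hnz : B.valuation (D.TK s i₀) ≠ 0 := (Valuation.ne_zero_iff _).2 hTi
  rw [map_mul, map_div₀, map_div₀, map_mul, map_pow, map_pow, ht, hve, hve', one_mul,
    div_self (pow_ne_zero _ hnz), div_self (pow_ne_zero _ hnz), one_mul]

omit hs hi₀ in
/-- The bound of the place on the components of the canonical module. -/
theorem omega_bound [IsAlgClosed k] (hs : D.Good s) (p : ℕ) [CharP k p] (hp : D.deg < p)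
    (hdim : Module.finrank (L2 k) D.K < p) {n : ℕ} {w : D.K}
    (hw : (fun _ : Fin 1 => w) ∈ (D.cone hs p hp).omega n) {f : D.kum.Idx → L2 k}
    (hf : D.kum.Φ f = ((w * D.J s * D.TK s 0 ^ n : D.K) : M2 k)) {χ : D.kum.Idx} {a b : P2 k}
    (ha : a ≠ 0) (hb : b ≠ 0)
    (hab : f χ = algebraMap (P2 k) (L2 k) a / algebraMap (P2 k) (L2 k) b) :
    (n * v.β : ℤ) - D.m * v.δ < D.m * (v.o.f a - v.o.f b) + v.o.f (D.cχ χ) := by
  classical
  obtain ⟨i₀, -, hi₀⟩ := Finset.exists_min_image (Finset.univ : Finset (Fin 3))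
    (fun i => v.o.f (D.Tp s i)) Finset.univ_nonempty
  replace hi₀ := fun i => hi₀ i (Finset.mem_univ i)
  obtain ⟨j, l, ε, hε, hall, hdet⟩ := D.exists_chart_params s i₀
  set C := D.cone hs p hp with hC
  set σ := D.TK s i₀ / D.TK s 0 with hσ
  set pr : Fin 2 → D.K := ![D.TK s j / D.TK s i₀, D.TK s l / D.TK s i₀]
  have hX := D.TK_ne s 0
  have hTi := D.TK_ne s i₀
  have hpr : ∀ i, ∃ i', pr i = D.TK s i' / D.TK s i₀ :=
    Fin.forall_fin_two.2 ⟨⟨j, rfl⟩, ⟨l, rfl⟩⟩
  have hthree : ∀ i, D.TK s i / D.TK s 0 ∈ three C := fun i => by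
    fin_cases i
    exacts [Or.inl (div_self hX), Or.inr (Or.inl rfl), Or.inr (Or.inr rfl)]
  have hexh : ∀ e ∈ three C, ∃ i, e = D.TK s i / D.TK s 0 := by
    rintro e (rfl | rfl | rfl)
    exacts [⟨0, (div_self hX).symm⟩, ⟨1, rfl⟩, ⟨2, rfl⟩]
  have hrat : ∀ i i', D.TK s i / D.TK s i' = (D.TK s i / D.TK s 0) / (D.TK s i' / D.TK s 0) :=
    fun i i' => by rw [div_div_div_cancel_right₀ hX]
  have hF : ∀ i, D.TK s i / D.TK s 0 ∈ ratField k C.η C.ζ := fun i => by
    fin_cases i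
    · show D.TK s 0 / D.TK s 0 ∈ _
      rw [div_self hX]; exact one_mem _
    exacts [IntermediateField.subset_adjoin _ _ (Or.inl rfl),
      IntermediateField.subset_adjoin _ _ (Or.inr rfl)]
  have hsec : ∀ (N : ℕ) (e : D.K), (e : M2 k) ∈ D.grad.Sec N → e / D.TK s i₀ ^ N ∈ C.chart σ := by
    intro N e he
    refine Algebra.subset_adjoin ⟨N, e / D.TK s 0 ^ N, (D.mem_R (n := N)).mpr ?_, ?_⟩
    · rw [IntermediateField.coe_div, IntermediateField.coe_pow]
      exact (div_mul_cancel₀ (e : M2 k) (pow_ne_zero N (D.T_ne s 0))).symm ▸ he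
    · rw [hσ, div_pow, div_div_div_cancel_right₀ (pow_ne_zero _ hX)]
  have hstep : ∀ B : ValuationSubring D.K, Over v.o.val B →
      B.valuation (((w * D.J s * D.TK s 0 ^ n) * algebraMap (L2 k) D.K
        (algebraMap (P2 k) (L2 k) (v.a₀ 0 * v.a₁ 1 - v.a₀ 1 * v.a₁ 0)
          / algebraMap (P2 k) (L2 k) (v.d₀ * v.d₁))) ^ D.m)
      < B.valuation (algebraMap (L2 k) D.K (algebraMap (P2 k) (L2 k) (D.Tp s i₀) ^ n)) := by
    intro B hB
    have hk : ∀ c : k, algebraMap k D.K c ∈ B := fun c => by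
      rw [IsScalarTower.algebraMap_apply k (L2 k) D.K]
      exact (hB _).2 (v.val_const c)
    have hn : ∀ q : ℕ, 0 < q → q ≤ C.d → B.valuation (q : D.K) = 1 := fun q h0 h1 =>
      v.val_one_of_nat (fun h => by
        rw [CharP.cast_eq_zero_iff k p] at h
        have h2 := Nat.le_of_dvd h0 h
        have h3 : C.d = D.deg := rfl
        omega) hB
    have hle : ∀ i, B.valuation (D.TK s i) ≤ B.valuation (D.TK s i₀) := fun i => by
      rw [← pow_le_pow_iff_left₀ zero_le zero_le D.m_pos.ne', ← map_pow, ← map_pow, D.TK_pow,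
        D.TK_pow, hB.le_iff, v.o.val_algebraMap (D.Tp_ne s i), v.o.val_algebraMap (D.Tp_ne s i₀),
        exp_le_exp]
      exact neg_le_neg (hi₀ i)
    have hposz : ∃ z : D.K, z ≠ 0 ∧ B.valuation z < 1 := by
      obtain ⟨a, b, ha, hb, hu⟩ := v.unif
      refine ⟨algebraMap (L2 k) D.K (algebraMap (P2 k) (L2 k) a / algebraMap (P2 k) (L2 k) b), ?_, ?_⟩
      · simp [ha, hb]
      · rw [hB.lt_one_iff, v.val_div a b ha hb, hu, ← exp_zero, exp_lt_exp]; norm_num
    obtain ⟨hlog0, hlog1⟩ := And.intro (v.frame_log p hdim hB v.hd₀ v.log₀)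
      (v.frame_log p hdim hB v.hd₁ v.log₁)
    have hchart := (chart_pole C hk hn (s := σ) (hthree i₀) (a := pr) (fun e he => ?_) (fun i => ?_)
      (fun i => ?_) (fun i => ?_) hposz ![frameDer v.a₀ v.d₀, frameDer v.a₁ v.d₁]
      (Fin.forall_fin_two.2 ⟨hlog0, hlog1⟩) (fun _ x hx => ?_) hw).2
    rotate_left
    · obtain ⟨i, rfl⟩ := hexh e he
      rcases hall i with rfl | rfl | rfl
      · exact ⟨1, by rw [map_one, hσ, div_self (div_ne_zero hTi hX)]⟩
      · exact ⟨MvPolynomial.X 0, by rw [aeval_X]; exact hrat _ _⟩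
      · exact ⟨MvPolynomial.X 1, by rw [aeval_X]; exact hrat _ _⟩
    · obtain ⟨i', e⟩ := hpr i
      rw [e, hrat]
      exact Algebra.subset_adjoin ⟨1, _, C_R_one (hthree i'), by rw [pow_one, hσ]⟩
    · obtain ⟨i', e⟩ := hpr i
      rw [e, hrat]
      exact div_mem (hF _) (hF _)
    · obtain ⟨i', e⟩ := hpr i
      rw [e, ← B.valuation_le_one_iff, map_div₀]
      exact (div_le_one₀ (zero_lt_iff.2 ((Valuation.ne_zero_iff _).2 hTi))).2 (hle _)
    · exact v.chart_frac hs hi₀ hB hsec hx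
    simp only [Matrix.cons_val_zero, Matrix.cons_val_one, pr] at hchart
    rw [hdet, frameDer_det v.a₀ v.a₁ v.d₀ v.d₁ v.hd₀ v.hd₁] at hchart
    set c := algebraMap (L2 k) D.K (algebraMap (P2 k) (L2 k) (v.a₀ 0 * v.a₁ 1 - v.a₀ 1 * v.a₁ 0)
      / algebraMap (P2 k) (L2 k) (v.d₀ * v.d₁))
    rw [Pos, chart_scale hX hTi hσ, show (pdK (k := k) 0 (D.eta s) * pdK (k := k) 1 (D.zeta s)
      - pdK (k := k) 1 (D.eta s) * pdK (k := k) 0 (D.zeta s)) = D.J s from rfl] at hchart
    rw [map_pow (algebraMap (L2 k) D.K), ← D.TK_pow, ← pow_mul, mul_comm D.m, pow_mul, map_pow,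
      map_pow, map_pow]
    exact pow_lt_pow_left₀ (val_lt_of_sign hε hTi hchart) zero_le D.m_pos.ne'
  have hc0 := v.det_ne
  have hdd := mul_ne_zero v.hd₀ v.hd₁
  have h := (D.component_rel (o := v.o) _ _ true _ f hf v.val_const
    (fun B hB => ⟨fun _ => hstep B hB, (hstep B hB).le⟩) χ).1 rfl
  rw [hab, map_mul, v.val_Z χ a b ha hb, map_pow, v.val_div _ _ hc0 hdd, map_pow,
    v.o.val_algebraMap (D.Tp_ne s i₀), ← exp_nsmul, ← exp_nsmul, ← exp_add, exp_lt_exp,
    nsmul_eq_mul, nsmul_eq_mul, v.o.f_mul _ _ v.hd₀ v.hd₁] at h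
  have hb' := v.bound 1 _ (D.Tp_ne s i₀) (D.Tp_adm s i₀)
  rw [Nat.cast_one, one_mul] at hb'
  have := mul_le_mul_of_nonneg_left hb' (Int.natCast_nonneg n)
  simp only [Place.δ]
  linarith

end Place

end Vale.Agent.P190.Example
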