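import Vale.Agent.P190.Example.Model

/-!
# P190 Module 6: the three parameters and the valuative criterion

`T 0 = u (1 - s² XY)`, `T 1 = v (X² - Y)`, `T 2 = w (Y² - s X)` have no common zero, so a valuation
is bounded on degree `n` by the `n`-th power of its largest value on them.
-/

namespace Vale.Agent.P190.Example

open MvPolynomial

set_option linter.unusedSectionVars false

variable {k : Type} [Field k] [Infinite k] (D : Par k)

namespace Par

/-- Genericity of the parameter `s`. -/
structure Good (s : k) : Prop where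
  ne : s ≠ 0
  cube : s ^ 3 ≠ 1
  pow : s ^ (2 * D.m) ≠ 1

theorem exists_good : ∃ s : k, D.Good s := by
  classical
  have h3 : (Polynomial.X ^ 3 - Polynomial.C (1 : k)) ≠ 0 :=
    Polynomial.X_pow_sub_C_ne_zero (by norm_num) _
  have h2 : (Polynomial.X ^ (2 * D.m) - Polynomial.C (1 : k)) ≠ 0 :=
    Polynomial.X_pow_sub_C_ne_zero (by have := D.m_pos; omega) _
  obtain ⟨s, hs⟩ := Infinite.exists_notMem_finset (insert 0
    ((Polynomial.X ^ 3 - Polynomial.C (1 : k)).roots.toFinset ∪
      (Polynomial.X ^ (2 * D.m) - Polynomial.C (1 : k)).roots.toFinset))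
  simp only [Finset.mem_insert, Finset.mem_union, Multiset.mem_toFinset, not_or] at hs
  exact ⟨s, hs.1, fun h => hs.2.1 ((Polynomial.mem_roots h3).mpr (by simp [h])),
    fun h => hs.2.2 ((Polynomial.mem_roots h2).mpr (by simp [h]))⟩

/-- The conics of the three parameters. -/
noncomputable def conic (s : k) : Fin 3 → P2 k :=
  ![1 - C (s ^ 2) * (X 0 * X 1), X 0 ^ 2 - X 1, X 1 ^ 2 - C s * X 0]

/-- The exponent vector of a single root. -/
def unitIdx (i : Fin 3) : D.Ix :=
  fun j => if j = i then ⟨1, lt_of_lt_of_le (by norm_num) D.hm⟩ else ⟨0, D.m_pos⟩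

theorem rx_unitIdx (i : Fin 3) : D.kum.rx (D.unitIdx i) = D.kum.rt i := by
  show ∏ j : Fin 3, D.kum.rt j ^ ((D.unitIdx i j : Fin D.m) : ℕ) = _
  rw [Fintype.prod_eq_single i (fun j hj => by simp [unitIdx, hj])]
  simp [unitIdx]

/-- The three parameters. -/
noncomputable def T (s : k) (i : Fin 3) : M2 k :=
  algebraMap (L2 k) (M2 k) (algebraMap (P2 k) (L2 k) (conic s i)) * D.kum.rt i

theorem pblock_conic (s : k) (i : Fin 3) : D.PBlock (D.unitIdx i) 1 (conic s i) := by
  have hg : D.gridOrd (D.unitIdx i) 1 = 0 := Nat.le_zero.mp <| by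
    rw [gridOrd_le_iff, tot, Fin.sum_univ_three]
    fin_cases i <;> simp [unitIdx]
  have h01 : (0 : Fin 2) ≠ 1 := by decide
  have hd : ∀ l, (conic s i).degreeOf l ≤ (if i = 0 then 1 else if i = 1 then
      (if l = 0 then 2 else 1) else (if l = 0 then 1 else 2)) ∧ (conic s i).totalDegree ≤ 2 := by
    intro l
    refine ⟨?_, ?_⟩
    · fin_cases i
      · refine (degreeOf_sub_le _ _ _).trans (max_le (by simp) ((degreeOf_C_mul_le _ _ _).trans
          ((degreeOf_mul_le _ _ _).trans ?_)))
        fin_cases l <;> simp [degreeOf_X]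
      · refine (degreeOf_sub_le _ _ _).trans (max_le ?_ ?_)
        · refine (degreeOf_pow_le _ _ _).trans ?_
          fin_cases l <;> simp [degreeOf_X]
        · fin_cases l <;> simp [degreeOf_X]
      · refine (degreeOf_sub_le _ _ _).trans (max_le ?_ ((degreeOf_C_mul_le _ _ _).trans ?_))
        · refine (degreeOf_pow_le _ _ _).trans ?_
          fin_cases l <;> simp [degreeOf_X]
        · fin_cases l <;> simp [degreeOf_X]
    · fin_cases i
      · refine (totalDegree_sub _ _).trans (max_le (by simp) ((totalDegree_mul _ _).trans ?_))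
        rw [totalDegree_C, zero_add]
        exact (totalDegree_mul _ _).trans (by simp [totalDegree_X])
      · refine (totalDegree_sub _ _).trans (max_le (by simp) (by simp [totalDegree_X]))
      · refine (totalDegree_sub _ _).trans (max_le (by simp) ((totalDegree_mul _ _).trans ?_))
        simp [totalDegree_X]
  refine ⟨?_, ?_, ?_, ?_, fun q => by simp [hg]⟩
  · have := (hd 0).1
    fin_cases i <;> simp [exX, unitIdx] at this ⊢ <;> omega
  · have := (hd 1).1
    fin_cases i <;> simp [exY, unitIdx] at this ⊢ <;> omega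
  · have := (hd 0).2
    fin_cases i <;> simp [tot, Fin.sum_univ_three, unitIdx] at this ⊢ <;> omega
  · fin_cases i
    · simp [unitIdx]
    all_goals
      show ((1 - _ : ℕ) : ℕ∞) ≤ _
      rw [show (1 : ℕ) - ((D.unitIdx _ 0 : Fin D.m) : ℕ) = 1 by simp [unitIdx], le_ordAt]
      intro d hd
      rw [Nat.lt_one_iff, Finsupp.degree_eq_zero_iff] at hd
      rw [hd, coeff_zero_shift]
      simp [conic]

theorem T_mem (s : k) (i : Fin 3) : D.T s i ∈ D.grad.Sec 1 := by
  rw [T, ← D.rx_unitIdx i]
  refine (D.grad.monomial_mem_Sec (χ := D.unitIdx i)).mpr ((D.mem_block_iff (χ := D.unitIdx i)).mpr ?_)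
  exact Or.inr ⟨_, rfl, D.pblock_conic s i⟩

theorem conic_ne (s : k) (i : Fin 3) : conic s i ≠ 0 := by
  intro h
  have h1 := congrArg (eval ![(0 : k), 0]) h
  have h2 := congrArg (eval ![(0 : k), 1]) h
  fin_cases i <;> simp [conic] at h1 h2

theorem T_ne (s : k) (i : Fin 3) : D.T s i ≠ 0 := by
  refine mul_ne_zero ((_root_.map_ne_zero _).mpr ?_) ?_
  · exact fun h => conic_ne s i ((map_eq_zero_iff _ (IsFractionRing.injective (P2 k) (L2 k))).mp h)
  · exact D.rx_unitIdx i ▸ D.kum.rx_ne _

/-- `T^m` as an element of the polynomial ring. -/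
theorem T_pow (s : k) (i : Fin 3) :
    D.T s i ^ D.m =
      algebraMap (P2 k) (M2 k) (D.cpol i * conic s i ^ D.m) := by
  rw [T, mul_pow, ← kum_m, D.kum.hrt, IsScalarTower.algebraMap_apply (P2 k) (L2 k) (M2 k),
    map_mul, map_mul, map_pow, map_pow, mul_comm]
  rfl

end Par

end Vale.Agent.P190.Example
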