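import Vale.Agent.P190.Defs
import Vale.Agent.P190.Example.Hilbert
import Vale.Agent.P190.Example.Triple

/-!
# P190 Module 6: the field, the pieces, their Hilbert polynomial
-/

namespace Vale.Agent.P190.Example

open MvPolynomial

set_option linter.unusedSectionVars false

variable {k : Type} [Field k] [Infinite k] (D : Par k)

namespace Par

/-- The span of the monomials in the roots, as an algebra over the rational functions. -/
noncomputable def kumAlg : Subalgebra (L2 k) (M2 k) where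
  carrier := Set.range D.kum.Φ
  zero_mem' := ⟨0, map_zero _⟩
  add_mem' := by
    rintro _ _ ⟨f, rfl⟩ ⟨g, rfl⟩; exact ⟨f + g, map_add _ _ _⟩
  one_mem' := by
    refine ⟨Pi.single D.kum.zeroIdx 1, ?_⟩
    rw [Kummer.Φ_apply, Finset.sum_eq_single D.kum.zeroIdx (fun ρ _ h => by simp [h]) (by simp)]
    simp
  mul_mem' := by
    rintro _ _ ⟨f, rfl⟩ ⟨g, rfl⟩
    show D.kum.Φ f * D.kum.Φ g ∈ LinearMap.range D.kum.Φ
    rw [Kummer.Φ_apply, Kummer.Φ_apply, Finset.sum_mul_sum]
    refine sum_mem fun χ _ => sum_mem fun χ' _ => ?_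
    refine ⟨Pi.single (D.kum.add χ χ') (f χ * g χ' * D.kum.carry χ χ'), ?_⟩
    rw [Kummer.Φ_apply, Finset.sum_eq_single (D.kum.add χ χ') (fun ρ _ h => by simp [h]) (by simp),
      Pi.single_eq_same, map_mul, map_mul, mul_mul_mul_comm, D.kum.rx_mul]
    ring
  algebraMap_mem' := fun a => by
    refine ⟨Pi.single D.kum.zeroIdx a, ?_⟩
    rw [Kummer.Φ_apply, Finset.sum_eq_single D.kum.zeroIdx (fun ρ _ h => by simp [h]) (by simp)]
    simp

/-- The field of the surface: `k(X, Y, u, v, w)`. -/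
noncomputable def field : IntermediateField (L2 k) (M2 k) :=
  D.kumAlg.toIntermediateField' D.kumAlg.isField_of_algebraic

/-- The field as a type. -/
abbrev K : Type := D.field

/-- The scalar action used throughout is the one of the algebra structure. -/
noncomputable instance (priority := 10000) moduleK : Module k D.K := Algebra.toModule

theorem mem_field {z : M2 k} : z ∈ D.field ↔ ∃ f, D.kum.Φ f = z := Iff.rfl

theorem Φ_mem (f : D.kum.Idx → L2 k) : D.kum.Φ f ∈ D.field := ⟨f, rfl⟩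

theorem monomial_mem (χ : D.kum.Idx) (φ : L2 k) :
    algebraMap (L2 k) (M2 k) φ * D.kum.rx χ ∈ D.field := by
  refine ⟨Pi.single χ φ, ?_⟩
  rw [Kummer.Φ_apply, Finset.sum_eq_single χ (fun ρ _ h => by simp [h]) (by simp)]
  simp

theorem apply_mem_field (σ : M2 k ≃ₐ[L2 k] M2 k) {z : M2 k} (hz : z ∈ D.field) :
    σ z ∈ D.field := by
  obtain ⟨f, rfl⟩ := D.mem_field.mp hz
  rw [Kummer.apply_Φ]
  exact D.Φ_mem _

theorem Sec_subset_field {j : ℕ} {z : M2 k} (hz : z ∈ D.grad.Sec j) : z ∈ D.field := by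
  obtain ⟨f, -, rfl⟩ := D.grad.mem_Sec.mp hz
  exact D.Φ_mem f

instance finiteDimensional_K : FiniteDimensional (L2 k) D.K := by
  have h : FiniteDimensional (L2 k) (LinearMap.range D.kum.Φ) := inferInstance
  exact h

/-- The three parameters in the field. -/
noncomputable def TK (s : k) (i : Fin 3) : D.K := ⟨D.T s i, D.Sec_subset_field (D.T_mem s i)⟩

theorem TK_ne (s : k) (i : Fin 3) : D.TK s i ≠ 0 := fun h => D.T_ne s i (congrArg Subtype.val h)

/-- `y/x`. -/
noncomputable def eta (s : k) : D.K := D.TK s 1 / D.TK s 0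

/-- `z/x`. -/
noncomputable def zeta (s : k) : D.K := D.TK s 2 / D.TK s 0

/-- `q ↦ q x^n`. -/
noncomputable def rep (s : k) (n : ℕ) : D.K →ₗ[k] M2 k where
  toFun q := (q : M2 k) * D.T s 0 ^ n
  map_add' a b := by rw [IntermediateField.coe_add, add_mul]
  map_smul' a q := by
    show ((a • q : D.K) : M2 k) * _ = a • ((q : M2 k) * _)
    rw [IntermediateField.coe_smul, Algebra.smul_def, Algebra.smul_def, mul_assoc]

theorem rep_apply (s : k) (n : ℕ) (q : D.K) : D.rep s n q = (q : M2 k) * D.T s 0 ^ n := rfl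

theorem rep_injective (s : k) (n : ℕ) : Function.Injective (D.rep s n) := fun a b h =>
  Subtype.ext (mul_right_cancel₀ (pow_ne_zero n (D.T_ne s 0)) h)

/-- The degree `n` pieces, divided by `x^n`. -/
noncomputable def R (s : k) : ℤ → Submodule k D.K
  | Int.ofNat n => (D.grad.Sec n).comap (D.rep s n)
  | Int.negSucc _ => ⊥

theorem mem_R {s : k} {n : ℕ} {q : D.K} :
    q ∈ D.R s n ↔ (q : M2 k) * D.T s 0 ^ n ∈ D.grad.Sec n := Iff.rfl

theorem R_neg (s : k) {n : ℤ} (hn : n < 0) : D.R s n = ⊥ := by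
  obtain ⟨m, rfl⟩ := Int.eq_negSucc_of_lt_zero hn
  rfl

theorem exists_mem_R {s : k} {n : ℕ} {z : M2 k} (hz : z ∈ D.grad.Sec n) :
    ∃ q ∈ D.R s n, (q : M2 k) * D.T s 0 ^ n = z := by
  refine ⟨⟨z, D.Sec_subset_field hz⟩ / D.TK s 0 ^ n, ?_⟩
  have h : ((⟨z, D.Sec_subset_field hz⟩ / D.TK s 0 ^ n : D.K) : M2 k) * D.T s 0 ^ n = z := by
    rw [IntermediateField.coe_div, IntermediateField.coe_pow]
    exact div_mul_cancel₀ z (pow_ne_zero n (D.T_ne s 0))
  exact ⟨D.mem_R.mpr (by rw [h]; exact hz), h⟩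

theorem one_mem_R_one (s : k) : (1 : D.K) ∈ D.R s 1 :=
  (D.mem_R (n := 1)).mpr (by simpa using D.T_mem s 0)

theorem div_TK_mem (s : k) (i : Fin 3) : D.TK s i / D.TK s 0 ∈ D.R s 1 := by
  refine (D.mem_R (n := 1)).mpr ?_
  rw [IntermediateField.coe_div, pow_one]
  have : ((D.TK s 0 : D.K) : M2 k) = D.T s 0 := rfl
  rw [this, div_mul_cancel₀ _ (D.T_ne s 0)]
  exact D.T_mem s i

theorem mul_mem_R (s : k) (i j : ℤ) (a : D.K) (ha : a ∈ D.R s i) (b : D.K) (hb : b ∈ D.R s j) :
    a * b ∈ D.R s (i + j) := by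
  rcases i with i | i
  · rcases j with j | j
    · show a * b ∈ D.R s ((i : ℤ) + (j : ℤ))
      rw [← Nat.cast_add, mem_R]
      have := D.grad.mul_mem_Sec (D.mem_R.mp ha) (D.mem_R.mp hb)
      rw [IntermediateField.coe_mul, pow_add]
      convert this using 1
      ring
    · rw [show b = 0 from (Submodule.mem_bot k).mp hb, mul_zero]; exact zero_mem _
  · rw [show a = 0 from (Submodule.mem_bot k).mp ha, zero_mul]; exact zero_mem _

instance finiteDimensional_block_all (χ : D.kum.Idx) (j : ℕ) :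
    FiniteDimensional k (D.grad.block χ j) := by
  have hfd := ((⟨3 * j, 3 * j, 3 * j, 0⟩ : Hexa).finrank_span (k := k)).2
  let f : P2 k →ₗ[k] L2 k := (IsScalarTower.toAlgHom k (P2 k) (L2 k)).toLinearMap
  refine Submodule.finiteDimensional_of_le
    (S₂ := Submodule.map f ((⟨3 * j, 3 * j, 3 * j, 0⟩ : Hexa).span k)) fun φ hφ => ?_
  rcases (D.mem_block_iff (χ := χ)).mp hφ with rfl | ⟨p, rfl, hp⟩
  · exact zero_mem _
  · refine ⟨p, fun d hd => ?_, rfl⟩
    have := totalDegree_le_iff.mp le_rfl d hd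
    have := hp.deg
    simp only [Hexa.Mem]
    omega

instance finiteDimensional_R (s : k) (n : ℤ) : FiniteDimensional k (D.R s n) := by
  rcases n with n | n
  · have hle : (D.R s n).map (D.rep s n) ≤ D.grad.Sec n := Submodule.map_comap_le _ _
    haveI : FiniteDimensional k ((D.R s n).map (D.rep s n)) :=
      Submodule.finiteDimensional_of_le hle
    exact Module.Finite.equiv (Submodule.equivMapOfInjective _ (D.rep_injective s n) (D.R s n)).symm
  · show FiniteDimensional k (⊥ : Submodule k D.K)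
    infer_instance

theorem finrank_R (s : k) (n : ℕ) :
    Module.finrank k (D.R s n) = Module.finrank k (D.grad.Sec n) := by
  rw [(Submodule.equivMapOfInjective _ (D.rep_injective s n) (D.R s n)).finrank_eq]
  have hmap : (D.R s n).map (D.rep s n) = D.grad.Sec n :=
    le_antisymm (Submodule.map_comap_le _ _) fun z hz => by
      obtain ⟨q, hq, e⟩ := D.exists_mem_R (s := s) hz
      exact ⟨q, hq, e⟩
  rw [hmap]

/-- The degree. -/
def deg : ℕ := 5 * D.m ^ 3

/-- The linear coefficient of the Hilbert polynomial. -/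
def eCoef : ℚ := -((D.deg : ℚ) * ((D.m : ℚ) + 1) / 2)

/-- The constant coefficient. -/
def cCoef : ℚ :=
  (D.m : ℚ) ^ 3 * (7 * (D.m : ℚ) ^ 2 - 30 * D.m + 35) / 12 - D.deg - D.eCoef

theorem hasPoly_R (s : k) : HasPoly (D.R s) (D.deg : ℚ) D.eCoef D.cCoef := by
  rw [HasPoly, Filter.eventually_atTop]
  refine ⟨(10 * D.m + 2 : ℕ), fun n hn => ?_⟩
  obtain ⟨n', rfl⟩ : ∃ n' : ℕ, n = n' := ⟨n.toNat, by omega⟩
  rw [D.finrank_R, (D.finrank_Sec (j := n') (by omega)).1]
  simp only [hilb, cCoef, eCoef, deg]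
  push_cast
  ring

theorem R_zero (s : k) : D.R s 0 = Submodule.span k {1} := by
  refine le_antisymm (fun q hq => ?_) (Submodule.span_le.mpr ?_)
  · have hq' : (q : M2 k) ∈ D.grad.Sec 0 := by
      simpa using (D.mem_R (n := 0)).mp hq
    have hle : D.grad.Sec 0 ≤ Submodule.span k {(1 : M2 k)} := by
      refine D.grad.Sec_le fun χ φ hφ => ?_
      rcases (D.mem_block_iff (χ := χ)).mp hφ with rfl | ⟨p, rfl, hp⟩
      · simp
      obtain ⟨-, -, -, -, -, -, ht⟩ := D.ex_bounds χ
      have hd := hp.deg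
      have hχ : χ = D.kum.zeroIdx := funext fun i => Fin.ext <| by
        show ((χ i : Fin D.m) : ℕ) = 0
        fin_cases i <;> simp only [Fin.zero_eta, Fin.mk_one, Fin.reduceFinMk] <;> omega
      have hp0 : p.totalDegree = 0 := by omega
      rw [totalDegree_eq_zero_iff_eq_C] at hp0
      rw [hp0, hχ, Kummer.rx_zeroIdx, mul_one, Submodule.mem_span_singleton]
      refine ⟨coeff 0 p, ?_⟩
      refine ((Algebra.algebraMap_eq_smul_one (A := M2 k) (coeff 0 p)).symm).trans ?_
      rw [← MvPolynomial.algebraMap_eq,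
        ← IsScalarTower.algebraMap_apply k (P2 k) (L2 k), ← IsScalarTower.algebraMap_apply]
    obtain ⟨a, ha⟩ := Submodule.mem_span_singleton.mp (hle hq')
    exact Submodule.mem_span_singleton.mpr ⟨a, Subtype.ext ha⟩
  · simp only [Set.singleton_subset_iff, SetLike.mem_coe]
    exact (D.mem_R (n := 0)).mpr (by simpa using D.grad.one_mem_Sec)

end Par

end Vale.Agent.P190.Example
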