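import Mathlib

/-!
P190: the trace dual has poles bounded by one less than the ramification: if all the traces of
`a * R` are integral and `g * a * r` is integral, then the latter lies in every prime over `g`
at which the degree is invertible.
-/

open Polynomial

namespace Vale.Agent.P190.Example

/-- In a domain, if all power sums of a family vanish and the size of the family is invertible
then the family vanishes. -/
theorem eq_zero_of_powerSum {Q ι : Type*} [CommRing Q] [IsDomain Q] [Fintype ι]
    (hchar : ∀ m : ℕ, 0 < m → m ≤ Fintype.card ι → (m : Q) ≠ 0) (v : ι → Q)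
    (h : ∀ n : ℕ, 0 < n → ∑ i, v i ^ n = 0) (i₀ : ι) : v i₀ = 0 := by
  classical
  by_contra h₀
  set W := (Finset.univ.image v).erase (v i₀)
  set p : Q[X] := X * ∏ w ∈ W, (X - C w)
  have hp₀ : p.coeff 0 = 0 := coeff_X_mul_zero _
  have hsum : ∑ i, p.eval (v i) = 0 := by
    simp only [eval_eq_sum_range]
    rw [Finset.sum_comm]
    refine Finset.sum_eq_zero fun n _ => ?_
    rw [← Finset.mul_sum]
    rcases Nat.eq_zero_or_pos n with rfl | hn
    · rw [hp₀, zero_mul]
    · rw [h n hn, mul_zero]
  have hval : ∀ i, p.eval (v i) = if v i = v i₀ then p.eval (v i₀) else 0 := fun i => by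
    split_ifs with hi
    · rw [hi]
    · have hmem : v i ∈ W := Finset.mem_erase.2 ⟨hi, Finset.mem_image_of_mem v (Finset.mem_univ i)⟩
      rw [eval_mul, eval_prod, Finset.prod_eq_zero hmem (by simp), mul_zero]
  rw [Finset.sum_congr rfl (fun i _ => hval i), ← Finset.sum_filter, Finset.sum_const,
    nsmul_eq_mul, mul_eq_zero] at hsum
  rcases hsum with hm | he
  · exact hchar _ (Finset.card_pos.2 ⟨i₀, by simp⟩) (Finset.card_le_univ _) hm
  · rw [eval_mul, eval_X, eval_prod, mul_eq_zero, Finset.prod_eq_zero_iff] at he
    rcases he with he | ⟨w, hw, he⟩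
    · exact h₀ he
    · rw [eval_sub, eval_X, eval_C, sub_eq_zero] at he
      exact (Finset.mem_erase.1 hw).1 he.symm

variable {A R K L : Type*} [CommRing A] [CommRing R] [Field K] [Field L] [Algebra A K]
  [Algebra K L] [Algebra A L] [IsScalarTower A K L] [Algebra A R] [Algebra R L]
  [IsScalarTower A R L] [FiniteDimensional K L] [Algebra.IsSeparable K L]
  [Algebra.IsIntegral A R]

/-- An integral element whose powers have traces divisible by `g` lies in every prime over `g`
at which the degree is invertible. -/
theorem mem_of_trace_pow (hinj : Function.Injective (algebraMap R L)) (P : Ideal R) [P.IsPrime]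
    {g : A} (hg : algebraMap A R g ∈ P)
    (hchar : ∀ m : ℕ, 0 < m → m ≤ Module.finrank K L → (m : R) ∉ P) (z : R)
    (h : ∀ n : ℕ, 0 < n →
      ∃ b : A, Algebra.trace K L (algebraMap R L z ^ n) = algebraMap A K (g * b)) : z ∈ P := by
  let F := AlgebraicClosure L
  let A' := integralClosure A F
  let f : R →ₐ[A] A' := (IsScalarTower.toAlgHom A R F).codRestrict A' fun r => by
    exact (Algebra.IsIntegral.isIntegral (R := A) r).map (IsScalarTower.toAlgHom A R F)
  let _ : Algebra R A' := f.toRingHom.toAlgebra
  have : IsScalarTower A R A' := IsScalarTower.of_algebraMap_eq fun a => (f.commutes a).symm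
  have : Algebra.IsIntegral R A' := Algebra.IsIntegral.tower_top (R := A)
  have hker : RingHom.ker (algebraMap R A') ≤ P := by
    intro r hr
    have h1 : algebraMap R F r = 0 := congrArg Subtype.val (RingHom.mem_ker.1 hr)
    rw [IsScalarTower.algebraMap_apply R L F, map_eq_zero] at h1
    rw [show r = 0 from hinj (h1.trans (map_zero _).symm)]
    exact P.zero_mem
  obtain ⟨q, hq, hqP⟩ := Ideal.exists_ideal_over_prime_of_isIntegral_of_isDomain P hker
  have hqP' : ∀ r : R, r ∈ P ↔ algebraMap R A' r ∈ q := fun r => by
    rw [← hqP, Ideal.mem_comap]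
  have hint : ∀ σ : L →ₐ[K] F, IsIntegral A (σ (algebraMap R L z)) := fun σ =>
    (((Algebra.IsIntegral.isIntegral (R := A) z).map (IsScalarTower.toAlgHom A R L)).map
      (σ.restrictScalars A))
  let v : (L →ₐ[K] F) → A' ⧸ q := fun σ => Ideal.Quotient.mk q ⟨σ (algebraMap R L z), hint σ⟩
  have hz : v (IsScalarTower.toAlgHom K L F) = 0 := by
    refine eq_zero_of_powerSum (fun m hm hle h0 => ?_) v (fun n hn => ?_) _
    · rw [AlgHom.card] at hle
      refine hchar m hm hle ((hqP' _).2 ?_)
      rw [map_natCast, ← Ideal.Quotient.eq_zero_iff_mem, map_natCast]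
      exact h0
    · obtain ⟨b, hb⟩ := h n hn
      simp only [v, ← map_pow, ← map_sum]
      rw [Ideal.Quotient.eq_zero_iff_mem]
      have he : ∑ σ : L →ₐ[K] F, (⟨σ (algebraMap R L z), hint σ⟩ : A') ^ n
          = algebraMap R A' (algebraMap A R (g * b)) := by
        refine Subtype.ext ?_
        rw [AddSubmonoidClass.coe_finsetSum]
        simp only [SubmonoidClass.coe_pow, ← map_pow]
        rw [← trace_eq_sum_embeddings F, map_pow, hb, ← IsScalarTower.algebraMap_apply A R A',
          ← IsScalarTower.algebraMap_apply A K F]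
        rfl
      rw [he, ← hqP', map_mul]
      exact P.mul_mem_right _ hg
  refine (hqP' z).2 (Ideal.Quotient.eq_zero_iff_mem.1 ?_)
  rw [← hz]
  refine congrArg (Ideal.Quotient.mk q) (Subtype.ext ?_)
  exact IsScalarTower.algebraMap_apply R L F z

/-- If the traces of `a * R` are integral then every integral element of `g * a * R` lies in
every prime over `g`: the poles of `a` are smaller than the ramification. -/
theorem mem_of_trace_dual (hinj : Function.Injective (algebraMap R L)) (P : Ideal R) [P.IsPrime]
    {g : A} (hg : algebraMap A R g ∈ P)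
    (hchar : ∀ m : ℕ, 0 < m → m ≤ Module.finrank K L → (m : R) ∉ P) (a : L)
    (ha : ∀ r : R, ∃ b : A, Algebra.trace K L (a * algebraMap R L r) = algebraMap A K b)
    (r s : R) (hs : algebraMap R L s = algebraMap A L g * a * algebraMap R L r) : s ∈ P := by
  refine mem_of_trace_pow hinj P hg hchar s fun n hn => ?_
  obtain ⟨n, rfl⟩ := Nat.exists_eq_add_of_le' hn
  obtain ⟨b, hb⟩ := ha (r * s ^ n)
  refine ⟨b, ?_⟩
  have he : algebraMap R L s ^ (n + 1)
      = algebraMap A K g • (a * algebraMap R L (r * s ^ n)) := by
    rw [Algebra.smul_def, map_mul (algebraMap R L), map_pow, pow_succ',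
      ← IsScalarTower.algebraMap_apply A K L, hs]
    ring
  rw [he, map_smul, hb, smul_eq_mul, map_mul]

end Vale.Agent.P190.Example
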