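import Vale.Agent.P190.Example.TraceDual

/-!
P190: the poles of the trace dual, measured at a valuation ring with logarithmic derivations.

`B` is a valuation ring of `K`.  A derivation is logarithmic at `B` if it divides no value:
`δ x ∈ x B`.  If `δ₀, δ₁` are logarithmic and `a₀, a₁` parameters of an affine chart of the
projection, then `w det (δᵢ aⱼ)` has positive value for every `w` in the trace dual.
-/

open MvPolynomial

namespace Vale.Agent.P190.Example

variable {k K : Type*} [Field k] [Field K] [Algebra k K] (B : ValuationSubring K)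

/-- `x` has value at least that of `y`. -/
def LE' (y x : K) : Prop := ∃ b ∈ B, x = b * y

/-- `x` has positive value. -/
def Pos (x : K) : Prop := B.valuation x < 1

theorem exists_pow_mul {L₀ : Type*} [Field L₀] [Algebra L₀ K] [FiniteDimensional L₀ K] {π : K}
    (hbase : ∀ c : L₀, c ≠ 0 → ∃ i : ℤ, B.valuation (algebraMap L₀ K c) = B.valuation π ^ i)
    {x : K} (hx : x ≠ 0) :
    ∃ n : ℕ, 0 < n ∧ n ≤ Module.finrank L₀ K ∧ ∃ i : ℤ, B.valuation (x ^ n) = B.valuation π ^ i := by
  classical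
  set v := B.valuation
  set p := minpoly L₀ x
  have hint : IsIntegral L₀ x := IsIntegral.of_finite L₀ x
  have hsum : ∑ i ∈ Finset.range (p.natDegree + 1), algebraMap L₀ K (p.coeff i) * x ^ i = 0 := by
    have h := minpoly.aeval L₀ x
    rw [Polynomial.aeval_eq_sum_range] at h
    simpa only [Algebra.smul_def] using h
  obtain ⟨j, hj, hmax⟩ := Finset.exists_max_image (Finset.range (p.natDegree + 1))
    (fun i => v (algebraMap L₀ K (p.coeff i) * x ^ i)) ⟨0, by simp⟩
  have hpos : 0 < v (algebraMap L₀ K (p.coeff j) * x ^ j) := by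
    refine lt_of_lt_of_le ?_ (hmax p.natDegree (by simp))
    have h1 : p.coeff p.natDegree = 1 := (minpoly.monic hint).coeff_natDegree
    rw [h1, map_one, one_mul, zero_lt_iff, Valuation.ne_zero_iff]
    exact pow_ne_zero _ hx
  obtain ⟨l, hl, hlj, he⟩ : ∃ l ∈ Finset.range (p.natDegree + 1), l ≠ j ∧
      v (algebraMap L₀ K (p.coeff l) * x ^ l) = v (algebraMap L₀ K (p.coeff j) * x ^ j) := by
    by_contra! hne
    have h := v.map_sum_eq_of_lt (s := Finset.range (p.natDegree + 1))
      (f := fun i => algebraMap L₀ K (p.coeff i) * x ^ i) hj fun i hi => by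
        rw [Finset.mem_sdiff, Finset.mem_singleton] at hi
        exact lt_of_le_of_ne (hmax i hi.1) (hne i hi.1 hi.2)
    rw [hsum, map_zero] at h
    exact hpos.ne h
  have hdeg : p.natDegree ≤ Module.finrank L₀ K := minpoly.natDegree_le x
  have key : ∀ a b : ℕ, a < b → b ≤ p.natDegree →
      v (algebraMap L₀ K (p.coeff a) * x ^ a) = v (algebraMap L₀ K (p.coeff b) * x ^ b) →
      0 < v (algebraMap L₀ K (p.coeff b) * x ^ b) →
      ∃ n : ℕ, 0 < n ∧ n ≤ Module.finrank L₀ K ∧ ∃ i : ℤ, v (x ^ n) = v π ^ i := by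
    intro a b hab hb hab' hb0
    obtain ⟨n, rfl⟩ := Nat.exists_eq_add_of_le hab.le
    have ha0 := hab' ▸ hb0
    simp only [map_mul, zero_lt_iff, ne_eq, mul_eq_zero, not_or] at ha0 hb0
    obtain ⟨i, hi⟩ := hbase (p.coeff a) (fun h => ha0.1 (by simp [h]))
    obtain ⟨i', hi'⟩ := hbase (p.coeff (a + n)) (fun h => hb0.1 (by simp [h]))
    refine ⟨n, by omega, by omega, i - i', ?_⟩
    have hπ : ∀ t : ℤ, t ≠ 0 → v π ^ t ≠ 0 → v π ≠ 0 := fun t ht h h0 =>
      h (by rw [h0, zero_zpow _ ht])
    rw [map_mul, map_mul, pow_add x, map_mul, hi, hi', mul_left_comm, mul_comm (v π ^ i)] at hab'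
    have hxa : v (x ^ a) ≠ 0 := by simpa [Valuation.ne_zero_iff] using pow_ne_zero a hx
    have h2 := mul_left_cancel₀ hxa hab'
    rcases eq_or_ne (v π) 0 with h0 | h0
    · rcases eq_or_ne i' 0 with rfl | hne
      · simpa using h2.symm
      · exact absurd (hi'.trans (by rw [h0, zero_zpow _ hne])) hb0.1
    · rw [zpow_sub₀ h0, eq_div_iff (zpow_ne_zero _ h0), mul_comm]
      exact h2.symm
  simp only [Finset.mem_range, Nat.lt_succ_iff] at hj hl
  rcases lt_or_gt_of_ne hlj with h | h
  · exact key l j h hj he hpos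
  · exact key j l h hl he.symm (he ▸ hpos)

theorem unit_mem {x : K} (hx : B.valuation x = 1) : x ∈ B ∧ x⁻¹ ∈ B := by
  refine ⟨(B.valuation_le_one_iff x).1 hx.le, (B.valuation_le_one_iff _).1 ?_⟩
  rw [map_inv₀, hx, inv_one]

/-- A derivation that preserves `B` and is logarithmic at a uniformiser of a subfield over which
`K` is finite, is logarithmic everywhere. -/
theorem log_of_base {L₀ : Type*} [Field L₀] [Algebra L₀ K] [FiniteDimensional L₀ K] {π : K}
    (hπ : π ≠ 0)
    (hbase : ∀ c : L₀, c ≠ 0 → ∃ i : ℤ, B.valuation (algebraMap L₀ K c) = B.valuation π ^ i)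
    (hn : ∀ n : ℕ, 0 < n → n ≤ Module.finrank L₀ K → B.valuation (n : K) = 1)
    (δ : Derivation k K K) (hδ : ∀ x ∈ B, δ x ∈ B) (hδπ : LE' B π (δ π)) (x : K) :
    LE' B x (δ x) := by
  rcases eq_or_ne x 0 with rfl | hx
  · exact ⟨0, B.zero_mem, by simp⟩
  obtain ⟨n, hn0, hnd, i, hi⟩ := exists_pow_mul B hbase hx
  obtain ⟨c, hc, hcπ⟩ := hδπ
  set u := x ^ n / π ^ i with hu
  have hu1 : B.valuation u = 1 := by
    rw [hu, map_div₀, map_zpow₀, hi, div_self]
    exact zpow_ne_zero _ ((Valuation.ne_zero_iff _).2 hπ)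
  have hu0 : u ≠ 0 := div_ne_zero (pow_ne_zero _ hx) (zpow_ne_zero _ hπ)
  have hxn : x ^ n = π ^ i * u := by rw [hu, mul_div_cancel₀ _ (zpow_ne_zero _ hπ)]
  have hd : (n : K) * δ x / x = (i : K) * c + δ u / u := by
    have h := congrArg (fun z => δ z / (π ^ i * u)) hxn
    simp only [Derivation.leibniz, Derivation.leibniz_zpow, hcπ, smul_eq_mul] at h
    rw [← hxn] at h
    rw [Derivation.leibniz_pow, smul_eq_mul, nsmul_eq_mul] at h
    rw [hxn] at h
    have hl : (n : K) * x ^ (n - 1) * δ x / (x ^ n) = (n : K) * δ x / x := by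
      obtain ⟨q, rfl⟩ := Nat.exists_eq_add_of_le' hn0
      rw [Nat.add_sub_cancel, pow_succ]
      field_simp
    rw [← hl, hxn, mul_assoc, h, zsmul_eq_mul, zpow_sub_one₀ hπ]
    field_simp
    ring
  have hnK : (n : K) ≠ 0 := fun h => by simpa [h] using hn n hn0 hnd
  refine ⟨(n : K)⁻¹ * ((i : K) * c + δ u / u),
    B.mul_mem _ _ (unit_mem B (hn n hn0 hnd)).2 (B.add_mem _ _ (B.mul_mem _ _ ?_ hc) ?_), ?_⟩
  · exact intCast_mem B i
  · rw [div_eq_mul_inv]
    exact B.mul_mem _ _ (hδ u (unit_mem B hu1).1) (unit_mem B hu1).2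
  · rw [← hd]
    field_simp

section Poly

variable {σ : Type*} [Fintype σ]

omit [Fintype σ] in
theorem totalDegree_pderiv_lt {f : MvPolynomial σ k} (i : σ) (h : pderiv i f ≠ 0) :
    (pderiv i f).totalDegree < f.totalDegree := by
  classical
  obtain ⟨m, hm, hmax⟩ := Finset.exists_max_image (pderiv i f).support
    (fun m => m.sum fun _ e => e) (support_nonempty.2 h)
  have hm' : m + Finsupp.single i 1 ∈ f.support := by
    rw [mem_support_iff, coeff_pderiv] at hm
    exact mem_support_iff.2 (left_ne_zero_of_mul hm)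
  have h1 := le_totalDegree hm'
  rw [Finsupp.sum_add_index' (fun _ => rfl) (fun _ _ _ => rfl), Finsupp.sum_single_index rfl] at h1
  have h2 : (pderiv i f).totalDegree ≤ m.sum fun _ e => e := Finset.sup_le hmax
  omega

omit [Fintype σ] in
theorem exists_pow_char {p : ℕ} (hp : p.Prime) [CharP k p] (hroot : ∀ c : k, ∃ r, r ^ p = c)
    {f : MvPolynomial σ k} (h : ∀ i, pderiv i f = 0) : ∃ g, g ^ p = f := by
  classical
  have := Fact.mk hp
  choose root hroot using hroot
  have hdvd : ∀ m ∈ f.support, ∀ i, p ∣ m i := fun m hm i => by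
    rcases Nat.eq_zero_or_pos (m i) with h0 | h0
    · rw [h0]; exact dvd_zero p
    · have e : m - Finsupp.single i 1 + Finsupp.single i 1 = m :=
        tsub_add_cancel_of_le (Finsupp.single_le_iff.2 h0)
      have h1 := coeff_pderiv (i := i) f (m - Finsupp.single i 1)
      rw [h i, coeff_zero, e, eq_comm, mul_eq_zero] at h1
      rcases h1 with h1 | h1
      · exact absurd h1 (mem_support_iff.1 hm)
      · rw [Finsupp.tsub_apply, Finsupp.single_eq_same, ← Nat.cast_add_one,
          CharP.cast_eq_zero_iff k p, Nat.sub_add_cancel h0] at h1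
        exact h1
  refine ⟨∑ m ∈ f.support, monomial (m.mapRange (· / p) (Nat.zero_div p)) (root (coeff m f)), ?_⟩
  conv_rhs => rw [f.as_sum]
  rw [sum_pow_char]
  refine Finset.sum_congr rfl fun m hm => ?_
  rw [monomial_pow, hroot]
  have he : p • m.mapRange (· / p) (Nat.zero_div p) = m := Finsupp.ext fun i => by
    simp [Nat.mul_div_cancel' (hdvd m hm i)]
  rw [he]

/-- A polynomial of least degree among the nonzero ones of positive value has a partial
derivative of value zero. -/
theorem exists_unit_pderiv (hk : ∀ c : k, algebraMap k K c ∈ B) (a : σ → K) (ha : ∀ i, a i ∈ B)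
    (hroot : ∀ p : ℕ, p.Prime → CharP k p → ∀ c : k, ∃ r, r ^ p = c)
    (h : ∃ f : MvPolynomial σ k, f ≠ 0 ∧ Pos B (aeval a f)) :
    ∃ f : MvPolynomial σ k, Pos B (aeval a f) ∧
      ∃ i, B.valuation (aeval a (pderiv i f)) = 1 := by
  classical
  have hex : ∃ n, ∃ f : MvPolynomial σ k, f ≠ 0 ∧ Pos B (aeval a f) ∧ f.totalDegree = n :=
    let ⟨f, h1, h2⟩ := h; ⟨_, f, h1, h2, rfl⟩
  obtain ⟨f, hf0, hf, hdeg⟩ := Nat.find_spec hex
  have hmin : ∀ g : MvPolynomial σ k, g ≠ 0 → Pos B (aeval a g) → f.totalDegree ≤ g.totalDegree :=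
    fun g h1 h2 => hdeg.symm ▸ Nat.find_min' hex ⟨g, h1, h2, rfl⟩
  have hle : ∀ g : MvPolynomial σ k, B.valuation (aeval a g) ≤ 1 := fun g => by
    rw [B.valuation_le_one_iff]
    induction g using MvPolynomial.induction_on with
    | C c => simpa using hk c
    | add p q hp hq => rw [map_add]; exact B.add_mem _ _ hp hq
    | mul_X p i hp => rw [map_mul, aeval_X]; exact B.mul_mem _ _ hp (ha i)
  by_cases hd : ∀ i, pderiv i f = 0
  · exfalso
    have hconst : f.totalDegree ≠ 0 := fun h0 => by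
      rw [totalDegree_eq_zero_iff_eq_C] at h0
      have hc : coeff 0 f ≠ 0 := fun hc => hf0 (by rw [h0, hc, map_zero])
      rw [h0] at hf
      have h1 : B.valuation (algebraMap k K (coeff 0 f)) = 1 := by
        refine le_antisymm ((B.valuation_le_one_iff _).2 (hk _)) ?_
        have h2 := (B.valuation_le_one_iff _).2 (hk (coeff 0 f)⁻¹)
        rw [map_inv₀, map_inv₀] at h2
        exact (inv_le_one₀ (zero_lt_iff.2 ((Valuation.ne_zero_iff _).2
          ((map_ne_zero _).2 hc)))).1 h2
      simp only [Pos, aeval_C, h1] at hf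
      exact lt_irrefl _ hf
    obtain ⟨p, hp⟩ := CharP.exists k
    rcases CharP.char_is_prime_or_zero k p with hp' | hp'
    · obtain ⟨g, rfl⟩ := exists_pow_char hp' (hroot p hp' hp) hd
      have hg0 : g ≠ 0 := fun h0 => hf0 (by rw [h0, zero_pow hp'.ne_zero])
      have hg : Pos B (aeval a g) := by
        by_contra hg
        have h1 : B.valuation (aeval a g) = 1 := le_antisymm (hle g) (not_lt.1 hg)
        simp [Pos, h1] at hf
      have h2 := hmin g hg0 hg
      have h3 : ∀ n : ℕ, (g ^ n).totalDegree = n * g.totalDegree := fun n => by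
        induction n with
        | zero => simp
        | succ n ih => rw [pow_succ, totalDegree_mul_of_isDomain (pow_ne_zero n hg0) hg0, ih]; ring
      have := hp'.two_le
      rw [h3] at h2 hconst
      nlinarith [Nat.pos_of_ne_zero (right_ne_zero_of_mul hconst)]
    · subst hp'
      have : CharZero k := CharP.charP_to_charZero k
      refine hconst ((totalDegree_eq_zero_iff σ f).2 fun m hm i => ?_)
      by_contra hmi
      have e : m - Finsupp.single i 1 + Finsupp.single i 1 = m :=
        tsub_add_cancel_of_le (Finsupp.single_le_iff.2 (Nat.one_le_iff_ne_zero.2 hmi))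
      have h1 := coeff_pderiv (i := i) f (m - Finsupp.single i 1)
      rw [hd i, coeff_zero, e, eq_comm, mul_eq_zero, ← Nat.cast_add_one] at h1
      rcases h1 with h1 | h1
      · exact absurd h1 (mem_support_iff.1 hm)
      · exact Nat.succ_ne_zero _ (Nat.cast_eq_zero.1 h1)
  · push Not at hd
    obtain ⟨i, hi⟩ := hd
    refine ⟨f, hf, i, le_antisymm (hle _) (not_lt.1 fun h0 => ?_)⟩
    exact absurd (hmin _ hi h0) (not_le.2 (totalDegree_pderiv_lt i hi))

theorem derivation_aeval (δ : Derivation k K K) (a : σ → K) (f : MvPolynomial σ k) :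
    δ (aeval a f) = ∑ j, aeval a (pderiv j f) * δ (a j) := by
  induction f using MvPolynomial.induction_on with
  | C c => simp
  | add p q hp hq => simp [hp, hq, add_mul, Finset.sum_add_distrib]
  | mul_X p i hp =>
    classical
    simp only [map_mul, aeval_X, Derivation.leibniz, hp, smul_eq_mul, pderiv_X, map_add,
      add_mul, Finset.sum_add_distrib, Finset.mul_sum]
    congr 1
    · simp [Pi.single_apply]
    · exact Finset.sum_congr rfl fun j _ => by ring

end Poly

/-- The determinant of logarithmic derivatives of the parameters is divisible by `g`. -/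
theorem det_div_mem (a : Fin 2 → K) (ha : ∀ i, a i ∈ B)
    (δ : Fin 2 → Derivation k K K) (hδ : ∀ i x, LE' B x (δ i x))
    {f : MvPolynomial (Fin 2) k} {j : Fin 2}
    (hj : B.valuation (aeval a (pderiv j f)) = 1) :
    LE' B (aeval a f) (δ 0 (a 0) * δ 1 (a 1) - δ 0 (a 1) * δ 1 (a 0)) := by
  have hmem : ∀ i l, δ i (a l) ∈ B := fun i l => by
    obtain ⟨b, hb, e⟩ := hδ i (a l)
    rw [e]
    exact B.mul_mem _ _ hb (ha l)
  obtain ⟨b₀, hb₀, e₀⟩ := hδ 0 (aeval a f)
  obtain ⟨b₁, hb₁, e₁⟩ := hδ 1 (aeval a f)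
  rw [derivation_aeval, Fin.sum_univ_two] at e₀ e₁
  have hu := unit_mem B hj
  have hne : aeval a (pderiv j f) ≠ 0 := fun h => by simp [h] at hj
  obtain rfl | rfl : j = 0 ∨ j = 1 := by omega
  · refine ⟨(aeval a (pderiv 0 f))⁻¹ * (b₀ * δ 1 (a 1) - b₁ * δ 0 (a 1)),
      B.mul_mem _ _ hu.2 (sub_mem (B.mul_mem _ _ hb₀ (hmem _ _)) (B.mul_mem _ _ hb₁ (hmem _ _))), ?_⟩
    rw [mul_assoc, eq_inv_mul_iff_mul_eq₀ hne]
    linear_combination (δ 1 (a 1)) * e₀ - (δ 0 (a 1)) * e₁
  · refine ⟨(aeval a (pderiv 1 f))⁻¹ * (b₁ * δ 0 (a 0) - b₀ * δ 1 (a 0)),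
      B.mul_mem _ _ hu.2 (sub_mem (B.mul_mem _ _ hb₁ (hmem _ _)) (B.mul_mem _ _ hb₀ (hmem _ _))), ?_⟩
    rw [mul_assoc, eq_inv_mul_iff_mul_eq₀ hne]
    linear_combination (δ 0 (a 0)) * e₁ - (δ 1 (a 0)) * e₀

variable {A R : Type*} [CommRing A] [CommRing R] {F : Type*} [Field F] [Algebra A F] [Algebra F K]
  [Algebra A K] [IsScalarTower A F K] [Algebra A R] [Algebra R K] [IsScalarTower A R K]
  [FiniteDimensional F K] [Algebra.IsSeparable F K] [Algebra.IsIntegral A R]

/-- If the traces of `w * R` are integral and `D` is divisible by an element of positive value of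
the base, then `w D` has positive value. -/
theorem pole_bound (hinj : Function.Injective (algebraMap R K))
    (hRB : ∀ r : R, algebraMap R K r ∈ B)
    (hfrac : ∀ x ∈ B, ∃ r s : R, B.valuation (algebraMap R K s) = 1 ∧
      x * algebraMap R K s = algebraMap R K r)
    (hn : ∀ n : ℕ, 0 < n → n ≤ Module.finrank F K → B.valuation (n : K) = 1)
    {g : A} (hg : Pos B (algebraMap A K g)) {w D : K} (hD : LE' B (algebraMap A K g) D)
    (hw : ∀ r : R, ∃ b : A, Algebra.trace F K (w * algebraMap R K r) = algebraMap A F b) :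
    Pos B (w * D) := by
  by_contra hpos
  let P : Ideal R :=
    { carrier := {r | Pos B (algebraMap R K r)}
      zero_mem' := by simp [Pos]
      add_mem' := fun {r s} hr hs => by
        simp only [Set.mem_ofPred_eq, Pos, map_add]
        exact Valuation.map_add_lt _ hr hs
      smul_mem' := fun c r hr => by
        simp only [Set.mem_ofPred_eq, Pos, smul_eq_mul, map_mul]
        exact lt_of_le_of_lt (mul_le_of_le_one_left' ((B.valuation_le_one_iff _).2 (hRB c))) hr }
  have hP : ∀ r, r ∈ P ↔ Pos B (algebraMap R K r) := fun _ => Iff.rfl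
  have : P.IsPrime := by
    refine Ideal.IsPrime.mk ((Ideal.ne_top_iff_one P).2 (by simp [hP, Pos])) fun {r s} h => ?_
    by_contra! hrs
    rw [hP, Pos, map_mul, map_mul] at h
    exact absurd h (not_lt.2 (one_le_mul (not_lt.1 hrs.1) (not_lt.1 hrs.2)))
  obtain ⟨b, hb, hDb⟩ := hD
  have hga : 1 ≤ B.valuation (algebraMap A K g * w) := by
    refine (not_lt.1 hpos).trans ?_
    rw [hDb, show w * (b * algebraMap A K g) = algebraMap A K g * w * b by ring, map_mul]
    exact mul_le_of_le_one_right' ((B.valuation_le_one_iff _).2 hb)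
  have hx : (algebraMap A K g * w)⁻¹ ∈ B := by
    rw [← B.valuation_le_one_iff, map_inv₀]
    exact inv_le_one_of_one_le₀ hga
  have hne : algebraMap A K g * w ≠ 0 := fun h => by simp [h] at hga
  obtain ⟨r, s, hs, hrs⟩ := hfrac _ hx
  have hmem : s ∈ P := by
    refine mem_of_trace_dual (K := F) hinj P (g := g) ?_ (fun m hm hle hmP => ?_) w hw r s ?_
    · rw [hP, ← IsScalarTower.algebraMap_apply A R K]
      exact hg
    · rw [hP, Pos, map_natCast, hn m hm hle] at hmP
      exact lt_irrefl _ hmP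
    · rw [← hrs, ← mul_assoc (algebraMap A K g * w), mul_inv_cancel₀ hne, one_mul]
  rw [hP, Pos, hs] at hmem
  exact lt_irrefl _ hmem

end Vale.Agent.P190.Example
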